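import Claimed.Agent.R315.Sh.Ims

/-!
# Row 315, package Sh: from one abstract form to the three raw pieces of a status space (glue, complete)

* `sh_ctx_geo` : the geometric data (`CtGeo`, closed, `2 ≤ m α`, pressure, `CtLAM`) of a nonempty status space.
* `sh_three` : a statement about budgets which holds for every abstract form with IMS holds on the three raw pieces of `E α`.
* `ShCtx.Bud.mono` : monotonicity of the budget of a status space.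
-/

set_option autoImplicit false
open scoped ContDiff ENNReal Topology
open MeasureTheory Claims.C0499

namespace Claimed.Agent.R315

variable {V W : Type} [NormedAddCommGroup V] [NormedSpace ℝ V] [NormedAddCommGroup W] [NormedSpace ℝ W] {ι : Type}
  [FiniteDimensional ℝ V] [FiniteDimensional ℝ W] [Fintype ι] [MeasurableSpace W] [BorelSpace W]
  {C : ShCtx V W ι}

/-- the geometric data of a nonempty status space. -/
theorem sh_ctx_geo (hC : C.Ok) (α : Stat ι) (hne : (C.P.E α).Nonempty) :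
    CtGeo (C.m α) (C.P.E α) C.P.h C.P.dr ∧ IsClosed (C.P.E α) ∧ 2 ≤ C.m α ∧ SmoothAlong (C.m α) (C.P.E α) C.p ∧
      CtLAM (C.m α) (C.P.E α) C.P.h C.P.dr C.p (C.ph α) := by
  refine ⟨⟨hC.inv.diag.mfd α, hC.inv.met.met α, hC.inv.dr_sc.1 α⟩, hC.inv.diag.closed α, ?_, hC.cut.p_sc.1 α,
    hC.cut.lam α⟩
  have := hC.dim α hne
  unfold ShCtx.m
  omega

/-- from one abstract form to the three raw pieces of a nonempty `E α`, general form. -/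
theorem sh_three_gen (hC : C.Ok) (α : Stat ι) (hne : (C.P.E α).Nonempty) (Pr Qr : ShForm W → Prop)
    (H : ∀ 𝔉 : ShForm W, 𝔉.Ok (C.P.E α) →
      (∀ ϑ G : W → ℝ, SmoothAlong (C.m α) (C.P.E α) ϑ →
        (∀ x ∈ C.P.E α, 1.7 * gradSq (C.m α) (C.P.E α) C.P.h ϑ x ≤ G x) → 𝔉.Ims ϑ G) → Pr 𝔉 → Qr 𝔉)
    (h1 : Pr (shFW (C.m α) (C.P.E α) C.P.h C.P.dr (C.ph α)))
    (h2 : Pr (shFS (C.m α) (C.P.E α) C.P.h C.P.dr (C.ph α)))
    (h3 : Pr (shFS (C.m α) (C.P.E α) C.P.h C.P.dr (C.P.E α \ C.ph α))) :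
    Qr (shFW (C.m α) (C.P.E α) C.P.h C.P.dr (C.ph α)) ∧ Qr (shFS (C.m α) (C.P.E α) C.P.h C.P.dr (C.ph α)) ∧
      Qr (shFS (C.m α) (C.P.E α) C.P.h C.P.dr (C.P.E α \ C.ph α)) := by
  obtain ⟨hG, hcl, hd, hp, hA⟩ := sh_ctx_geo hC α hne
  have hp' : SmoothAlong (C.m α) (C.P.E α) (fun x => -C.p x) := fun ψ U hψ => (hp ψ U hψ).neg
  have hA' := hA.diff hG hp
  exact ⟨H _ (sh_fw_ok hG hcl hd hp hA) (fun ϑ G a b => sh_ims_wall hG hcl hd hp hA a b) h1,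
    H _ (sh_fs_ok hG hcl hd hp hA) (fun ϑ G a b => sh_ims_side hG hcl hd hp hA a b) h2,
    H _ (sh_fs_ok hG hcl hd hp' hA') (fun ϑ G a b => sh_ims_side hG hcl hd hp' hA' a b) h3⟩

/-- from one abstract form to the three raw pieces of `E α`. -/
theorem sh_three (hC : C.Ok) (α : Stat ι) {D1 D3 : W → ℝ} {D2 : ℝ → W → ℝ} {θ θ' e0 CF' : ℝ}
    (H : ∀ 𝔉 : ShForm W, 𝔉.Ok (C.P.E α) →
      (∀ ϑ G : W → ℝ, SmoothAlong (C.m α) (C.P.E α) ϑ →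
        (∀ x ∈ C.P.E α, 1.7 * gradSq (C.m α) (C.P.E α) C.P.h ϑ x ≤ G x) → 𝔉.Ims ϑ G) →
      𝔉.Bud D1 θ e0 0 → (∀ ρ, 0 < ρ → 𝔉.Bud (D2 ρ) 1 0 CF') → 𝔉.Bud D3 θ' e0 0)
    (h1 : C.Bud α D1 θ e0 0) (h2 : ∀ ρ, 0 < ρ → C.Bud α (D2 ρ) 1 0 CF') : C.Bud α D3 θ' e0 0 := by
  rcases (C.P.E α).eq_empty_or_nonempty with he | hne
  · unfold ShCtx.Bud
    rw [he]
    exact sh_bud_of_empty _ _ _ _ _ _ _ _
  exact sh_three_gen hC α hne (fun 𝔉 => 𝔉.Bud D1 θ e0 0 ∧ ∀ ρ, 0 < ρ → 𝔉.Bud (D2 ρ) 1 0 CF') (fun 𝔉 => 𝔉.Bud D3 θ' e0 0)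
    (fun 𝔉 hOk hI h => H 𝔉 hOk hI h.1 h.2) ⟨h1.1, fun ρ hρ => (h2 ρ hρ).1⟩ ⟨h1.2.1, fun ρ hρ => (h2 ρ hρ).2.1⟩
    ⟨h1.2.2, fun ρ hρ => (h2 ρ hρ).2.2⟩

omit [FiniteDimensional ℝ V] [FiniteDimensional ℝ W] in
/-- nonpositive potentials satisfy every budget. -/
theorem ShCtx.bud_zero (C : ShCtx V W ι) (α : Stat ι) {D : W → ℝ} (hD : ∀ x, D x ≤ 0) (θ e0 Cm : ℝ) :
    C.Bud α D θ e0 Cm :=
  ⟨ShForm.bud_zero (M := Set.univ) (by simp) (fun x _ => hD x) _ _ _,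
    ShForm.bud_zero (M := Set.univ) (by simp) (fun x _ => hD x) _ _ _,
    ShForm.bud_zero (M := Set.univ) (by simp) (fun x _ => hD x) _ _ _⟩

/-- the measures of an admissible form are carried by the carrier. -/
theorem ShForm.Ok.null {X : Type} [MeasurableSpace X] [TopologicalSpace X] {𝔉 : ShForm X} {M : Set X}
    (hOk : 𝔉.Ok M) (v : 𝔉.T) : 𝔉.m v Mᶜ = 0 := by
  obtain ⟨K, _, hKM, hK0⟩ := hOk.cs v
  exact measure_mono_null (Set.compl_subset_compl.2 hKM) hK0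

/-- monotonicity of the budget of a status space. -/
theorem ShCtx.Bud.mono (hC : C.Ok) {α : Stat ι} {D D' : W → ℝ} {θ θ' : ℝ} (h : C.Bud α D θ C.e0 0)
    (hD : ∀ x ∈ C.P.E α, D' x ≤ D x) (hθ : θ ≤ θ') : C.Bud α D' θ' C.e0 0 := by
  refine sh_three hC α (D2 := fun _ _ => 0) (CF' := 0) (fun 𝔉 hOk _ h1 _ => ?_) h
    (fun ρ _ => C.bud_zero α (fun _ => le_rfl) _ _ _)
  exact h1.mono hOk.N_nonneg hOk.null hD hθ hC.e0_pos.le le_rfl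

end Claimed.Agent.R315
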