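import Claimed.Agent.R315.Sh.Form
import Claimed.Agent.R315.Gs.Calc

/-!
# Row 315, package SH-IMS, tools: integrability of compactly supported continuous functions, the pointwise IMS identity, the compact part of the wall
-/

set_option autoImplicit false
open scoped ContDiff ENNReal Topology
open MeasureTheory Claims.C0499 Set

namespace Claimed.Agent.R315

variable {V : Type} [NormedAddCommGroup V] [NormedSpace ℝ V] [FiniteDimensional ℝ V]
variable {d : ℕ} {M : Set V} {h : Ten V} {t p : V → ℝ} {A : Set V}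

/-! ### pointwise calculus -/

/-- the gradient vanishes where the function vanishes identically. -/
theorem sh_gradSq_zero_off (hG : CtGeo d M h t) {f : V → ℝ} {K : Set V} (hK : IsClosed K)
    (h0 : ∀ x ∈ M, x ∉ K → f x = 0) {x : V} (hx : x ∈ M) (hxK : x ∉ K) : gradSq d M h f x = 0 := by
  rw [gs_sq_congr_near (f' := fun _ => (0 : ℝ)) (hK.isOpen_compl.mem_nhds hxK) fun y hy => h0 y hy.1 hy.2,
    gs_sq_const hG.mfd hG.met 0 hx]

theorem sh_gradSq_continuousOn (hG : CtGeo d M h t) {f : V → ℝ} (hf : SmoothAlong d M f) :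
    ContinuousOn (gradSq d M h f) M :=
  if_smoothAlong_continuousOn hG.mfd (if_gradSq_smoothAlong hG.met hf)

theorem sh_sm_sin {ϑ : V → ℝ} (hϑ : SmoothAlong d M ϑ) : SmoothAlong d M fun x => Real.sin (ϑ x) :=
  gs_sm_comp' Real.contDiff_sin hϑ

theorem sh_sm_cos {ϑ : V → ℝ} (hϑ : SmoothAlong d M ϑ) : SmoothAlong d M fun x => Real.cos (ϑ x) :=
  gs_sm_comp' Real.contDiff_cos hϑ

/-- **the pointwise IMS identity.** -/
theorem sh_ims_pt (hG : CtGeo d M h t) {ϑ v : V → ℝ} (hϑ : SmoothAlong d M ϑ) (hv : SmoothAlong d M v) {x : V}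
    (hx : x ∈ M) :
    gradSq d M h (fun y => Real.sin (ϑ y) * v y) x + gradSq d M h (fun y => Real.cos (ϑ y) * v y) x =
      gradSq d M h v x + v x ^ 2 * gradSq d M h ϑ x := by
  have hM := hG.mfd
  have hh := hG.met
  rw [gs_sq_mul hM hh (sh_sm_sin hϑ) hv hx, gs_sq_mul hM hh (sh_sm_cos hϑ) hv hx,
    gs_sq_comp hM hh isOpen_univ Real.contDiff_sin.contDiffOn hϑ (fun _ _ => mem_univ _) hx,
    gs_sq_comp hM hh isOpen_univ Real.contDiff_cos.contDiffOn hϑ (fun _ _ => mem_univ _) hx,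
    gs_ip_comp_left hM hh isOpen_univ Real.contDiff_sin.contDiffOn hϑ (fun _ _ => mem_univ _) hv hx,
    gs_ip_comp_left hM hh isOpen_univ Real.contDiff_cos.contDiffOn hϑ (fun _ _ => mem_univ _) hv hx,
    Real.deriv_sin, Real.deriv_cos]
  have h1 := Real.sin_sq_add_cos_sq (ϑ x)
  have h2 : Real.cos (ϑ x) ^ 2 = 1 - Real.sin (ϑ x) ^ 2 := by linarith
  ring_nf
  rw [h2]
  ring

/-! ### integrability -/

section meas

variable [MeasurableSpace V] [BorelSpace V]

/-- continuous functions with compact support in `M` are integrable. -/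
theorem sh_integrable_cs (hG : CtGeo d M h t) {f : V → ℝ} (hf : ContinuousOn f M) {K : Set V} (hK : IsCompact K)
    (hKM : K ⊆ M) (h0 : ∀ x ∈ M, x ∉ K → f x = 0) : Integrable f (wvol d M h t) := by
  obtain ⟨C, hC⟩ := hK.exists_bound_of_continuousOn (hf.mono hKM)
  have hfin : wvol d M h t K < ⊤ := lt_top_iff_ne_top.2 (ct_wvol_compact hG hK hKM)
  have hdom : Integrable (K.indicator fun _ => C) (wvol d M h t) :=
    (integrable_indicator_iff hK.measurableSet).2 (integrableOn_const hfin.ne)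
  have hae : ∀ᵐ x ∂(wvol d M h t), x ∈ M := by
    rw [ae_iff]
    exact ct_wvol_compl hG
  refine hdom.mono' (ct_aestronglyMeasurable hG hf) ?_
  filter_upwards [hae] with x hx
  by_cases hxK : x ∈ K
  · rw [indicator_of_mem hxK]
    exact hC x hxK
  · rw [indicator_of_notMem hxK, h0 x hx hxK, norm_zero]

theorem sh_ae_mem (hG : CtGeo d M h t) : ∀ᵐ x ∂(wvol d M h t), x ∈ M := by
  rw [ae_iff]
  exact ct_wvol_compl hG

theorem sh_aem_ofReal (hG : CtGeo d M h t) {f : V → ℝ} (hf : ContinuousOn f M) :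
    AEMeasurable (fun x => ENNReal.ofReal (f x)) (wvol d M h t) :=
  ENNReal.measurable_ofReal.comp_aemeasurable (ct_aestronglyMeasurable hG hf).aemeasurable

/-- the gradient of a compactly supported smooth function is integrable. -/
theorem sh_int_grad (hG : CtGeo d M h t) {f : V → ℝ} (hf : SmoothAlong d M f) {K : Set V} (hK : IsCompact K)
    (hKM : K ⊆ M) (h0 : ∀ x ∈ M, x ∉ K → f x = 0) : Integrable (gradSq d M h f) (wvol d M h t) :=
  sh_integrable_cs hG (sh_gradSq_continuousOn hG hf) hK hKM fun _ hx hxK =>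
    sh_gradSq_zero_off hG hK.isClosed h0 hx hxK

theorem sh_int_sq_mul (hG : CtGeo d M h t) {f g : V → ℝ} (hf : ContinuousOn f M) (hg : ContinuousOn g M) {K : Set V}
    (hK : IsCompact K) (hKM : K ⊆ M) (h0 : ∀ x ∈ M, x ∉ K → f x = 0) :
    Integrable (fun x => f x ^ 2 * g x) (wvol d M h t) :=
  sh_integrable_cs hG ((hf.pow 2).mul hg) hK hKM fun x hx hxK => by
    rw [h0 x hx hxK]
    simp

/-- **the integrated IMS identity** on a manifold (over any set `B`). -/
theorem sh_ims_int (hG : CtGeo d M h t) {ϑ v : V → ℝ} (hϑ : SmoothAlong d M ϑ) (hv : SmoothAlong d M v) {K : Set V}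
    (hK : IsCompact K) (hKM : K ⊆ M) (h0 : ∀ x ∈ M, x ∉ K → v x = 0) (B : Set V) :
    (∫ x in B, gradSq d M h (fun y => Real.sin (ϑ y) * v y) x ∂(wvol d M h t)) +
        ∫ x in B, gradSq d M h (fun y => Real.cos (ϑ y) * v y) x ∂(wvol d M h t) =
      (∫ x in B, gradSq d M h v x ∂(wvol d M h t)) +
        ∫ x in B, v x ^ 2 * gradSq d M h ϑ x ∂(wvol d M h t) := by
  have h1 : Integrable (gradSq d M h fun y => Real.sin (ϑ y) * v y) (wvol d M h t) :=
    sh_int_grad hG (gs_sm_mul (sh_sm_sin hϑ) hv) hK hKM fun x hx hxK => by rw [h0 x hx hxK, mul_zero]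
  have h2 : Integrable (gradSq d M h fun y => Real.cos (ϑ y) * v y) (wvol d M h t) :=
    sh_int_grad hG (gs_sm_mul (sh_sm_cos hϑ) hv) hK hKM fun x hx hxK => by rw [h0 x hx hxK, mul_zero]
  have h3 : Integrable (gradSq d M h v) (wvol d M h t) := sh_int_grad hG hv hK hKM h0
  have h4 : Integrable (fun x => v x ^ 2 * gradSq d M h ϑ x) (wvol d M h t) :=
    sh_int_sq_mul hG (if_smoothAlong_continuousOn hG.mfd hv) (sh_gradSq_continuousOn hG hϑ) hK hKM h0
  rw [← integral_add h1.integrableOn h2.integrableOn, ← integral_add h3.integrableOn h4.integrableOn]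
  refine integral_congr_ae (ae_restrict_of_ae ?_)
  filter_upwards [sh_ae_mem hG] with x hx
  exact sh_ims_pt hG hϑ hv hx

/-- the localisation error is paid by the potential `Gf`. -/
theorem sh_err_le (hG : CtGeo d M h t) {ϑ v : V → ℝ} (hϑ : SmoothAlong d M ϑ) (hv : SmoothAlong d M v) {K : Set V}
    (hK : IsCompact K) (hKM : K ⊆ M) (h0 : ∀ x ∈ M, x ∉ K → v x = 0) {c : ℝ} (hc : 0 ≤ c) {Gf : V → ℝ}
    (hGf : ∀ x ∈ M, c * gradSq d M h ϑ x ≤ Gf x) (B : Set V) :
    ENNReal.ofReal (c * ∫ x in B, v x ^ 2 * gradSq d M h ϑ x ∂(wvol d M h t)) ≤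
      ∫⁻ x, ENNReal.ofReal (Gf x) ∂(((wvol d M h t).restrict B).withDensity fun x => ENNReal.ofReal (v x ^ 2)) := by
  have hvc := if_smoothAlong_continuousOn hG.mfd hv
  have h4 : Integrable (fun x => c * (v x ^ 2 * gradSq d M h ϑ x)) (wvol d M h t) :=
    (sh_int_sq_mul hG hvc (sh_gradSq_continuousOn hG hϑ) hK hKM h0).const_mul c
  have hnn : ∀ x ∈ M, 0 ≤ c * (v x ^ 2 * gradSq d M h ϑ x) := fun x hx =>
    mul_nonneg hc (mul_nonneg (sq_nonneg _) (gs_sq_nonneg hG.mfd hG.met hϑ hx))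
  rw [← integral_const_mul, ofReal_integral_eq_lintegral_ofReal h4.integrableOn (ae_restrict_of_ae (by
    filter_upwards [sh_ae_mem hG] with x hx
    exact hnn x hx))]
  have hv2 : ContinuousOn (fun x => v x ^ 2) M := hvc.pow 2
  rw [lintegral_withDensity_eq_lintegral_mul_non_measurable₀ _ (sh_aem_ofReal hG hv2).restrict
    (Filter.Eventually.of_forall fun x => ENNReal.ofReal_lt_top)]
  refine lintegral_mono_ae (ae_restrict_of_ae ?_)
  filter_upwards [sh_ae_mem hG] with x hx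
  rw [Pi.mul_apply, ← ENNReal.ofReal_mul (sq_nonneg _)]
  refine ENNReal.ofReal_le_ofReal ?_
  calc c * (v x ^ 2 * gradSq d M h ϑ x) = v x ^ 2 * (c * gradSq d M h ϑ x) := by ring
    _ ≤ v x ^ 2 * Gf x := mul_le_mul_of_nonneg_left (hGf x hx) (sq_nonneg _)

/-- densities `(sin ϑ v)²`. -/
theorem sh_dens_mul (hG : CtGeo d M h t) {a v : V → ℝ} (ha : ContinuousOn a M) (hv : ContinuousOn v M) (B : Set V) :
    ((wvol d M h t).restrict B).withDensity (fun x => ENNReal.ofReal ((a x * v x) ^ 2)) =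
      (((wvol d M h t).restrict B).withDensity fun x => ENNReal.ofReal (v x ^ 2)).withDensity
        fun x => ENNReal.ofReal (a x ^ 2) := by
  have hv2 : ContinuousOn (fun x => v x ^ 2) M := hv.pow 2
  have ha2 : ContinuousOn (fun x => a x ^ 2) M := ha.pow 2
  rw [← withDensity_mul₀ (sh_aem_ofReal hG hv2).restrict (sh_aem_ofReal hG ha2).restrict]
  congr 1
  funext x
  rw [Pi.mul_apply, ← ENNReal.ofReal_mul (sq_nonneg _)]
  congr 1
  ring

/-! ### the wall -/

/-- the part of the boundary in a compact set which misses `Σ` is a compact subset of the wall. -/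
theorem sh_wall_cpt (hM : IsMfd d M) (A : Set V) {K : Set V} (hK : IsCompact K) (hKM : K ⊆ M)
    (hKS : Disjoint K (ctSing d M A)) : IsCompact (K ∩ ctWall d M A) := by
  obtain ⟨O1, hO1, h1⟩ := ct_in_open hM A
  obtain ⟨O2, hO2, h2⟩ := ct_out_open hM A
  obtain ⟨hu, -, hd1, hd2⟩ := ct_trichotomy' hM A
  have he : K ∩ ctWall d M A = K ∩ (O1 ∪ O2)ᶜ := by
    ext x
    constructor
    · rintro ⟨hxK, hxW⟩
      have hxB := ct_wall_subset_bd A hxW
      refine ⟨hxK, ?_⟩
      rintro (hx | hx)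
      · exact (Set.disjoint_left.1 hd1) (h1 ▸ (⟨hKM hxK, hx⟩ : x ∈ M ∩ O1)) hxB
      · exact (Set.disjoint_left.1 hd2) (h2 ▸ (⟨hKM hxK, hx⟩ : x ∈ M ∩ O2)) hxB
    · rintro ⟨hxK, hx⟩
      have hxM : x ∈ ctIn d M A ∪ ctOut d M A ∪ ctBd d M A := by
        rw [hu]
        exact hKM hxK
      have hxB : x ∈ ctBd d M A := by
        rcases hxM with (hx' | hx') | hx'
        · rw [← h1] at hx'
          exact absurd (Or.inl hx'.2) hx
        · rw [← h2] at hx'
          exact absurd (Or.inr hx'.2) hx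
        · exact hx'
      refine ⟨hxK, ?_⟩
      by_contra hcon
      exact (Set.disjoint_left.1 hKS) hxK ⟨hxB, hcon⟩
  rw [he]
  exact hK.inter_right (hO1.union hO2).isClosed_compl

end meas

end Claimed.Agent.R315
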