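import Claimed.Agent.R315.Sh.ImsA

/-!
# Row 315, package SH-IMS-E (complete): bridges for the consumers (Rg/BUD): Bochner form of the budget (`0 ≤ θ, e0, Cm` needed).

Setting: `(d, M, h, t)` = `CtGeo`, `M` closed, `2 ≤ d`, `p` smooth, `A` = `CtLAM`.  Definitions `ShTW`, `ShTS`, `shNW`, `shNS`, `shMW`, `shMS`, `shFW`, `shFS`, `ShForm.Ok/Ims/Bud`: `Sh/Defs.lean`.
Tools: `Ct/Reg.lean` (`ct_wall_geo`, `ct_wall_smooth`, `ct_wall_open`, `CtLAM.sing_closed`, `CtLAM.wper_sing`, `CtLAM.wper_eq`, `ct_def_near`, `ct_bd_diff`), `Ct/Var.lean` (`ct_rm_level_gradSq`), `CtLF.fin` (perimeter finite on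
compact sets), `Gs/Calc.lean` (`gs_sm_*` algebra of `SmoothAlong`, `gs_sq_mul`, `gs_sq_comp`, `gs_ip_*`: pointwise calculus of `gradSq`, `gradIp`), `Ct/Bv.lean` (`wvol` finite on compact subsets of `M`).   Write `d = d' + 1` first.
-/

set_option autoImplicit false
open scoped ContDiff ENNReal Topology
open MeasureTheory Claims.C0499

namespace Claimed.Agent.R315

variable {V : Type} [NormedAddCommGroup V] [NormedSpace ℝ V] [FiniteDimensional ℝ V] [MeasurableSpace V] [BorelSpace V]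
variable {d : ℕ} {M : Set V} {h : Ten V} {t p : V → ℝ} {A : Set V}

/-- potential integrals against `v² dμ`. -/
theorem sh_lint_dens (hG : CtGeo d M h t) {D v : V → ℝ} (hD : ContinuousOn D M) (hD0 : ∀ x ∈ M, 0 ≤ D x)
    (hv : ContinuousOn v M) {K : Set V} (hK : IsCompact K) (hKM : K ⊆ M) (h0 : ∀ x ∈ M, x ∉ K → v x = 0)
    (B : Set V) :
    ∫⁻ x, ENNReal.ofReal (D x) ∂(((wvol d M h t).restrict B).withDensity fun x => ENNReal.ofReal (v x ^ 2)) =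
      ENNReal.ofReal (∫ x in B, D x * v x ^ 2 ∂(wvol d M h t)) := by
  have h4 : Integrable (fun x => D x * v x ^ 2) (wvol d M h t) :=
    (sh_int_sq_mul hG hv hD hK hKM h0).congr (Filter.Eventually.of_forall fun x => mul_comm _ _)
  have hv2 : ContinuousOn (fun x => v x ^ 2) M := hv.pow 2
  rw [ofReal_integral_eq_lintegral_ofReal h4.integrableOn (ae_restrict_of_ae (by
      filter_upwards [sh_ae_mem hG] with x hx
      exact mul_nonneg (hD0 x hx) (sq_nonneg _))),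
    lintegral_withDensity_eq_lintegral_mul_non_measurable₀ _ (sh_aem_ofReal hG hv2).restrict
      (Filter.Eventually.of_forall fun x => ENNReal.ofReal_lt_top)]
  refine lintegral_congr_ae (ae_restrict_of_ae ?_)
  filter_upwards [sh_ae_mem hG] with x hx
  rw [Pi.mul_apply, mul_comm, ← ENNReal.ofReal_mul (hD0 x hx)]

/-- potential integrals against `(∫ Φ² ds) dμ`. -/
theorem ShCI.lint_dens {K : Set V} {L : ℝ} {Φ : V → ℝ → ℝ} (hΦ : ShCI M K L Φ) (hG : CtGeo d M h t)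
    (hK : IsCompact K) (hKM : K ⊆ M) {D : V → ℝ} (hD : ContinuousOn D M) (hD0 : ∀ x ∈ M, 0 ≤ D x) (I : Set ℝ) :
    ∫⁻ x, ENNReal.ofReal (D x) ∂((wvol d M h t).withDensity fun x => ∫⁻ s in I, ENNReal.ofReal (Φ x s ^ 2)) =
      ENNReal.ofReal (∫ s in I, ∫ x, D x * Φ x s ^ 2 ∂(wvol d M h t)) := by
  have hfin : ∫⁻ x, (∫⁻ s in I, ENNReal.ofReal (Φ x s ^ 2)) ∂(wvol d M h t) ≠ ⊤ := by
    rw [← hΦ.sq.ofReal_iter hG hK hKM (fun _ _ _ => sq_nonneg _)]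
    exact ENNReal.ofReal_ne_top
  rw [(hΦ.sq.mul_left hD).ofReal_iter hG hK hKM (fun x hx s => mul_nonneg (hD0 x hx) (sq_nonneg _)),
    lintegral_withDensity_eq_lintegral_mul_non_measurable₀ _ (hΦ.sq.aemeasurable_lint hG I)
      (ae_lt_top' (hΦ.sq.aemeasurable_lint hG I) hfin)]
  refine lintegral_congr_ae ?_
  filter_upwards [sh_ae_mem hG] with x hx
  rw [Pi.mul_apply, mul_comm, ← lintegral_const_mul' _ _ ENNReal.ofReal_ne_top]
  refine lintegral_congr fun s => ?_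
  rw [ENNReal.ofReal_mul (hD0 x hx)]

/-- bridge: Bochner form of the budget on the wall. -/
theorem sh_bud_wall (hG : CtGeo d M h t) (hM : IsClosed M) (hd : 2 ≤ d) (hp : SmoothAlong d M p)
    (hA : CtLAM d M h t p A) {D : V → ℝ} (hD : ContinuousOn D M) (hD0 : ∀ x ∈ M, 0 ≤ D x) {θ e0 Cm : ℝ}
    (hθ : 0 ≤ θ) (he0 : 0 ≤ e0) (hCm : 0 ≤ Cm)
    (hB : (shFW d M h t A).Bud D θ e0 Cm) {v : V → ℝ} (hv : ShTW d M A v) :
    ∫ x, D x * v x ^ 2 ∂(wper d M h t A) ≤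
      θ * (1.7 * ∫ x, gradSq (d - 1) (ctWall d M A) h v x ∂(wper d M h t A) +
        e0 * ∫ x, v x ^ 2 ∂(wper d M h t A)) + Cm * ∫ x, v x ^ 2 ∂(wper d M h t A) := by
  have hN := (sh_fw_ok hG hM hd hp hA).N_nonneg ⟨v, hv⟩
  have hB' := hB ⟨v, hv⟩
  obtain ⟨d', rfl⟩ : ∃ d', d = d' + 1 := ⟨d - 1, by omega⟩
  have hS : CtGeo d' (ctWall (d' + 1) M A) h t := ct_wall_geo hG A
  have hP : wper (d' + 1) M h t A = wvol d' (ctWall (d' + 1) M A) h t := hA.wper_eq hG hp (by omega)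
  have hSM : ctWall (d' + 1) M A ⊆ M := (ct_wall_subset_bd A).trans (ct_bd_subset A)
  obtain ⟨K, hK, hKM, hKS, hK0⟩ := hv.cs
  have hvS : SmoothAlong d' (ctWall (d' + 1) M A) v := ct_wall_smooth hG A hv.smooth
  have hvc := if_smoothAlong_continuousOn hS.mfd hvS
  have hK' : IsCompact (K ∩ ctWall (d' + 1) M A) := sh_wall_cpt hG.mfd A hK hKM hKS
  have hK'0 : ∀ x ∈ ctWall (d' + 1) M A, x ∉ K ∩ ctWall (d' + 1) M A → v x = 0 := fun x hx hxK =>
    hK0 x (hSM hx) fun hxK' => hxK ⟨hxK', hx⟩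
  have h1 := sh_lint_dens hS (hD.mono hSM) (fun x hx => hD0 x (hSM hx)) hvc hK' Set.inter_subset_right hK'0 Set.univ
  have h2 := sh_lint_dens hS (D := fun _ => 1) continuousOn_const (fun _ _ => zero_le_one) hvc hK'
    Set.inter_subset_right hK'0 Set.univ
  simp only [Measure.restrict_univ, ENNReal.ofReal_one, lintegral_one, one_mul] at h1 h2
  have hm0 : 0 ≤ ∫ x, v x ^ 2 ∂(wvol d' (ctWall (d' + 1) M A) h t) := integral_nonneg fun _ => sq_nonneg _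
  have hmass : (shFW (d' + 1) M h t A).mass ⟨v, hv⟩ = ∫ x, v x ^ 2 ∂(wvol d' (ctWall (d' + 1) M A) h t) := by
    show (shMW _ _ _ _ _ _ Set.univ).toReal = _
    unfold shMW
    rw [hP, h2, ENNReal.toReal_ofReal hm0]
  have hNe : (shFW (d' + 1) M h t A).N ⟨v, hv⟩ =
      1.7 * ∫ x, gradSq d' (ctWall (d' + 1) M A) h v x ∂(wvol d' (ctWall (d' + 1) M A) h t) := by
    show shNW _ _ _ _ _ _ = _
    unfold shNW
    simp only [Nat.add_sub_cancel]
    rw [hP]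
  have hme : (shFW (d' + 1) M h t A).m ⟨v, hv⟩ =
      (wvol d' (ctWall (d' + 1) M A) h t).withDensity fun x => ENNReal.ofReal (v x ^ 2) := by
    show shMW _ _ _ _ _ _ = _
    unfold shMW
    rw [hP]
  rw [hme, h1, hmass, hNe] at hB'
  rw [hNe] at hN
  simp only [Nat.add_sub_cancel]
  rw [hP]
  exact (ENNReal.ofReal_le_ofReal_iff (add_nonneg (mul_nonneg hθ (add_nonneg hN (mul_nonneg he0 hm0)))
    (mul_nonneg hCm hm0))).1 hB'

/-- bridge: Bochner form of the budget on a joined side. -/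
theorem sh_bud_side (hG : CtGeo d M h t) (hM : IsClosed M) (hd : 2 ≤ d) (hp : SmoothAlong d M p)
    (hA : CtLAM d M h t p A) {D : V → ℝ} (hD : ContinuousOn D M) (hD0 : ∀ x ∈ M, 0 ≤ D x) {θ e0 Cm : ℝ}
    (hθ : 0 ≤ θ) (he0 : 0 ≤ e0) (hCm : 0 ≤ Cm)
    (hB : (shFS d M h t A).Bud D θ e0 Cm) {vb : V → ℝ} {vc : V → ℝ → ℝ} (hv : ShTS d M A vb vc) :
    ∫ x in A, D x * vb x ^ 2 ∂(wvol d M h t) +
        ∫ s in Set.Ioi (0 : ℝ), ∫ x, D x * vc x s ^ 2 ∂(wper d M h t A) ≤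
      θ * (shNS d M h t A vb vc + e0 * (∫ x in A, vb x ^ 2 ∂(wvol d M h t) +
        ∫ s in Set.Ioi (0 : ℝ), ∫ x, vc x s ^ 2 ∂(wper d M h t A))) +
      Cm * (∫ x in A, vb x ^ 2 ∂(wvol d M h t) +
        ∫ s in Set.Ioi (0 : ℝ), ∫ x, vc x s ^ 2 ∂(wper d M h t A)) := by
  have hN : 0 ≤ shNS d M h t A vb vc := (sh_fs_ok hG hM hd hp hA).N_nonneg ⟨(vb, vc), hv⟩
  have hB' := hB ⟨(vb, vc), hv⟩
  obtain ⟨d', rfl⟩ : ∃ d', d = d' + 1 := ⟨d - 1, by omega⟩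
  have hS : CtGeo d' (ctWall (d' + 1) M A) h t := ct_wall_geo hG A
  have hP : wper (d' + 1) M h t A = wvol d' (ctWall (d' + 1) M A) h t := hA.wper_eq hG hp (by omega)
  have hSM : ctWall (d' + 1) M A ⊆ M := (ct_wall_subset_bd A).trans (ct_bd_subset A)
  obtain ⟨K, L, hK, hKM, hKS, hK0, hL⟩ := hv.cs
  have hK' : IsCompact (K ∩ ctWall (d' + 1) M A) := sh_wall_cpt hG.mfd A hK hKM hKS
  have hKX : K ∩ ctWall (d' + 1) M A ⊆ ctWall (d' + 1) M A := Set.inter_subset_right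
  have hzx : ∀ x ∈ ctWall (d' + 1) M A, x ∉ K ∩ ctWall (d' + 1) M A → ∀ s, vc x s = 0 := fun x hx hxK =>
    (hK0 x (hSM hx) fun hxK' => hxK ⟨hxK', hx⟩).2
  have hwS := sh_cyl_sub (k := d') hG.mfd hSM hv.c_smooth
  have hci : ShCI (ctWall (d' + 1) M A) (K ∩ ctWall (d' + 1) M A) L vc := sh_ci_self hS.mfd hwS hzx hL
  have hbc := if_smoothAlong_continuousOn hG.mfd hv.b_smooth
  have hb0 : ∀ x ∈ M, x ∉ K → vb x = 0 := fun x hx hxK => (hK0 x hx hxK).1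
  have h1 := sh_lint_dens hG hD hD0 hbc hK hKM hb0 A
  have h2 := sh_lint_dens hG (D := fun _ => 1) continuousOn_const (fun _ _ => zero_le_one) hbc hK hKM hb0 A
  have h3 := hci.lint_dens hS hK' hKX (hD.mono hSM) (fun x hx => hD0 x (hSM hx)) (Set.Ioi (0 : ℝ))
  have h4 := hci.lint_dens hS hK' hKX (D := fun _ => 1) continuousOn_const (fun _ _ => zero_le_one)
    (Set.Ioi (0 : ℝ))
  simp only [ENNReal.ofReal_one, lintegral_one, one_mul] at h2 h4
  have ha0 : 0 ≤ ∫ x in A, vb x ^ 2 ∂(wvol (d' + 1) M h t) := integral_nonneg fun _ => sq_nonneg _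
  have hc0 : 0 ≤ ∫ s in Set.Ioi (0 : ℝ), ∫ x, vc x s ^ 2 ∂(wvol d' (ctWall (d' + 1) M A) h t) :=
    integral_nonneg fun _ => integral_nonneg fun _ => sq_nonneg _
  have hD1 : 0 ≤ ∫ x in A, D x * vb x ^ 2 ∂(wvol (d' + 1) M h t) :=
    integral_nonneg_of_ae (ae_restrict_of_ae (by
      filter_upwards [sh_ae_mem hG] with x hx
      exact mul_nonneg (hD0 x hx) (sq_nonneg _)))
  have hD2 : 0 ≤ ∫ s in Set.Ioi (0 : ℝ), ∫ x, D x * vc x s ^ 2 ∂(wvol d' (ctWall (d' + 1) M A) h t) :=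
    integral_nonneg fun s => integral_nonneg_of_ae (by
      filter_upwards [sh_ae_mem hS] with x hx
      exact mul_nonneg (hD0 x (hSM hx)) (sq_nonneg _))
  have hme : (shFS (d' + 1) M h t A).m ⟨(vb, vc), hv⟩ =
      ((wvol (d' + 1) M h t).restrict A).withDensity (fun x => ENNReal.ofReal (vb x ^ 2)) +
        (wvol d' (ctWall (d' + 1) M A) h t).withDensity
          fun x => ∫⁻ s in Set.Ioi (0 : ℝ), ENNReal.ofReal (vc x s ^ 2) := by
    show shMS _ _ _ _ _ _ _ = _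
    unfold shMS
    rw [hP]
  have hmass : (shFS (d' + 1) M h t A).mass ⟨(vb, vc), hv⟩ = ∫ x in A, vb x ^ 2 ∂(wvol (d' + 1) M h t) +
      ∫ s in Set.Ioi (0 : ℝ), ∫ x, vc x s ^ 2 ∂(wvol d' (ctWall (d' + 1) M A) h t) := by
    unfold ShForm.mass
    rw [hme, Measure.add_apply, h2, h4, ← ENNReal.ofReal_add ha0 hc0, ENNReal.toReal_ofReal (add_nonneg ha0 hc0)]
  have hNe : (shFS (d' + 1) M h t A).N ⟨(vb, vc), hv⟩ = shNS (d' + 1) M h t A vb vc := rfl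
  rw [hme, lintegral_add_measure, h1, h3, hmass, hNe, ← ENNReal.ofReal_add hD1 hD2] at hB'
  rw [hP]
  exact (ENNReal.ofReal_le_ofReal_iff (add_nonneg (mul_nonneg hθ (add_nonneg hN (mul_nonneg he0
    (add_nonneg ha0 hc0)))) (mul_nonneg hCm (add_nonneg ha0 hc0)))).1 hB'

end Claimed.Agent.R315
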