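import Claimed.Agent.R315.Ct.Cut

/-!
# Row 315, package Sh (P Appendix D, global shielding): DEFINITIONS, the contracts with Sc, the output `ShieldOK`

Sub-captain: helper232.  (Appendix C = package Sc, helper257.)   Chain: `pk_step = rg_step ∘ sh_shield ∘ ct_cut`.

## Raw pieces (P Definition D.1), manifold level: `(d, M, h, t)` Core manifold with drift, `A ⊆ M` the phase of a true cut
* wall `S_reg = ctWall d M A` with the measure `wper d M h t A`;  tests `ShTW`: functions smooth along `M` with compact support off `Σ`;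
* joined side `A ∪ S_reg × [0,∞)`; tests `ShTS` = PAIRS `(vb, vc)`, `vb` smooth along `M`, `vc : V → ℝ → ℝ` smooth along `M × ℝ`, compact
  supports off `Σ`, equal on the seam: `vc x 0 = vb x` on the wall.  The other side is the same with `M \ A`.
* ALL TESTS ARE SMOOTH.  No Lipschitz tests, no completions, no pure cylinders, NO compactness lemma D.2 (memo 10132).
* reserved gradient forms `shNW`, `shNS` (coefficients `.8` bulk, `1.7` wall and cylinder);
* every test has a finite measure on the base, `shMW v = v² dP`, `shMS (vb,vc) = vb² dμ⌞A + (∫₀^∞ vc(·,s)² ds) dP`: the potential integral of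
  a base function `D ≥ 0` is `∫⁻ D d(shM..)`, the `L²` norm is the total mass.
* All of this is packed in an abstract `ShForm X` = (tests `T`, form `N : T → ℝ`, measures `m : T → Measure X`); `shFW`, `shFS` are the instances.
* `𝔉.Bud D θ e0 Cm` :  `∫⁻ D dm_v ≤ θ (N v + e0 |v|²) + Cm |v|²` for all tests;  `ShBud` = the same on the wall and on both joined sides.
* `𝔉.Ims ϑ G` : the IMS localisation formula for the pair `sin ϑ, cos ϑ` with error density `G` (`G ≥ 1.7 |∇ϑ|²`).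

## One shielding stage
`ShCtx` = parent stage + current label `j0` + the true cut `(p, A)`; `C.R = rem \ {j0}`.
`ShieldOK C P1` = P Proposition D.6 in helper29's model: `P1` = updated labels (same `E`, `h`, `dr`).

## Contracts with Sc (P Appendix C)
`ShAnchor` (P Lemma C.1) and `ShGauge` (P Lemmas C.2-C.5 in ONE structure: a compact piece `Fp ⊆ Σ_β` with a gauge `δ ~ dist(·,Fp)`,
smooth cut-offs and the truncated Hardy inequality (HY), on `E β` AND in the tails of all cofaces of `β`).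
-/

set_option autoImplicit false
open scoped ContDiff ENNReal Topology
open MeasureTheory Claims.C0499

namespace Claimed.Agent.R315

/-! ### abstract forms -/

/-- tests, gradient form, base measures. -/
structure ShForm (X : Type) [MeasurableSpace X] where
  T : Type
  N : T → ℝ
  m : T → Measure X

section abs

variable {X : Type} [MeasurableSpace X]

/-- `|v|²`. -/
noncomputable def ShForm.mass (𝔉 : ShForm X) (v : 𝔉.T) : ℝ := (𝔉.m v Set.univ).toReal

/-- `∫ D dm_v ≤ θ (N v + e0 |v|²) + Cm |v|²` for all tests. -/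
def ShForm.Bud (𝔉 : ShForm X) (D : X → ℝ) (θ e0 Cm : ℝ) : Prop :=
  ∀ v, ∫⁻ x, ENNReal.ofReal (D x) ∂(𝔉.m v) ≤
    ENNReal.ofReal (θ * (𝔉.N v + e0 * 𝔉.mass v) + Cm * 𝔉.mass v)

/-- IMS formula for `sin ϑ`, `cos ϑ`, error density `G`. -/
def ShForm.Ims (𝔉 : ShForm X) (ϑ G : X → ℝ) : Prop :=
  ∀ v, ∃ vs vc : 𝔉.T,
    𝔉.m vs = (𝔉.m v).withDensity (fun x => ENNReal.ofReal (Real.sin (ϑ x) ^ 2)) ∧
    𝔉.m vc = (𝔉.m v).withDensity (fun x => ENNReal.ofReal (Real.cos (ϑ x) ^ 2)) ∧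
    ENNReal.ofReal (𝔉.N vs + 𝔉.N vc) ≤ ENNReal.ofReal (𝔉.N v) + ∫⁻ x, ENNReal.ofReal (G x) ∂(𝔉.m v)

/-- standing properties; `M` = the carrier. -/
structure ShForm.Ok [TopologicalSpace X] (𝔉 : ShForm X) (M : Set X) : Prop where
  N_nonneg : ∀ v, 0 ≤ 𝔉.N v
  fin : ∀ v, 𝔉.m v Set.univ ≠ ⊤
  cs : ∀ v, ∃ K, IsCompact K ∧ K ⊆ M ∧ 𝔉.m v Kᶜ = 0

end abs

/-! ### the concrete forms -/

section forms

variable {V : Type} [NormedAddCommGroup V] [NormedSpace ℝ V]

/-- tests on the wall. -/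
structure ShTW (d : ℕ) (M A : Set V) (v : V → ℝ) : Prop where
  smooth : SmoothAlong d M v
  cs : ∃ K, IsCompact K ∧ K ⊆ M ∧ Disjoint K (ctSing d M A) ∧ ∀ x ∈ M, x ∉ K → v x = 0

/-- tests on the joined side of the phase `A`. -/
structure ShTS (d : ℕ) (M A : Set V) (vb : V → ℝ) (vc : V → ℝ → ℝ) : Prop where
  b_smooth : SmoothAlong d M vb
  c_smooth : SmoothAlong (d + 1) (M ×ˢ (Set.univ : Set ℝ)) (fun z : V × ℝ => vc z.1 z.2)
  cs : ∃ (K : Set V) (L : ℝ), IsCompact K ∧ K ⊆ M ∧ Disjoint K (ctSing d M A) ∧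
    (∀ x ∈ M, x ∉ K → vb x = 0 ∧ ∀ s, vc x s = 0) ∧ ∀ x s, L < |s| → vc x s = 0
  seam : ∀ x ∈ ctWall d M A, vc x 0 = vb x

variable [MeasurableSpace V] [BorelSpace V]

/-- reserved gradient form on the wall. -/
noncomputable def shNW (d : ℕ) (M : Set V) (h : Ten V) (t : V → ℝ) (A : Set V) (v : V → ℝ) : ℝ :=
  1.7 * ∫ x, gradSq (d - 1) (ctWall d M A) h v x ∂(wper d M h t A)

/-- `v² dP`. -/
noncomputable def shMW (d : ℕ) (M : Set V) (h : Ten V) (t : V → ℝ) (A : Set V) (v : V → ℝ) : Measure V :=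
  (wper d M h t A).withDensity fun x => ENNReal.ofReal (v x ^ 2)

/-- reserved gradient form on the joined side. -/
noncomputable def shNS (d : ℕ) (M : Set V) (h : Ten V) (t : V → ℝ) (A : Set V) (vb : V → ℝ) (vc : V → ℝ → ℝ) : ℝ :=
  0.8 * ∫ x in A, gradSq d M h vb x ∂(wvol d M h t) +
    1.7 * ∫ s in Set.Ioi (0 : ℝ), ∫ x, (gradSq (d - 1) (ctWall d M A) h (fun y => vc y s) x +
      deriv (fun σ => vc x σ) s ^ 2) ∂(wper d M h t A)

/-- `vb² dμ⌞A + (∫₀^∞ vc(·,s)² ds) dP`. -/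
noncomputable def shMS (d : ℕ) (M : Set V) (h : Ten V) (t : V → ℝ) (A : Set V) (vb : V → ℝ) (vc : V → ℝ → ℝ) :
    Measure V :=
  ((wvol d M h t).restrict A).withDensity (fun x => ENNReal.ofReal (vb x ^ 2)) +
    (wper d M h t A).withDensity fun x => ∫⁻ s in Set.Ioi (0 : ℝ), ENNReal.ofReal (vc x s ^ 2)

/-- the form of the wall. -/
noncomputable def shFW (d : ℕ) (M : Set V) (h : Ten V) (t : V → ℝ) (A : Set V) : ShForm V where
  T := {v : V → ℝ // ShTW d M A v}
  N := fun v => shNW d M h t A v.1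
  m := fun v => shMW d M h t A v.1

/-- the form of the joined side of `A`. -/
noncomputable def shFS (d : ℕ) (M : Set V) (h : Ten V) (t : V → ℝ) (A : Set V) : ShForm V where
  T := {v : (V → ℝ) × (V → ℝ → ℝ) // ShTS d M A v.1 v.2}
  N := fun v => shNS d M h t A v.1.1 v.1.2
  m := fun v => shMS d M h t A v.1.1 v.1.2

/-- **the budget inequality** `∫ D dm_v ≤ θ (N(v) + e0 |v|²) + Cm |v|²` on the wall and on both joined sides. -/
def ShBud (d : ℕ) (M : Set V) (h : Ten V) (t : V → ℝ) (A : Set V) (D : V → ℝ) (θ e0 Cm : ℝ) : Prop :=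
  (shFW d M h t A).Bud D θ e0 Cm ∧ (shFS d M h t A).Bud D θ e0 Cm ∧ (shFS d M h t (M \ A)).Bud D θ e0 Cm

end forms

/-! ### the context of one shielding stage -/

variable {V W : Type} [NormedAddCommGroup V] [NormedSpace ℝ V] [NormedAddCommGroup W] [NormedSpace ℝ W] {ι : Type}

/-- parent stage, current label, constants, pressure and phases of the true cut. -/
structure ShCtx (V W : Type) [NormedAddCommGroup V] [NormedSpace ℝ V] [NormedAddCommGroup W] [NormedSpace ℝ W]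
    (ι : Type) where
  B : Base V
  F : Frame V W ι
  P : PData W ι B.J
  /-- unprocessed labels of the parent stage (the current label included) -/
  rem : Set B.J
  /-- stage parameter -/
  s : ℝ
  /-- passive multiplier -/
  c : ℝ
  /-- the current label -/
  j0 : B.J
  /-- `e0 = (λ_r - λ_{r+1})/100` -/
  e0 : ℝ
  /-- pressure of the true cut -/
  p : W → ℝ
  /-- the phases: `A ∩ E α` is the plus phase in `E α` -/
  A : Set W

/-- remaining labels, the current label removed. -/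
def ShCtx.R (C : ShCtx V W ι) : Set C.B.J := C.rem \ {C.j0}

/-- slope constant `a_r`. -/
noncomputable def ShCtx.a (C : ShCtx V W ι) : ℝ := pkA C.s

/-- dimension of the status space `E α`. -/
def ShCtx.m [Fintype ι] (C : ShCtx V W ι) (α : Stat ι) : ℕ := C.B.n - hits α

/-- the phase in `E α`. -/
def ShCtx.ph (C : ShCtx V W ι) (α : Stat ι) : Set W := C.A ∩ C.P.E α

/-- the singular set `Σ_α`. -/
def ShCtx.Sig [Fintype ι] (C : ShCtx V W ι) (α : Stat ι) : Set W := ctSing (C.m α) (C.P.E α) (C.ph α)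

/-- standing hypotheses: the invariant of the parent stage and the true cut. -/
structure ShCtx.Ok [Fintype ι] [MeasurableSpace W] [BorelSpace W] (C : ShCtx V W ι) : Prop where
  base : C.B.Ok
  inv : Inv C.B C.F C.P C.rem C.s C.c
  s0 : 0 ≤ C.s
  s1 : C.s ≤ 1
  dim : ∀ α, (C.P.E α).Nonempty → hits α + 2 ≤ C.B.n
  j0_mem : C.j0 ∈ C.rem
  cut : CutOK C.B C.F C.P C.j0 C.p C.A
  e0_pos : 0 < C.e0

/-- the cumulative addition `Σ_{j ∈ R} D_j`, `D_j = pot1_j - pot_j`. -/
noncomputable def ShCtx.add (C : ShCtx V W ι) (P1 : PData W ι C.B.J) (z : W) : ℝ :=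
  ∑' j, C.R.indicator (fun j => P1.pot j z - C.P.pot j z) j

/-- the budget on the three raw pieces of `E α`. -/
def ShCtx.Bud [Fintype ι] [MeasurableSpace W] [BorelSpace W] (C : ShCtx V W ι) (α : Stat ι) (D : W → ℝ)
    (θ e0 Cm : ℝ) : Prop :=
  ShBud (C.m α) (C.P.E α) C.P.h C.P.dr (C.ph α) D θ e0 Cm

/-- `Σ_α` misses the guard `H*_α = {at least m-2 labels of R undecided}` over `K ⊆ V`. -/
def ShDone [Fintype ι] (C : ShCtx V W ι) (P1 : PData W ι C.B.J) (α : Stat ι) (K : Set V) : Prop :=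
  ∀ z ∈ C.Sig α, C.F.q z ∈ K → ¬ P1.Cnt C.R (C.m α - 2) z

/-- **THE OUTPUT OF THE SHIELDING STAGE** (P Proposition D.6). -/
structure ShieldOK [Fintype ι] [MeasurableSpace W] [BorelSpace W] (C : ShCtx V W ι) (P1 : PData W ι C.B.J) : Prop where
  E_eq : P1.E = C.P.E
  h_eq : P1.h = C.P.h
  dr_eq : P1.dr = C.P.dr
  /-- (i): profile inequality with `pot1_j = Π_j + D_j` (smooth, compatible), cores, poles, forced sets -/
  label : ∀ j ∈ C.R, LabelOk C.B C.F P1 C.a j
  up_mono : ∀ j ∈ C.R, C.P.Up j ⊆ P1.Up j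
  un_mono : ∀ j ∈ C.R, C.P.Un j ⊆ P1.Un j
  pot_mono : ∀ j ∈ C.R, ∀ z, C.P.pot j z ≤ P1.pot j z
  passive : ∀ K : Set V, IsCompact K →
    {j | j ∈ C.R ∧ ∃ z ∈ tot C.P.E, C.F.q z ∈ K ∧ ¬ P1.Passive C.B.pst C.c j z}.Finite
  /-- (ii): the guard misses the singular sets -/
  guard : ∀ α, ShDone C P1 α Set.univ
  /-- (iii): `1.16 ∫ Σ_j D_j v² ≤ .88 (N(v) + e0 |v|²)` on all walls and joined sides -/
  budget : ∀ α, C.Bud α (fun z => 1.16 * C.add P1 z) 0.88 C.e0 0

/-! ### cofaces and tails -/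

/-- `α` is a coface of `β` (`α = β` included): the non-hit entries of `β` are kept. -/
def Stat.IsCof (β α : Stat ι) : Prop := ∀ i, β i ≠ 0 → α i = β i

open Classical in
/-- the entries in which the coface `α` leaves `β`. -/
noncomputable def Stat.cofJ [Fintype ι] (β α : Stat ι) : Finset ι :=
  Finset.univ.filter fun i => β i = 0 ∧ α i ≠ 0

/-- the tail region of `E α` in the directions `J`. -/
def Frame.tailS (F : Frame V W ι) (α : Stat ι) (J : Finset ι) (T : ℝ) : Set W :=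
  {z | ∀ j ∈ J, T < (α j : ℝ) * F.t j z}

/-! ### contracts with Sc -/

/-- **anchors** (P Lemma C.1). -/
structure ShAnchor [Fintype ι] (C : ShCtx V W ι) (hh : C.B.J → W → ℝ) (tt : C.B.J → ℝ) : Prop where
  cc : ∀ j ∈ C.R, CC C.F C.P.E (hh j)
  bot : ∀ j ∈ C.R, ∀ z ∈ tot C.P.E, C.P.mu j z = ⊥ → hh j z < tt j
  top : ∀ j ∈ C.R, ∀ z ∈ tot C.P.E, C.P.mu j z = ⊤ → tt j < hh j z
  /-- at most `m - 8` threshold equalities on the singular set -/
  few : ∀ α, ∀ z ∈ C.Sig α, ∀ s : Finset C.B.J, (∀ j ∈ s, j ∈ C.R ∧ hh j z = tt j) → s.card + 8 ≤ C.m α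

/-- truncated Hardy weight `1[s < d] / max(s, ρ)²`. -/
noncomputable def shW (d ρ s : ℝ) : ℝ := if s < d then 1 / (max s ρ) ^ 2 else 0

/-- the Hardy weight of a gauge `δ` on `E β`, lifted to the tail `J` of the coface `α`. -/
noncomputable def shWt (F : Frame V W ι) (α : Stat ι) (J : Finset ι) (T : ℝ) (δ : W → ℝ) (d ρ : ℝ) (z : W) : ℝ :=
  (F.tailS α J T).indicator (fun z => shW d ρ (δ (F.dropS J z))) z

/-- **a compact piece `Fp` of `Σ_β` with its gauge** (P Lemmas C.2-C.5).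
`δ` plays the role of `dist(·, Fp)` (Sc is free to take e.g. a multiple of the Euclidean distance in a buffered chart; `rdist` is `0` between
different components, so `δ` is NOT literally `rdist`); `δ > d` off `E β`.
`(HY)` (constant `3.4`: Sc has more for the Euclidean chart distance, the slack pays the normalisation `slope ≤ 1`): `3.4 ∫ 1[tail_T] 1[δ∘π < d] / max(δ∘π, ρ)² dm_v ≤ N(v) + CF |v|²`, for ALL tests of the three raw pieces of every coface `α` of `β`
(`J = ∅`, `α = β`: the piece itself), uniformly in `ρ > 0`.  (In the tail the wall of `E α` is NOT a product; the vector field proof of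
P C.4/C.5 only uses that its weighted mean curvature is `p` and the rank 8 Hessian of `dist(·,L)²/2 ∘ π`.) -/
structure ShGauge [Fintype ι] [MeasurableSpace W] [BorelSpace W] (C : ShCtx V W ι) (β : Stat ι) (Fp : Set W)
    (δ : W → ℝ) (d Cc CF T : ℝ) : Prop where
  d_pos : 0 < d
  CF_nonneg : 0 ≤ CF
  sub : ∀ z, δ z ≤ d → z ∈ C.P.E β
  cpt : IsCompact {z | δ z ≤ d}
  cont : ContinuousOn δ (C.P.E β)
  nonneg : ∀ z, 0 ≤ δ z
  zero : ∀ z, δ z = 0 ↔ z ∈ Fp
  slope : ∀ z, δ z < d → SlopeLE (C.P.E β) C.P.h δ z 1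
  /-- smooth cut-offs at all scales -/
  cut : ∀ r, 0 < r → 2 * r ≤ d → ∃ χ : W → ℝ, SmoothAlong (C.m β) (C.P.E β) χ ∧ (∀ z, 0 ≤ χ z ∧ χ z ≤ 1) ∧
    (∀ z, δ z ≤ r → χ z = 1) ∧ (∀ z, 2 * r ≤ δ z → χ z = 0) ∧
    ∀ z ∈ C.P.E β, gradSq (C.m β) (C.P.E β) C.P.h χ z ≤ (Cc / r) ^ 2
  /-- (HY) -/
  hy : ∀ (α : Stat ι) (J : Finset ι), (∀ j ∈ J, α j ≠ 0) → α.faceS J = β → ∀ ρ, 0 < ρ →
    C.Bud α (fun z => 3.4 * shWt C.F α J T δ d ρ z) 1 0 CF

end Claimed.Agent.R315
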