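import Claimed.Agent.R315.Sh.ImsT
import Claimed.Agent.R315.Pk.Mfd

/-!
# Row 315, package SH-IMS, tools for the cylinder `X × ℝ`: joint continuity of slice gradients, iterated integrals
-/

set_option autoImplicit false
open scoped ContDiff ENNReal Topology
open MeasureTheory Claims.C0499 Set

namespace Claimed.Agent.R315

/-- continuity along a manifold may be checked in an atlas. -/
theorem sh_continuousOn_of_atlas {W' : Type} [NormedAddCommGroup W'] [NormedSpace ℝ W'] {k : ℕ} {X : Set W'}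
    {f : W' → ℝ}
    (H : ∀ x ∈ X, ∃ (ψ : E k → W') (U : Set (E k)), IsParam X ψ U ∧ x ∈ ψ '' U ∧ ContinuousOn (f ∘ ψ) U) :
    ContinuousOn f X := by
  intro x hx
  obtain ⟨ψ, U, hp, hxU, hc⟩ := H x hx
  obtain ⟨O, hO, hOe⟩ := if_image hp
  have h1 : ContinuousOn ((f ∘ ψ) ∘ Function.invFunOn ψ U) (ψ '' U) :=
    hc.comp (if_contInv hp) fun y hy => if_inv_mem hy
  have h2 : ContinuousOn f (ψ '' U) := h1.congr fun y hy => by
    simp only [Function.comp_apply, if_rightInv hy]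
  have h3 := h2 x hxU
  rw [hOe] at h3 hxU
  exact (continuousWithinAt_inter (hO.mem_nhds hxU.2)).1 h3

variable {V : Type} [NormedAddCommGroup V] [NormedSpace ℝ V] [FiniteDimensional ℝ V]
variable {k : ℕ} {X : Set V} {h : Ten V} {t : V → ℝ} {w : V → ℝ → ℝ}

/-- a smooth function on the cylinder, read in a product chart. -/
theorem sh_cyl_chart (hX : IsMfd k X)
    (hw : SmoothAlong (k + 1) (X ×ˢ (univ : Set ℝ)) (fun z : V × ℝ => w z.1 z.2)) {ψ : E k → V} {U : Set (E k)}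
    (hp : IsParam X ψ U) : ContDiffOn ℝ ∞ (fun y : E k × ℝ => w (ψ y.1) y.2) (U ×ˢ (univ : Set ℝ)) := by
  intro y hy
  have hyU : y.1 ∈ U := hy.1
  have hΦ : ContDiffAt ℝ ∞ (fun y : E k × ℝ => (ψ y.1, y.2)) y :=
    (((if_smooth hp).contDiffAt ((if_open hp).mem_nhds hyU)).comp y contDiffAt_fst).prodMk contDiffAt_snd
  have hmem : ∀ᶠ b in 𝓝 y, (fun y : E k × ℝ => (ψ y.1, y.2)) b ∈ (Prod.fst ⁻¹' X : Set (V × ℝ)) := by
    filter_upwards [continuous_fst.continuousAt.preimage_mem_nhds ((if_open hp).mem_nhds hyU)] with b hb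
    exact if_mem hp hb
  rw [Set.prod_univ] at hw
  exact (pk_smooth_comp (pk_mfd_prod hX) hw hΦ hmem).contDiffWithinAt

theorem sh_cyl_slice (hX : IsMfd k X)
    (hw : SmoothAlong (k + 1) (X ×ˢ (univ : Set ℝ)) (fun z : V × ℝ => w z.1 z.2)) (s : ℝ) :
    SmoothAlong k X fun x => w x s := by
  intro ψ U hp
  exact (sh_cyl_chart hX hw hp).comp (contDiff_id.prodMk contDiff_const).contDiffOn fun u hu => ⟨hu, mem_univ _⟩

theorem sh_cyl_cont (hX : IsMfd k X)
    (hw : SmoothAlong (k + 1) (X ×ˢ (univ : Set ℝ)) (fun z : V × ℝ => w z.1 z.2)) :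
    ContinuousOn (fun z : V × ℝ => w z.1 z.2) (X ×ˢ (univ : Set ℝ)) := by
  rw [Set.prod_univ] at hw ⊢
  exact if_smoothAlong_continuousOn (pk_mfd_prod hX) hw

/-- restriction to a submanifold. -/
theorem sh_cyl_sub {d : ℕ} {M : Set V} (hM : IsMfd d M) (hXM : X ⊆ M)
    (hw : SmoothAlong (d + 1) (M ×ˢ (univ : Set ℝ)) (fun z : V × ℝ => w z.1 z.2)) :
    SmoothAlong (k + 1) (X ×ˢ (univ : Set ℝ)) (fun z : V × ℝ => w z.1 z.2) := by
  rw [Set.prod_univ] at hw ⊢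
  exact rm_sub_smooth (preimage_mono hXM) (pk_mfd_prod hM) hw

/-- partial derivatives in the chart. -/
theorem sh_cyl_fderiv_left (hX : IsMfd k X)
    (hw : SmoothAlong (k + 1) (X ×ˢ (univ : Set ℝ)) (fun z : V × ℝ => w z.1 z.2)) {ψ : E k → V} {U : Set (E k)}
    (hp : IsParam X ψ U) {u : E k} (hu : u ∈ U) (s : ℝ) (e : E k) :
    fderiv ℝ (fun u' => w (ψ u') s) u e = fderiv ℝ (fun y : E k × ℝ => w (ψ y.1) y.2) (u, s) (e, 0) := by
  have hd : DifferentiableAt ℝ (fun y : E k × ℝ => w (ψ y.1) y.2) (u, s) :=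
    ((sh_cyl_chart hX hw hp).contDiffAt (((if_open hp).prod isOpen_univ).mem_nhds ⟨hu, mem_univ _⟩)).differentiableAt
      (by simp)
  have h1 : HasFDerivAt (fun u' : E k => (u', s)) (ContinuousLinearMap.inl ℝ (E k) ℝ) u := hasFDerivAt_prodMk_left u s
  have h2 := hd.hasFDerivAt.comp u h1
  have h3 : fderiv ℝ (fun u' => w (ψ u') s) u = _ := h2.fderiv
  rw [h3]
  simp

theorem sh_cyl_deriv_right (hX : IsMfd k X)
    (hw : SmoothAlong (k + 1) (X ×ˢ (univ : Set ℝ)) (fun z : V × ℝ => w z.1 z.2)) {ψ : E k → V} {U : Set (E k)}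
    (hp : IsParam X ψ U) {u : E k} (hu : u ∈ U) (s : ℝ) :
    deriv (fun σ => w (ψ u) σ) s = fderiv ℝ (fun y : E k × ℝ => w (ψ y.1) y.2) (u, s) (0, 1) := by
  have hd : DifferentiableAt ℝ (fun y : E k × ℝ => w (ψ y.1) y.2) (u, s) :=
    ((sh_cyl_chart hX hw hp).contDiffAt (((if_open hp).prod isOpen_univ).mem_nhds ⟨hu, mem_univ _⟩)).differentiableAt
      (by simp)
  have h1 : HasFDerivAt (fun σ : ℝ => (u, σ)) (ContinuousLinearMap.inr ℝ (E k) ℝ) s := hasFDerivAt_prodMk_right u s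
  have h2 := hd.hasFDerivAt.comp s h1
  have h3 : fderiv ℝ (fun σ => w (ψ u) σ) s = _ := h2.fderiv
  rw [← fderiv_apply_one_eq_deriv, h3]
  simp

/-- `b ↦ dW (tl b, b 0) a` is continuous. -/
theorem sh_cyl_fderiv_cont (hX : IsMfd k X)
    (hw : SmoothAlong (k + 1) (X ×ˢ (univ : Set ℝ)) (fun z : V × ℝ => w z.1 z.2)) {ψ : E k → V} {U : Set (E k)}
    (hp : IsParam X ψ U) (a : E k × ℝ) :
    ContinuousOn (fun b : E (k + 1) => fderiv ℝ (fun y : E k × ℝ => w (ψ y.1) y.2) (rm_tl k b, b 0) a)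
      {b | rm_tl k b ∈ U} := by
  have h1 : ContinuousOn (fderiv ℝ (fun y : E k × ℝ => w (ψ y.1) y.2)) (U ×ˢ (univ : Set ℝ)) :=
    (sh_cyl_chart hX hw hp).continuousOn_fderiv_of_isOpen ((if_open hp).prod isOpen_univ) (by simp)
  have h2 : Continuous fun b : E (k + 1) => (rm_tl k b, b 0) :=
    (rm_tl k).continuous.prodMk (EuclideanSpace.proj (0 : Fin (k + 1)) : E (k + 1) →L[ℝ] ℝ).continuous
  exact (h1.comp h2.continuousOn fun b hb => ⟨hb, mem_univ _⟩).clm_apply continuousOn_const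

/-- the `s`-derivative is jointly continuous. -/
theorem sh_cyl_deriv_cont (hX : IsMfd k X)
    (hw : SmoothAlong (k + 1) (X ×ˢ (univ : Set ℝ)) (fun z : V × ℝ => w z.1 z.2)) :
    ContinuousOn (fun z : V × ℝ => deriv (fun σ => w z.1 σ) z.2) (X ×ˢ (univ : Set ℝ)) := by
  rw [Set.prod_univ]
  refine sh_continuousOn_of_atlas (k := k + 1) fun z hz => ?_
  obtain ⟨ψ, U, hp, u, hu, hue⟩ := hX z.1 hz
  refine ⟨_, _, pk_param_prod hp, ⟨rm_J z.2 u, by show rm_tl k (rm_J z.2 u) ∈ U; rw [rm_tl_J]; exact hu, ?_⟩, ?_⟩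
  · simp only [rm_tl_J, rm_J_zero, hue]
  · refine (sh_cyl_fderiv_cont hX hw hp (0, 1)).congr fun b hb => ?_
    exact sh_cyl_deriv_right hX hw hp hb (b 0)

/-- the slice gradient is jointly continuous. -/
theorem sh_cyl_grad_cont (hG : CtGeo k X h t)
    (hw : SmoothAlong (k + 1) (X ×ˢ (univ : Set ℝ)) (fun z : V × ℝ => w z.1 z.2)) :
    ContinuousOn (fun z : V × ℝ => gradSq k X h (fun y => w y z.2) z.1) (X ×ˢ (univ : Set ℝ)) := by
  have hX := hG.mfd
  rw [Set.prod_univ]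
  refine sh_continuousOn_of_atlas (k := k + 1) fun z hz => ?_
  obtain ⟨ψ, U, hp, u, hu, hue⟩ := hX z.1 hz
  refine ⟨_, _, pk_param_prod hp, ⟨rm_J z.2 u, by show rm_tl k (rm_J z.2 u) ∈ U; rw [rm_tl_J]; exact hu, ?_⟩, ?_⟩
  · simp only [rm_tl_J, rm_J_zero, hue]
  · have hinv : ∀ i j, ContinuousOn (fun b : E (k + 1) => (cm h ψ (rm_tl k b))⁻¹ i j) {b | rm_tl k b ∈ U} :=
      fun i j => (rm_inv_smooth (gs_met hG.met hp) i j).continuousOn.comp (rm_tl k).continuous.continuousOn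
        fun b hb => hb
    have hc : ContinuousOn (fun b : E (k + 1) => ∑ i : Fin k, ∑ j : Fin k, (cm h ψ (rm_tl k b))⁻¹ i j *
        fderiv ℝ (fun y : E k × ℝ => w (ψ y.1) y.2) (rm_tl k b, b 0) (EuclideanSpace.single i 1, 0) *
        fderiv ℝ (fun y : E k × ℝ => w (ψ y.1) y.2) (rm_tl k b, b 0) (EuclideanSpace.single j 1, 0))
        {b | rm_tl k b ∈ U} :=
      continuousOn_finset_sum _ fun i _ => continuousOn_finset_sum _ fun j _ =>
        ((hinv i j).mul (sh_cyl_fderiv_cont hX hw hp _)).mul (sh_cyl_fderiv_cont hX hw hp _)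
    refine hc.congr fun b hb => ?_
    show gradSq k X h (fun y => w y (b 0)) (ψ (rm_tl k b)) = _
    rw [gs_sq_eq hG.met (sh_cyl_slice hX hw (b 0)) hp hb]
    unfold gradSqC pdiff
    refine Finset.sum_congr rfl fun i _ => Finset.sum_congr rfl fun j _ => ?_
    rw [sh_cyl_fderiv_left hX hw hp hb, sh_cyl_fderiv_left hX hw hp hb]

/-! ### iterated integrals -/

/-- continuous integrands on the cylinder over `X`, which vanish off `K × [-L, L]`. -/
structure ShCI (X K : Set V) (L : ℝ) (Φ : V → ℝ → ℝ) : Prop where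
  cont : ContinuousOn (fun z : V × ℝ => Φ z.1 z.2) (X ×ˢ (univ : Set ℝ))
  zx : ∀ x ∈ X, x ∉ K → ∀ s, Φ x s = 0
  zs : ∀ x ∈ X, ∀ s, L < |s| → Φ x s = 0

section ci

variable {K : Set V} {L : ℝ} {Φ Ψ : V → ℝ → ℝ}

omit [FiniteDimensional ℝ V] in
theorem ShCI.add (hΦ : ShCI X K L Φ) (hΨ : ShCI X K L Ψ) : ShCI X K L fun x s => Φ x s + Ψ x s :=
  ⟨hΦ.cont.add hΨ.cont, fun x hx hxK s => by rw [hΦ.zx x hx hxK, hΨ.zx x hx hxK, add_zero],
    fun x hx s hs => by rw [hΦ.zs x hx s hs, hΨ.zs x hx s hs, add_zero]⟩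

omit [FiniteDimensional ℝ V] in
theorem ShCI.mul_left (hΦ : ShCI X K L Φ) {g : V → ℝ} (hg : ContinuousOn g X) : ShCI X K L fun x s => g x * Φ x s :=
  ⟨(hg.comp continuous_fst.continuousOn fun z hz => hz.1).mul hΦ.cont,
    fun x hx hxK s => by rw [hΦ.zx x hx hxK, mul_zero], fun x hx s hs => by rw [hΦ.zs x hx s hs, mul_zero]⟩

omit [FiniteDimensional ℝ V] in
theorem ShCI.sq (hΦ : ShCI X K L Φ) : ShCI X K L fun x s => Φ x s ^ 2 :=
  ⟨hΦ.cont.pow 2, fun x hx hxK s => by rw [hΦ.zx x hx hxK]; simp, fun x hx s hs => by rw [hΦ.zs x hx s hs]; simp⟩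

omit [FiniteDimensional ℝ V] in
theorem ShCI.congr (hΦ : ShCI X K L Φ) (he : ∀ x ∈ X, ∀ s, Ψ x s = Φ x s) : ShCI X K L Ψ :=
  ⟨hΦ.cont.congr fun z hz => he z.1 hz.1 z.2, fun x hx hxK s => by rw [he x hx, hΦ.zx x hx hxK],
    fun x hx s hs => by rw [he x hx, hΦ.zs x hx s hs]⟩

omit [FiniteDimensional ℝ V] in
theorem ShCI.slice_cont (hΦ : ShCI X K L Φ) (s : ℝ) : ContinuousOn (fun x => Φ x s) X :=
  hΦ.cont.comp (continuous_id.prodMk continuous_const).continuousOn fun x hx => ⟨hx, mem_univ _⟩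

omit [FiniteDimensional ℝ V] in
theorem ShCI.line_cont (hΦ : ShCI X K L Φ) {x : V} (hx : x ∈ X) : Continuous fun s => Φ x s := by
  rw [← continuousOn_univ]
  exact hΦ.cont.comp (continuous_const.prodMk continuous_id).continuousOn fun s _ => ⟨hx, mem_univ _⟩

omit [FiniteDimensional ℝ V] in
theorem ShCI.bound (hΦ : ShCI X K L Φ) (hK : IsCompact K) (hKX : K ⊆ X) :
    ∃ C : ℝ, 0 ≤ C ∧ ∀ x ∈ X, ∀ s, ‖Φ x s‖ ≤ C := by
  obtain ⟨C, hC⟩ := (hK.prod (isCompact_Icc (a := -L) (b := L))).exists_bound_of_continuousOn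
    (hΦ.cont.mono fun z hz => ⟨hKX hz.1, mem_univ _⟩)
  refine ⟨max C 0, le_max_right _ _, fun x hx s => ?_⟩
  by_cases hxK : x ∈ K
  · by_cases hs : L < |s|
    · rw [hΦ.zs x hx s hs, norm_zero]
      exact le_max_right _ _
    · exact (hC (x, s) ⟨hxK, abs_le.1 (not_lt.1 hs)⟩).trans (le_max_left _ _)
  · rw [hΦ.zx x hx hxK, norm_zero]
    exact le_max_right _ _

theorem sh_ci_self (hX : IsMfd k X)
    (hw : SmoothAlong (k + 1) (X ×ˢ (univ : Set ℝ)) (fun z : V × ℝ => w z.1 z.2))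
    (zx : ∀ x ∈ X, x ∉ K → ∀ s, w x s = 0) (zs : ∀ x s, L < |s| → w x s = 0) : ShCI X K L w :=
  ⟨sh_cyl_cont hX hw, zx, fun x _ s hs => zs x s hs⟩

/-- the energy density of a cylinder test. -/
theorem sh_ci_phi (hG : CtGeo k X h t)
    (hw : SmoothAlong (k + 1) (X ×ˢ (univ : Set ℝ)) (fun z : V × ℝ => w z.1 z.2)) (hK : IsClosed K)
    (zx : ∀ x ∈ X, x ∉ K → ∀ s, w x s = 0) (zs : ∀ x s, L < |s| → w x s = 0) :
    ShCI X K L fun x s => gradSq k X h (fun y => w y s) x + deriv (fun σ => w x σ) s ^ 2 := by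
  refine ⟨(sh_cyl_grad_cont hG hw).add ((sh_cyl_deriv_cont hG.mfd hw).pow 2), fun x hx hxK s => ?_,
    fun x hx s hs => ?_⟩
  · have h1 : (fun σ => w x σ) = fun _ => (0 : ℝ) := funext fun σ => zx x hx hxK σ
    rw [sh_gradSq_zero_off hG hK (fun y hy hyK => zx y hy hyK s) hx hxK, h1, deriv_const]
    simp
  · have h1 : (fun y => w y s) = fun _ => (0 : ℝ) := funext fun y => zs y s hs
    have h2 : (fun σ => w x σ) =ᶠ[𝓝 s] fun _ => (0 : ℝ) := by
      filter_upwards [continuous_abs.continuousAt.eventually (lt_mem_nhds hs)] with σ hσ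
      exact zs x σ hσ
    rw [h1, gs_sq_const hG.mfd hG.met 0 hx, h2.deriv_eq, deriv_const]
    simp

variable [MeasurableSpace V] [BorelSpace V]

theorem ShCI.int_x (hΦ : ShCI X K L Φ) (hG : CtGeo k X h t) (hK : IsCompact K) (hKX : K ⊆ X) (s : ℝ) :
    Integrable (fun x => Φ x s) (wvol k X h t) :=
  sh_integrable_cs hG (hΦ.slice_cont s) hK hKX fun x hx hxK => hΦ.zx x hx hxK s

theorem ShCI.cont_s (hΦ : ShCI X K L Φ) (hG : CtGeo k X h t) (hK : IsCompact K) (hKX : K ⊆ X) :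
    Continuous fun s => ∫ x, Φ x s ∂(wvol k X h t) := by
  obtain ⟨C, hC0, hC⟩ := hΦ.bound hK hKX
  have hfin : wvol k X h t K < ⊤ := lt_top_iff_ne_top.2 (ct_wvol_compact hG hK hKX)
  have hdom : Integrable (K.indicator fun _ => C) (wvol k X h t) :=
    (integrable_indicator_iff hK.measurableSet).2 (integrableOn_const hfin.ne)
  refine continuous_of_dominated (fun s => (hΦ.int_x hG hK hKX s).aestronglyMeasurable) (fun s => ?_) hdom ?_
  · filter_upwards [sh_ae_mem hG] with x hx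
    by_cases hxK : x ∈ K
    · rw [indicator_of_mem hxK]
      exact hC x hx s
    · rw [indicator_of_notMem hxK, hΦ.zx x hx hxK, norm_zero]
  · filter_upwards [sh_ae_mem hG] with x hx
    exact hΦ.line_cont hx

theorem ShCI.int_s (hΦ : ShCI X K L Φ) (hG : CtGeo k X h t) (hK : IsCompact K) (hKX : K ⊆ X) :
    Integrable (fun s => ∫ x, Φ x s ∂(wvol k X h t)) volume := by
  refine (hΦ.cont_s hG hK hKX).integrable_of_hasCompactSupport
    (HasCompactSupport.intro (isCompact_Icc (a := -L) (b := L)) fun s hs => ?_)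
  have hs' : L < |s| := by
    by_contra hcon
    exact hs (abs_le.1 (not_lt.1 hcon))
  refine integral_eq_zero_of_ae ?_
  filter_upwards [sh_ae_mem hG] with x hx
  exact hΦ.zs x hx s hs'

/-- additivity of the iterated integral. -/
theorem ShCI.integral_add (hΦ : ShCI X K L Φ) (hΨ : ShCI X K L Ψ) (hG : CtGeo k X h t) (hK : IsCompact K)
    (hKX : K ⊆ X) (I : Set ℝ) :
    ∫ s in I, ∫ x, (Φ x s + Ψ x s) ∂(wvol k X h t) =
      (∫ s in I, ∫ x, Φ x s ∂(wvol k X h t)) + ∫ s in I, ∫ x, Ψ x s ∂(wvol k X h t) := by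
  rw [← MeasureTheory.integral_add (hΦ.int_s hG hK hKX).integrableOn (hΨ.int_s hG hK hKX).integrableOn]
  refine integral_congr_ae (Filter.Eventually.of_forall fun s => ?_)
  exact MeasureTheory.integral_add (hΦ.int_x hG hK hKX s) (hΨ.int_x hG hK hKX s)

/-- the iterated integral only depends on the values on `X`. -/
theorem sh_iter_congr (hG : CtGeo k X h t) (he : ∀ x ∈ X, ∀ s, Ψ x s = Φ x s) (I : Set ℝ) :
    ∫ s in I, ∫ x, Ψ x s ∂(wvol k X h t) = ∫ s in I, ∫ x, Φ x s ∂(wvol k X h t) := by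
  refine integral_congr_ae (Filter.Eventually.of_forall fun s => ?_)
  refine integral_congr_ae ?_
  filter_upwards [sh_ae_mem hG] with x hx
  exact he x hx s

theorem sh_wvol_sfinite (hG : CtGeo k X h t) : SFinite (wvol k X h t) := by
  have := ct_vol_sigmaFinite hG
  unfold wvol
  infer_instance

theorem ShCI.measurable_ind (hΦ : ShCI X K L Φ) (hX : IsMfd k X) :
    Measurable ((X ×ˢ (univ : Set ℝ)).indicator fun z : V × ℝ => Φ z.1 z.2) := by
  classical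
  have hm : MeasurableSet (X ×ˢ (univ : Set ℝ)) := (ct_measurableSet hX).prod MeasurableSet.univ
  have h2 := hΦ.cont.measurable_piecewise (g := fun _ => (0 : ℝ)) continuousOn_const hm
  have h3 : (X ×ˢ (univ : Set ℝ)).indicator (fun z : V × ℝ => Φ z.1 z.2) =
      (X ×ˢ (univ : Set ℝ)).piecewise (fun z : V × ℝ => Φ z.1 z.2) fun _ => (0 : ℝ) := by
    funext z
    by_cases hz : z ∈ X ×ˢ (univ : Set ℝ)
    · simp [hz]
    · simp [hz]
  rw [h3]
  exact h2

/-- `x ↦ ∫⁻ ofReal (Φ x s) ds` is a.e. measurable. -/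
theorem ShCI.aemeasurable_lint (hΦ : ShCI X K L Φ) (hG : CtGeo k X h t) (I : Set ℝ) :
    AEMeasurable (fun x => ∫⁻ s in I, ENNReal.ofReal (Φ x s)) (wvol k X h t) := by
  have h1 : Measurable fun x => ∫⁻ s in I,
      ENNReal.ofReal ((X ×ˢ (univ : Set ℝ)).indicator (fun z : V × ℝ => Φ z.1 z.2) (x, s)) :=
    (ENNReal.measurable_ofReal.comp (hΦ.measurable_ind hG.mfd)).lintegral_prod_right'
  refine ⟨_, h1, ?_⟩
  filter_upwards [sh_ae_mem hG] with x hx
  refine lintegral_congr fun s => ?_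
  rw [indicator_of_mem (show (x, s) ∈ X ×ˢ (univ : Set ℝ) from ⟨hx, mem_univ _⟩)]

/-- Tonelli for nonnegative integrands. -/
theorem ShCI.ofReal_iter (hΦ : ShCI X K L Φ) (hG : CtGeo k X h t) (hK : IsCompact K) (hKX : K ⊆ X)
    (h0 : ∀ x ∈ X, ∀ s, 0 ≤ Φ x s) (I : Set ℝ) :
    ENNReal.ofReal (∫ s in I, ∫ x, Φ x s ∂(wvol k X h t)) =
      ∫⁻ x, (∫⁻ s in I, ENNReal.ofReal (Φ x s)) ∂(wvol k X h t) := by
  have := sh_wvol_sfinite hG
  have hnn : ∀ s, 0 ≤ᵐ[wvol k X h t] fun x => Φ x s := fun s => by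
    filter_upwards [sh_ae_mem hG] with x hx
    exact h0 x hx s
  rw [ofReal_integral_eq_lintegral_ofReal (hΦ.int_s hG hK hKX).integrableOn
    (Filter.Eventually.of_forall fun s => integral_nonneg_of_ae (hnn s))]
  have h1 : ∀ s, ENNReal.ofReal (∫ x, Φ x s ∂(wvol k X h t)) = ∫⁻ x,
      ENNReal.ofReal ((X ×ˢ (univ : Set ℝ)).indicator (fun z : V × ℝ => Φ z.1 z.2) (x, s)) ∂(wvol k X h t) := by
    intro s
    rw [ofReal_integral_eq_lintegral_ofReal (hΦ.int_x hG hK hKX s) (hnn s)]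
    refine lintegral_congr_ae ?_
    filter_upwards [sh_ae_mem hG] with x hx
    rw [indicator_of_mem (show (x, s) ∈ X ×ˢ (univ : Set ℝ) from ⟨hx, mem_univ _⟩)]
  rw [lintegral_congr fun s => h1 s]
  rw [lintegral_lintegral_swap (f := fun s x =>
    ENNReal.ofReal ((X ×ˢ (univ : Set ℝ)).indicator (fun z : V × ℝ => Φ z.1 z.2) (x, s)))
    ((ENNReal.measurable_ofReal.comp (hΦ.measurable_ind hG.mfd)).comp measurable_swap).aemeasurable]
  refine lintegral_congr_ae ?_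
  filter_upwards [sh_ae_mem hG] with x hx
  refine lintegral_congr fun s => ?_
  rw [indicator_of_mem (show (x, s) ∈ X ×ˢ (univ : Set ℝ) from ⟨hx, mem_univ _⟩)]

/-- densities `∫ (a w)² ds`. -/
theorem ShCI.dens_mul (hΦ : ShCI X K L Φ) (hG : CtGeo k X h t) {a : V → ℝ} (ha : ContinuousOn a X) (I : Set ℝ) :
    (wvol k X h t).withDensity (fun x => ∫⁻ s in I, ENNReal.ofReal ((a x * Φ x s) ^ 2)) =
      ((wvol k X h t).withDensity fun x => ∫⁻ s in I, ENNReal.ofReal (Φ x s ^ 2)).withDensity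
        fun x => ENNReal.ofReal (a x ^ 2) := by
  have ha2 : ContinuousOn (fun x => a x ^ 2) X := ha.pow 2
  rw [← withDensity_mul₀ (hΦ.sq.aemeasurable_lint hG I) (sh_aem_ofReal hG ha2)]
  congr 1
  funext x
  rw [Pi.mul_apply, mul_comm, ← lintegral_const_mul' _ _ ENNReal.ofReal_ne_top]
  refine lintegral_congr fun s => ?_
  rw [← ENNReal.ofReal_mul (sq_nonneg _), mul_pow]

/-- the localisation error on the cylinder is paid by the potential `Gf`. -/
theorem ShCI.err_le (hΦ : ShCI X K L Φ) (hG : CtGeo k X h t) (hK : IsCompact K) (hKX : K ⊆ X) {g : V → ℝ}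
    (hg : ContinuousOn g X) (hg0 : ∀ x ∈ X, 0 ≤ g x) {c : ℝ} (hc : 0 ≤ c) {Gf : V → ℝ}
    (hGf : ∀ x ∈ X, c * g x ≤ Gf x) (I : Set ℝ) :
    ENNReal.ofReal (c * ∫ s in I, ∫ x, g x * Φ x s ^ 2 ∂(wvol k X h t)) ≤
      ∫⁻ x, ENNReal.ofReal (Gf x) ∂((wvol k X h t).withDensity fun x => ∫⁻ s in I, ENNReal.ofReal (Φ x s ^ 2)) := by
  have hfin : ∫⁻ x, (∫⁻ s in I, ENNReal.ofReal (Φ x s ^ 2)) ∂(wvol k X h t) ≠ ⊤ := by
    rw [← hΦ.sq.ofReal_iter hG hK hKX (fun _ _ _ => sq_nonneg _)]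
    exact ENNReal.ofReal_ne_top
  rw [ENNReal.ofReal_mul hc, (hΦ.sq.mul_left hg).ofReal_iter hG hK hKX
      (fun x hx s => mul_nonneg (hg0 x hx) (sq_nonneg _)),
    ← lintegral_const_mul' _ _ ENNReal.ofReal_ne_top,
    lintegral_withDensity_eq_lintegral_mul_non_measurable₀ _ (hΦ.sq.aemeasurable_lint hG I)
      (ae_lt_top' (hΦ.sq.aemeasurable_lint hG I) hfin)]
  refine lintegral_mono_ae ?_
  filter_upwards [sh_ae_mem hG] with x hx
  have h1 : ∫⁻ s in I, ENNReal.ofReal (g x * Φ x s ^ 2) =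
      ENNReal.ofReal (g x) * ∫⁻ s in I, ENNReal.ofReal (Φ x s ^ 2) := by
    rw [← lintegral_const_mul' _ _ ENNReal.ofReal_ne_top]
    refine lintegral_congr fun s => ?_
    rw [ENNReal.ofReal_mul (hg0 x hx)]
  rw [h1, Pi.mul_apply, ← mul_assoc, ← ENNReal.ofReal_mul hc, mul_comm]
  exact mul_le_mul_right (ENNReal.ofReal_le_ofReal (hGf x hx)) _

end ci

end Claimed.Agent.R315
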