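import Claimed.Agent.R315.Sh.Force
import Claimed.Agent.R315.Sh.Geo
import Claimed.Agent.R315.Ct.ProdE

/-!
# Row 315, package SH-RISK: the risky set `Σ_β ∩ H*_β` is compact over compact subsets of `V` once all proper faces are done (P proof of D.6, 2nd paragraph)

Tools: `ct_escape` (= packet:escape), `ct_window`, `ct_window_compat`, `CutOK.ends : CutEnds`, `CtSeq.sing_lim`, `ct_translate_sets`, `CtLAM.sing_closed`, `ct_bd_inter` (`Ct/Cut.lean`, `Ct/Reg.lean`, `Ct/Prod.lean`).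

* `sh_cyl_sing` : boundary / regular / singular points of a cylinder set in a member `(γ, J)`: `ctSing (mdim) (F.cyl J (E γ)) (F.cyl J A') = F.cyl J (ctSing (E γ) A')`.  Induction on `J` (`Frame.cyl_insert`) from the one step statement for
  `ctCyl τ e`: a parametrisation `ψ` of `M` gives the parametrisation `(u, s) ↦ ψ u + s • e` of the cylinder; `ctPre` of the cylinder set is a product `S × ℝ`; `Gmt.gmtBd (S × ℝ) = gmtBd S × ℝ`, `GmtReg (S × ℝ) (u,s) ↔ GmtReg S u`
  (for `←` the defining graph function does not depend on `s`; for `→` slice: ask helper184/helper75 for `gmt_reg_prod` if it is not yet in `Lib/Gmt`).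
* `sh_sing_escape` (EC): `s k j = t_j (z k)`; `CutEnds` gives `O k` and a `CtSeq` on the member `(α.faceS J, J)`; `x k = z k - F.vec J (s k) = dropS J (z k)` is a singular point of the translated phase (`ct_translate_sets`; locality of `ctSing` under `∩ O k`);
  `x k ∈ O k` eventually (`CtSeq.exh` for the compact set `{x k} ∪ {y}`, which lies in the member by `ct_window`); `CtSeq.sing_lim` (needs the EVENTUAL version: captain informed); then `sh_cyl_sing` and `dropS J y = y`.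
* `sh_cnt_open`: over a compact neighbourhood of `q z` all but finitely many labels of `R` are passive (`ShState.passive`), hence decided (`Passive` contains `z ∈ Un j`); each of the finitely many others which is decided at `z` is decided near `z` (`LabelOk.up_open/un_open`).
  So near `z` every undecided label is undecided at `z`.
* `sh_cnt_escape`: by contradiction with `sh_cnt_open` at `y`; for `k` large `dropS J (z k) ∈ E (α.faceS J)` (`ct_window` or `ShThr`-type iteration of `IsDiag.exists_tail`) and for the finitely many non passive labels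
  `z k ∈ Up j ↔ dropS J (z k) ∈ Up j` (`LabelOk.up_compat`, `ct_window_compat`), same for `Un`; passive labels are decided at `dropS J (z k)` as well.
* `sh_risky_compact`: sequential compactness (`IsCompact` in a metric space: `isCompact_iff_isSeqCompact`...).  A sequence in the set has by `ct_escape` a subsequence escaping exactly in `J` with `dropS J (z k) → y ∈ E (β.faceS J)`.
  `J = ∅`: `z k → y ∈ E β`; `y ∈ Σ_β` (`CtLAM.sing_closed`), `q y ∈ K`, `Cnt` at `y` by `sh_cnt_open`.   `J ≠ ∅`: `y ∈ Σ_{face}` (EC), `Cnt R (m β - 2) y` (`sh_cnt_escape`), `m face ≤ m β`, contradiction with `hface`.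
-/

set_option autoImplicit false
open scoped ContDiff ENNReal Topology
open MeasureTheory Claims.C0499 Filter

namespace Claimed.Agent.R315

variable {V W : Type} [NormedAddCommGroup V] [NormedSpace ℝ V] [NormedAddCommGroup W] [NormedSpace ℝ W] {ι : Type}
  [FiniteDimensional ℝ V] [FiniteDimensional ℝ W] [Fintype ι] [MeasurableSpace W] [BorelSpace W]
  {C : ShCtx V W ι} {hh : C.B.J → W → ℝ} {tt : C.B.J → ℝ}

/-- singular set of a cylinder set in a member. -/
theorem sh_cyl_sing (hC : C.Ok) (γ : Stat ι) (J : Finset ι) (hJ : ∀ j ∈ J, γ j = 0) (A' : Set W) (hA' : A' ⊆ C.P.E γ) :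
    ctSing (mdim C.B.n γ J) (C.P.mE C.F γ J) (C.F.cyl J A') = C.F.cyl J (ctSing (C.B.n - hits γ) (C.P.E γ) A') := by
  classical
  induction J using Finset.induction_on with
  | empty =>
    have h1 : ∀ X : Set W, C.F.cyl ∅ X = X := fun X => by
      ext z
      simp [Frame.cyl, Frame.dropS_empty]
    simp only [PData.mE, h1, mdim, Finset.card_empty, add_zero]
  | insert i S hi ih =>
    have hS : ∀ j ∈ S, γ j = 0 := fun j hj => hJ j (Finset.mem_insert_of_mem hj)
    have hG := ct_mem_geo hC.inv.pgeo γ S hS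
    have hM : ∀ x ∈ C.P.mE C.F γ S, C.F.t i x = 0 := by
      intro x hx
      rw [← C.F.t_dropS_notMem hi x]
      exact hC.inv.diag.t_hit γ _ hx i (hJ i (Finset.mem_insert_self i S))
    have hd : mdim C.B.n γ (insert i S) = mdim C.B.n γ S + 1 := by
      unfold mdim
      rw [Finset.card_insert_of_notMem hi]
      ring
    have h3 := (ct_cyl_sets hG.mfd (C.F.t_e i) hM (C.F.cyl S A')).2.2.1
    rw [ih hS] at h3
    rw [hd, PData.mE, C.F.cyl_insert hi, C.F.cyl_insert hi, C.F.cyl_insert hi]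
    exact h3

/-- **(EC)** singular points which escape in the tails `J` accumulate at singular points of the face. -/
theorem sh_sing_escape (hC : C.Ok) (α : Stat ι) (J : Finset ι) (hJ : ∀ j ∈ J, α j ≠ 0) (z : ℕ → W)
    (hz : ∀ k, z k ∈ C.Sig α) (hesc : ∀ j ∈ J, Tendsto (fun k => (α j : ℝ) * C.F.t j (z k)) atTop atTop) {y : W}
    (hy : Tendsto (fun k => C.F.dropS J (z k)) atTop (𝓝 y)) : y ∈ C.Sig (α.faceS J) := by
  classical
  have hD := hC.inv.diag
  have hzE : ∀ k, z k ∈ C.P.E α := fun k => ct_bd_subset _ (hz k).1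
  have hxz : ∀ k, C.F.dropS J (z k) + C.F.vec J (fun j => C.F.t j (z k)) = z k := by
    intro k
    simp [Frame.dropS, Frame.vec]
  have hidem : ∀ w, C.F.dropS J (C.F.dropS J w) = C.F.dropS J w := by
    intro w
    conv_lhs => rw [Frame.dropS]
    rw [Finset.sum_eq_zero (fun j hj => by rw [C.F.t_dropS_mem hj, zero_smul]), sub_zero]
  -- the projections lie in the face eventually
  have hqc : IsCompact (insert (C.F.q y) (Set.range fun k => C.F.q (C.F.dropS J (z k)))) :=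
    ((C.F.q.continuous.tendsto y).comp hy).isCompact_insert_range
  obtain ⟨R1, _, hR1⟩ := sh_unif_thr hD hqc
  have hev1 : ∀ᶠ k in atTop, C.F.dropS J (z k) ∈ C.P.E (α.faceS J) := by
    have : ∀ᶠ k in atTop, ∀ i ∈ J, R1 < (α i : ℝ) * C.F.t i (z k) := by
      rw [Filter.eventually_all_finset]
      exact fun i hi => (hesc i hi).eventually_gt_atTop _
    filter_upwards [this] with k hk
    refine (hR1 J α (z k) ?_ fun i hi => ⟨hJ i hi, hk i hi⟩).1 (hzE k)
    rw [← C.F.q_dropS J (z k)]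
    exact Set.mem_insert_of_mem _ ⟨k, rfl⟩
  have hyE : y ∈ C.P.E (α.faceS J) := (hD.closed _).mem_of_tendsto hy hev1
  have hyy : C.F.dropS J y = y :=
    tendsto_nhds_unique ((((C.F.continuous_dropS J).tendsto y).comp hy).congr fun k => hidem (z k)) hy
  -- dimensions
  have hdimγ := hC.dim _ ⟨y, hyE⟩
  have hhits : hits (α.faceS J) = hits α + J.card := sh_hits_faceS α J hJ
  have hmd : mdim C.B.n (α.faceS J) J = C.m α := by
    unfold mdim ShCtx.m
    omega
  have hd2 : 2 ≤ C.m α := by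
    unfold ShCtx.m
    omega
  -- the ends
  obtain ⟨O, hO1, H⟩ := hC.cut.ends α J hJ (fun k j => C.F.t j (z k)) hesc
  rw [hmd] at H
  obtain ⟨k0, hk0⟩ := eventually_atTop.1 hev1
  have hK' : IsCompact (insert y (Set.range fun k => C.F.dropS J (z (k + k0)))) :=
    (hy.comp (tendsto_add_atTop_nat k0)).isCompact_insert_range
  have hsub : insert y (Set.range fun k => C.F.dropS J (z (k + k0))) ⊆ C.P.mE C.F (α.faceS J) J := by
    rintro w (rfl | ⟨k, rfl⟩)
    · show C.F.dropS J w ∈ C.P.E (α.faceS J)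
      rw [hyy]
      exact hyE
    · show C.F.dropS J (C.F.dropS J (z (k + k0))) ∈ C.P.E (α.faceS J)
      rw [hidem]
      exact hk0 _ (Nat.le_add_left _ _)
  have hxO : ∀ᶠ k in atTop, C.F.dropS J (z k) ∈ O k := by
    filter_upwards [H.exh _ hK' hsub, eventually_ge_atTop k0] with k h1 h2
    exact h1 (Set.mem_insert_of_mem _ ⟨k - k0, by simp only [Nat.sub_add_cancel h2]⟩)
  have hsing : ∀ k, C.F.dropS J (z k) ∈ O k → C.F.dropS J (z k) ∈
      ctSing (C.m α) (C.P.mE C.F (α.faceS J) J) (ctWin C.F C.P C.A α J (fun j => C.F.t j (z k)) ∩ O k) := by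
    intro k hk
    set v := C.F.vec J (fun j => C.F.t j (z k)) with hv
    have e1 : {w | w + v ∈ C.P.E α} = ctTr (-v) (C.P.E α) := by
      ext w
      simp [ctTr]
    have e2 : ctWin C.F C.P C.A α J (fun j => C.F.t j (z k)) = ctTr (-v) (C.ph α) := by
      ext w
      simp [ctWin, ctTr, ShCtx.ph, hv]
    have hG : CtGeo (C.m α) (C.P.E α) C.P.h C.P.dr := ⟨hD.mfd α, hC.inv.met.met α, hC.inv.dr_sc.1 α⟩
    have hMt : IsMfd (C.m α) (ctTr (-v) (C.P.E α)) := (hG.translate (-v)).mfd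
    have h1 : C.F.dropS J (z k) ∈ ctSing (C.m α) (ctTr (-v) (C.P.E α)) (ctTr (-v) (C.ph α)) := by
      rw [(ct_translate_sets (-v) (C.ph α)).2.2.1]
      show C.F.dropS J (z k) - -v ∈ ctSing (C.m α) (C.P.E α) (C.ph α)
      rw [sub_neg_eq_add, hxz]
      exact hz k
    have h2 : C.F.dropS J (z k) ∈
        ctSing (C.m α) (ctTr (-v) (C.P.E α) ∩ O k) (ctTr (-v) (C.ph α) ∩ O k) := by
      rw [(ct_bd_inter hMt _ (H.opn k)).2.2.1]
      exact ⟨h1, hk⟩
    rw [← e1, ← hO1 k, ← e2] at h2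
    have h3 := (ct_bd_inter H.geo.mfd (ctWin C.F C.P C.A α J (fun j => C.F.t j (z k)) ∩ O k) (H.opn k)).2.2.1
    rw [Set.inter_assoc, Set.inter_self] at h3
    rw [h3] at h2
    exact h2.1
  have hlim := H.sing_lim hd2 (x := fun k => C.F.dropS J (z k)) (x' := y)
    (by filter_upwards [hxO] with k hk using ⟨hsing k hk, hk⟩) hy
  rw [← hmd, sh_cyl_sing hC (α.faceS J) J (fun j hj => by simp [Stat.faceS, hj]) (C.A ∩ C.P.E (α.faceS J))
    Set.inter_subset_right] at hlim
  have h4 : C.F.dropS J y ∈ ctSing (C.B.n - hits (α.faceS J)) (C.P.E (α.faceS J)) (C.A ∩ C.P.E (α.faceS J)) := hlim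
  rw [hyy] at h4
  exact h4

theorem PData.Cnt.mono {I : Type} {P : PData W ι I} {rem : Set I} {k k' : ℕ} {z : W} (h : P.Cnt rem k z) (hk : k' ≤ k) :
    P.Cnt rem k' z := by
  obtain ⟨s, hs, hc⟩ := h
  exact ⟨s, hs, hk.trans hc⟩

/-- the guard is relatively closed. -/
theorem sh_cnt_open {θ : ℝ} {P1 : PData W ι C.B.J} (hC : C.Ok) (hS : ShState C hh tt θ P1) (α : Stat ι) (k : ℕ) {z : W}
    (hz : z ∈ C.P.E α) (hn : ¬ P1.Cnt C.R k z) : ∃ N ∈ 𝓝 z, ∀ y ∈ N ∩ C.P.E α, ¬ P1.Cnt C.R k y := by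
  classical
  have hfin := hS.passive _ (isCompact_closedBall (C.F.q z) 1)
  -- a neighbourhood for every label
  have hNj : ∀ j, ∃ N ∈ 𝓝 z, j ∈ C.R → z ∉ P1.und j → ∀ y ∈ N ∩ C.P.E α, y ∉ P1.und j := by
    intro j
    by_cases hj : j ∈ C.R
    · have L := hS.label j hj
      by_cases hu : z ∈ P1.Up j
      · obtain ⟨N, hN, hsub⟩ := L.up_open α z ⟨hu, by rw [hS.E_eq]; exact hz⟩
        refine ⟨N, hN, fun _ _ y hy hyu => hyu.1 (hsub ⟨hy.1, ?_⟩)⟩
        rw [hS.E_eq]
        exact hy.2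
      · by_cases hu' : z ∈ P1.Un j
        · obtain ⟨N, hN, hsub⟩ := L.un_open α z ⟨hu', by rw [hS.E_eq]; exact hz⟩
          refine ⟨N, hN, fun _ _ y hy hyu => hyu.2 (hsub ⟨hy.1, ?_⟩)⟩
          rw [hS.E_eq]
          exact hy.2
        · exact ⟨Set.univ, Filter.univ_mem, fun _ h => absurd ⟨hu, hu'⟩ h⟩
    · exact ⟨Set.univ, Filter.univ_mem, fun h => absurd h hj⟩
  choose Nj hNj1 hNj2 using hNj
  refine ⟨C.F.q ⁻¹' Metric.closedBall (C.F.q z) 1 ∩ ⋂ j ∈ hfin.toFinset, Nj j,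
    Filter.inter_mem (C.F.q.continuous.continuousAt.preimage_mem_nhds (Metric.closedBall_mem_nhds _ one_pos))
      ((Filter.biInter_finset_mem _).2 fun j _ => hNj1 j), ?_⟩
  rintro y ⟨⟨hy1, hy2⟩, hyE⟩ ⟨s, hs, hk⟩
  refine hn ⟨s, fun j hj => ⟨(hs j hj).1, ?_⟩, hk⟩
  by_contra hzu
  have hjL : j ∈ hfin.toFinset := by
    rw [hfin.mem_toFinset]
    exact ⟨(hs j hj).1, y, mem_tot.2 ⟨α, hyE⟩, hy1, fun hp => (hs j hj).2.2 hp.2.1⟩
  exact hNj2 j (hs j hj).1 hzu y ⟨Set.mem_iInter₂.1 hy2 j hjL, hyE⟩ (hs j hj).2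

/-- the guard passes to the faces along escaping sequences. -/
theorem sh_cnt_escape {θ : ℝ} {P1 : PData W ι C.B.J} (hC : C.Ok) (hS : ShState C hh tt θ P1) (α : Stat ι) (J : Finset ι)
    (hJ : ∀ j ∈ J, α j ≠ 0) (z : ℕ → W) (hz : ∀ k, z k ∈ C.P.E α) {K : Set V} (hK : IsCompact K)
    (hq : ∀ k, C.F.q (z k) ∈ K) (hesc : ∀ j ∈ J, Tendsto (fun k => (α j : ℝ) * C.F.t j (z k)) atTop atTop) {y : W}
    (hyE : y ∈ C.P.E (α.faceS J)) (hy : Tendsto (fun k => C.F.dropS J (z k)) atTop (𝓝 y)) {k0 : ℕ}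
    (hc : ∀ k, P1.Cnt C.R k0 (z k)) : P1.Cnt C.R k0 y := by
  classical
  by_contra hn
  obtain ⟨N, hN, hN'⟩ := sh_cnt_open hC hS (α.faceS J) k0 hyE hn
  have hD := hC.inv.diag
  have hfin := hS.passive K hK
  obtain ⟨R1, _, hR1⟩ := sh_unif_thr hD hK
  -- thresholds of the cores of the finitely many non passive labels
  have hthr : ∀ j, ∃ R : ℝ, j ∈ C.R → ∀ x ∈ tot C.P.E, C.F.q x ∈ K → (∀ i ∈ J, R < |C.F.t i x|) →
      ((C.F.dropS J x ∈ P1.Up j) = (x ∈ P1.Up j)) ∧ ((C.F.dropS J x ∈ P1.Un j) = (x ∈ P1.Un j)) := by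
    intro j
    by_cases hj : j ∈ C.R
    · have L := hS.label j hj
      have h1 := L.up_compat
      have h2 := L.un_compat
      rw [hS.E_eq] at h1 h2
      obtain ⟨Ra, _, hRa⟩ := sh_unif_compat hD h1 hK
      obtain ⟨Rb, _, hRb⟩ := sh_unif_compat hD h2 hK
      exact ⟨max Ra Rb, fun _ x hx hq hi =>
        ⟨hRa J x hx hq fun i hiJ => lt_of_le_of_lt (le_max_left _ _) (hi i hiJ),
          hRb J x hx hq fun i hiJ => lt_of_le_of_lt (le_max_right _ _) (hi i hiJ)⟩⟩
    · exact ⟨0, fun h => absurd h hj⟩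
  choose Rj hRj using hthr
  obtain ⟨R2, hR2⟩ := (hfin.toFinset.image Rj).bddAbove
  -- far out
  have hev : ∀ᶠ k in atTop, ∀ i ∈ J, max R1 R2 < (α i : ℝ) * C.F.t i (z k) := by
    rw [Filter.eventually_all_finset]
    exact fun i hi => (hesc i hi).eventually_gt_atTop _
  obtain ⟨k, hk1, hk2⟩ := (hev.and (hy.eventually hN)).exists
  have hxE : C.F.dropS J (z k) ∈ C.P.E (α.faceS J) :=
    (hR1 J α (z k) (hq k) fun i hi => ⟨hJ i hi, lt_of_le_of_lt (le_max_left _ _) (hk1 i hi)⟩).1 (hz k)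
  refine hN' _ ⟨hk2, hxE⟩ ?_
  obtain ⟨s, hs, hcard⟩ := hc k
  refine ⟨s, fun j hj => ⟨(hs j hj).1, ?_⟩, hcard⟩
  have hjL : j ∈ hfin.toFinset := by
    rw [hfin.mem_toFinset]
    exact ⟨(hs j hj).1, z k, mem_tot.2 ⟨α, hz k⟩, hq k, fun hp => (hs j hj).2.2 hp.2.1⟩
  have hRjle : Rj j ≤ R2 := hR2 (by
    rw [Finset.coe_image]
    exact ⟨j, hjL, rfl⟩)
  obtain ⟨e1, e2⟩ := hRj j (hs j hj).1 (z k) (mem_tot.2 ⟨α, hz k⟩) (hq k) fun i hi => by
    rw [← hD.sign_mul (hz k) i]
    exact lt_of_le_of_lt (hRjle.trans (le_max_right _ _)) (hk1 i hi)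
  exact ⟨fun h => (hs j hj).2.1 (e1 ▸ h), fun h => (hs j hj).2.2 (e2 ▸ h)⟩

/-- dimension of a face. -/
theorem sh_m_faceS (C : ShCtx V W ι) (α : Stat ι) (J : Finset ι) : C.m (α.faceS J) ≤ C.m α :=
  Nat.sub_le_sub_left (sh_hits_le_faceS α J) _

/-- **the risky set is compact.** -/
theorem sh_risky_compact {θ : ℝ} {P1 : PData W ι C.B.J} (hC : C.Ok) (hS : ShState C hh tt θ P1) (β : Stat ι)
    (hface : ∀ J : Finset ι, J.Nonempty → (∀ j ∈ J, β j ≠ 0) → ShDone C P1 (β.faceS J) Set.univ) {K : Set V}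
    (hK : IsCompact K) : IsCompact {z | z ∈ C.Sig β ∧ C.F.q z ∈ K ∧ P1.Cnt C.R (C.m β - 2) z} := by
  classical
  refine IsSeqCompact.isCompact fun z hz => ?_
  have hzE : ∀ k, z k ∈ C.P.E β := fun k => ct_bd_subset _ (hz k).1.1
  obtain ⟨φ, J, y, hφ, hJ, hesc, hyE, hy⟩ := ct_escape hC.inv.diag β z hzE hK fun k => (hz k).2.1
  rcases J.eq_empty_or_nonempty with rfl | hne
  · -- no escape: the limit lies in the set
    rw [Stat.faceS_empty] at hyE
    have hy' : Tendsto (fun k => z (φ k)) atTop (𝓝 y) := by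
      simpa only [Frame.dropS_empty] using hy
    refine ⟨y, ⟨?_, ?_, ?_⟩, φ, hφ, hy'⟩
    · obtain ⟨O, hO, hOeq⟩ := ct_sing_closed' (hC.inv.diag.mfd β) (C.ph β)
      by_contra hyS
      have hyO : y ∈ C.P.E β ∩ O := by
        rw [hOeq]
        exact ⟨hyE, hyS⟩
      obtain ⟨k, hk⟩ := (hy'.eventually (hO.mem_nhds hyO.2)).exists
      have : z (φ k) ∈ C.P.E β \ ctSing (C.B.n - hits β) (C.P.E β) (C.ph β) := by
        rw [← hOeq]
        exact ⟨hzE _, hk⟩
      exact this.2 (hz (φ k)).1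
    · exact hK.isClosed.mem_of_tendsto ((C.F.q.continuous.tendsto y).comp hy')
        (Filter.Eventually.of_forall fun k => (hz (φ k)).2.1)
    · by_contra hn
      obtain ⟨N, hN, hN'⟩ := sh_cnt_open hC hS β _ hyE hn
      obtain ⟨k, hk⟩ := (hy'.eventually hN).exists
      exact hN' _ ⟨hk, hzE _⟩ (hz (φ k)).2.2
  · -- escape: contradiction with the faces
    exfalso
    have h1 : y ∈ C.Sig (β.faceS J) := sh_sing_escape hC β J hJ (fun k => z (φ k)) (fun k => (hz (φ k)).1) hesc hy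
    have h2 : P1.Cnt C.R (C.m β - 2) y :=
      sh_cnt_escape hC hS β J hJ (fun k => z (φ k)) (fun k => hzE _) hK (fun k => (hz (φ k)).2.1) hesc hyE hy
        fun k => (hz (φ k)).2.2
    exact hface J hne hJ y h1 (Set.mem_univ _) (h2.mono (Nat.sub_le_sub_right (sh_m_faceS C β J) 2))

end Claimed.Agent.R315
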