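import Claimed.Agent.R315.Pack005

/-!
# Row 315: localisation of `rdist`; the slope of a smooth function (complete; only `If/*`, `Pk/Defs`)

* `sh_rdist_local`: near a point `z` of a manifold `(Z, k)` the distance may be computed with curves which stay in a given open set `O ∋ z`.
* `sh_slope_of_gradSq`: the slope of a smooth function is at most its gradient norm  (= `pk_slope_of_gradSq`, `Pk/PressA.lean`).
-/

set_option autoImplicit false
open scoped ContDiff ENNReal Topology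
open MeasureTheory Claims.C0499 Set

namespace Claimed.Agent.R315

section loc

variable {W : Type} [NormedAddCommGroup W] [NormedSpace ℝ W] [FiniteDimensional ℝ W] {d : ℕ} {Z : Set W} {k : Ten W}
  {z : W}

/-- **localisation of the distance.** -/
theorem sh_rdist_local (hZ : IsMfd d Z) (hk : IsMetricOn d Z k) (hz : z ∈ Z) {O : Set W} (hO : IsOpen O)
    (hzO : z ∈ O) : ∃ N ∈ 𝓝 z, N ⊆ O ∧ ∀ y ∈ N ∩ Z, ∀ y' ∈ N ∩ Z,
      if_Join (Z ∩ O) y y' ∧ rdist (Z ∩ O) k y y' ≤ rdist Z k y y' := by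
  obtain ⟨f, L, hfs, hL0, hf1, hf0, hL⟩ := if_exists_sep hZ hk hz (hO.mem_nhds hzO)
  have hkT : IsTenOn d Z k := (if_isMetricOn_iff.1 hk).1
  set ρ0 : ℝ := 1 / (2 * (L + 1)) with hρ0
  have hρpos : 0 < ρ0 := by positivity
  have hZ' : IsMfd d (Z ∩ O) := if_mfd_inter hZ hO
  have hkT' : IsTenOn d (Z ∩ O) k := if_isTenOn_inter hkT hO
  obtain ⟨ψ, U, hp, u₀, hu₀, he₀⟩ := hZ' z ⟨hz, hzO⟩
  obtain ⟨r, hr, Cc, hC0, hball, hdist⟩ := if_local_dist hZ' hkT' hp hu₀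
  set r' : ℝ := min r (ρ0 / (2 * (Cc + 1))) with hr'
  have hr'pos : 0 < r' := lt_min hr (by positivity)
  have hbb : Metric.ball u₀ r' ⊆ Metric.ball u₀ r := Metric.ball_subset_ball (min_le_left _ _)
  obtain ⟨O₁, hO₁, he⟩ := if_image_open hp Metric.isOpen_ball (hbb.trans hball)
  have hzO₁ : z ∈ O₁ := by
    have : z ∈ (Z ∩ O) ∩ O₁ := by
      rw [← he, ← he₀]
      exact mem_image_of_mem ψ (Metric.mem_ball_self hr'pos)
    exact this.2
  have hfN : {y | 1 / 2 < f y} ∈ 𝓝 z :=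
    hfs.continuous.continuousAt.preimage_mem_nhds (Ioi_mem_nhds (by rw [hf1]; norm_num))
  refine ⟨(O ∩ O₁) ∩ {y | 1 / 2 < f y}, Filter.inter_mem ((hO.inter hO₁).mem_nhds ⟨hzO, hzO₁⟩) hfN,
    fun y hy => hy.1.1, ?_⟩
  rintro y ⟨⟨⟨hyO, hyO₁⟩, hyf⟩, hyZ⟩ y' ⟨⟨⟨hyO', hyO₁'⟩, _⟩, hyZ'⟩
  have h1 : y ∈ ψ '' Metric.ball u₀ r' := by rw [he]; exact ⟨⟨hyZ, hyO⟩, hyO₁⟩
  have h2 : y' ∈ ψ '' Metric.ball u₀ r' := by rw [he]; exact ⟨⟨hyZ', hyO'⟩, hyO₁'⟩
  obtain ⟨u, hu, rfl⟩ := h1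
  obtain ⟨u', hu', rfl⟩ := h2
  have hseg : segment ℝ u u' ⊆ U :=
    (((convex_ball u₀ r').segment_subset hu hu').trans hbb).trans hball
  have hj : if_Join (Z ∩ O) (ψ u) (ψ u') := if_join_of_segment hp hseg
  have hsmall : rdist (Z ∩ O) k (ψ u) (ψ u') ≤ ρ0 := by
    refine (hdist u (hbb hu) u' (hbb hu')).trans ?_
    have h3 : ‖u' - u‖ ≤ 2 * r' := by
      have a1 := Metric.mem_ball.1 hu
      have a2 := Metric.mem_ball.1 hu'
      rw [← dist_eq_norm]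
      have := dist_triangle_right u' u u₀
      linarith
    have h4 : 2 * r' ≤ ρ0 / (Cc + 1) := by
      have : r' ≤ ρ0 / (2 * (Cc + 1)) := min_le_right _ _
      have e : ρ0 / (Cc + 1) = 2 * (ρ0 / (2 * (Cc + 1))) := by
        field_simp
      rw [e]
      linarith
    calc Cc * ‖u' - u‖ ≤ Cc * (ρ0 / (Cc + 1)) := mul_le_mul_of_nonneg_left (h3.trans h4) hC0
      _ = ρ0 * (Cc / (Cc + 1)) := by ring
      _ ≤ ρ0 * 1 := by
          refine mul_le_mul_of_nonneg_left ?_ hρpos.le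
          rw [div_le_one (by linarith)]
          linarith
      _ = ρ0 := mul_one _
  refine ⟨hj, ?_⟩
  obtain ⟨c₀, hc₀, hc₀0, hc₀1⟩ := hj
  have hjZ : if_Join Z (ψ u) (ψ u') := ⟨c₀, And.intro hc₀.1 fun t ht => (hc₀.2 t ht).1, hc₀0, hc₀1⟩
  refine if_le_rdist hjZ fun c hc hc0 hc1 => ?_
  by_cases hstay : ∀ t ∈ Icc (0 : ℝ) 1, c t ∈ O
  · exact if_rdist_le' (M := Z ∩ O) ⟨hc.1, fun t ht => Set.mem_inter (hc.2 t ht) (hstay t ht)⟩ k hc0 hc1
  · push Not at hstay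
    obtain ⟨s, hs, hsO⟩ := hstay
    refine hsmall.trans ?_
    have hmaps : ∀ t ∈ Icc (0 : ℝ) 1, if_aff 0 s t ∈ Icc (0 : ℝ) 1 := fun t _ =>
      ⟨(if_aff_mem hs.1 t).1, (if_aff_mem hs.1 t).2.trans hs.2⟩
    have hjs : if_Join Z (c 0) (c s) := ⟨_, if_adm_comp hc (if_aff_contDiff 0 s) hmaps,
      by rw [Function.comp_apply, if_aff_zero], by rw [Function.comp_apply, if_aff_one]⟩
    have h5 := if_lip hZ hk (if_smoothAlong_of_contDiff hfs) hL0 hL hjs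
    have h6 := if_rdist_add_le_len hZ hkT hc hs
    have h7 := if_rdist_nonneg Z k (c s) (c 1)
    have h8 := if_len_nonneg k c
    rw [hf0 _ hsO, hc0, zero_sub, abs_neg] at h5
    have h9 : (1 : ℝ) / 2 < L * if_len k c := by
      have hyf' : (1 : ℝ) / 2 < f (ψ u) := hyf
      calc (1 : ℝ) / 2 < f (ψ u) := hyf'
        _ ≤ |f (ψ u)| := le_abs_self _
        _ ≤ L * rdist Z k (ψ u) (c s) := h5
        _ ≤ L * if_len k c := by
            refine mul_le_mul_of_nonneg_left ?_ hL0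
            rw [hc0] at h6
            linarith
    rw [hρ0, div_le_iff₀ (by positivity)]
    nlinarith

/-- the slope of a smooth function is at most its gradient norm. -/
theorem sh_slope_of_gradSq (hZ : IsMfd d Z) (hk : IsMetricOn d Z k) {f : W → ℝ} (hf : SmoothAlong d Z f) (hz : z ∈ Z)
    {c : ℝ} (hc0 : 0 ≤ c) (hc : gradSq d Z k f z ≤ c ^ 2) : SlopeLE Z k f z c := by
  intro ε hε
  have hcont : ContinuousOn (gradSq d Z k f) Z :=
    if_smoothAlong_continuousOn hZ (if_gradSq_smoothAlong hk hf)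
  have hlt : gradSq d Z k f z < (c + ε) ^ 2 := lt_of_le_of_lt hc (by nlinarith)
  obtain ⟨O, hO, hOeq⟩ := continuousOn_iff'.1 hcont (Iio ((c + ε) ^ 2)) isOpen_Iio
  have hzO : z ∈ O := by
    have : z ∈ O ∩ Z := by
      rw [← hOeq]
      exact ⟨hlt, hz⟩
    exact this.1
  obtain ⟨N, hN, _, hN'⟩ := sh_rdist_local hZ hk hz hO hzO
  refine ⟨N, hN, fun y hy y' hy' => ?_⟩
  obtain ⟨hj, hle⟩ := hN' y hy y' hy'
  have hgr : ∀ x ∈ Z ∩ O, gradSq d (Z ∩ O) k f x ≤ (c + ε) ^ 2 := by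
    intro x hx
    rw [if_gradSq_inter hZ hk hO hf hx]
    have : x ∈ gradSq d Z k f ⁻¹' Iio ((c + ε) ^ 2) ∩ Z := by
      rw [hOeq]
      exact ⟨hx.2, hx.1⟩
    exact (le_of_lt this.1)
  have h1 := if_lip (if_mfd_inter hZ hO) (if_isMetricOn_inter hk hO) (if_smoothAlong_inter hf hO)
    (by linarith : 0 ≤ c + ε) hgr hj
  rw [abs_sub_comm]
  exact h1.trans (mul_le_mul_of_nonneg_left hle (by linarith))

end loc

end Claimed.Agent.R315
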