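import Claimed.Agent.R315.Sh.Defs

/-!
# Row 315, package SH-GEO, part T (complete): statuses, uniform thresholds, `ShThr`, metric split.   (Parts A = slopes, B = smooth lifts.)

No paper needed.  Notation: `α` a coface of `β` (`β.IsCof α`), `J = β.cofJ α` (entries with `β j = 0 ≠ α j`), `π = C.F.dropS J`,
`tail_T = C.F.tailS α J T = {z | ∀ j ∈ J, T < α_j t_j z}`, `m α = m β + |J|`.

`ShThr C β S0 T` : `T` is a product threshold for `S0`: over an open `U ⊇ q(S0)` and beyond `T`, `z ∈ E α ↔ π z ∈ E β`, and `h`, `dr` are pulled back by `π`.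
Existence: iterate `IsDiag.exists_tail` and `Compat.exists_threshold` (`Pk/Geom.lean`) for `K = ` closed `1`-neighbourhood of `q(S0)` along an enumeration of `J`
(`Frame.dropS_insert`, `Frame.q_drop`, `Frame.t_drop_ne`; induction on `J` with `α` generalised: `(α.face j)` is again a coface, `cofJ` loses `j`).

`sh_metric_split` (pure algebra): for `x ∈ E β`, all `v : W`:  `h x v v = h x (πv)(πv) + ∑_{j ∈ J} (t_j v)²`  by `NormalAt` (`h x e_j w = t_j w = h x w e_j`, `β j = 0`).

Consequences in `Ω = q⁻¹ U ∩ tail_T` (an open subset of `W`; `E α ∩ Ω = F.cyl J (E β) ∩ Ω` = an open piece of the member `(β, J)` of `Ct/Cut.lean`):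
* `sh_slope_lift`, `sh_slope_t`: PLAN.  Let `z ∈ E α ∩ Ω`.  A `C¹` curve `c` in `E α ∩ Ω` projects to the `C¹` curve `π ∘ c` in `E β`, and by `sh_metric_split`
  `len_h (π ∘ c) ≤ len_h c`, `|t_j (c 1) - t_j (c 0)| ≤ len_h c`.  Curves of `E α` which start in a small ball `N` around `z` and leave `Ω` have length `≥ ρ₀ > 0`
  (`if_exists_sep` / `if_rdist_lower`, `If/DistTop.lean`), whereas `rdist (E β) h (π y) (π y')` and `|t_j y - t_j y'|` are `< ρ₀` for `y, y' ∈ N ∩ E α`, `N` small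
  (`if_local_dist`, `If/Dist.lean`).  Hence `rdist (E β) h (π y)(π y') ≤ rdist (E α) h y y'` on `N`.  (Compare `pk_slope_fst`, `Pk/Split.lean`.)
  If `y, y'` are not joined in `E α` then `rdist = 0` by convention: take `N` so small that `N ∩ E α` lies in a connected chart image (`if_exists_join_nhd`).
* `sh_smooth_lift`, `sh_grad_lift`: induction on `J` with `ct_tail_cyl`, `CtGeo.cyl`, `ct_cyl_smooth`, `ct_cyl_gradSq` (`Ct/Prod.lean`), `CtLAM`-free; or directly on the member
  with `ct_mem_geo`, `ct_mem_smooth`; locality `if_gradSq_inter`, `if_smoothAlong_inter`; calculus `Gs/Calc.lean` (`gs_sq_mul`, `gs_sq_comp`; polarise `ct_cyl_gradSq` in `c` to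
  get `⟨∇(a∘π), ∇t_j⟩ = 0`, `|∇ t_j|² = 1`, `⟨∇t_j, ∇t_k⟩ = 0`).  The lift vanishes identically near every point of `E α` outside the closed set
  `{π z ∈ S0, T' ≤ α_j t_j z}`, which lies in `Ω` because `T < T'`.
-/

set_option autoImplicit false
open scoped ContDiff ENNReal Topology
open MeasureTheory Claims.C0499

namespace Claimed.Agent.R315

variable {V W : Type} [NormedAddCommGroup V] [NormedSpace ℝ V] [NormedAddCommGroup W] [NormedSpace ℝ W] {ι : Type}

/-! ### statuses -/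

theorem Stat.isCof_refl (β : Stat ι) : β.IsCof β := fun _ _ => rfl

theorem Stat.cofJ_self [Fintype ι] (β : Stat ι) : β.cofJ β = ∅ := by
  classical
  ext i
  simp only [Stat.cofJ, Finset.mem_filter, Finset.mem_univ, true_and, Finset.notMem_empty, iff_false]
  exact fun h => h.2 h.1

theorem Stat.mem_cofJ [Fintype ι] {β α : Stat ι} {i : ι} : i ∈ β.cofJ α ↔ β i = 0 ∧ α i ≠ 0 := by
  classical
  simp [Stat.cofJ]

theorem Stat.IsCof.faceS [Fintype ι] {β α : Stat ι} (h : β.IsCof α) : α.faceS (β.cofJ α) = β := by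
  classical
  funext i
  by_cases hi : i ∈ β.cofJ α
  · simp only [Stat.faceS, if_pos hi]
    exact (Stat.mem_cofJ.1 hi).1.symm
  · simp only [Stat.faceS, if_neg hi]
    by_cases hb : β i = 0
    · by_contra hne
      exact hi (Stat.mem_cofJ.2 ⟨hb, fun ha => hne (ha.trans hb.symm)⟩)
    · exact h i hb

/-- a face in `|J|` non-hit entries has `|J|` more hits. -/
theorem sh_hits_faceS [Fintype ι] (α : Stat ι) (J : Finset ι) (hJ : ∀ j ∈ J, α j ≠ 0) :
    hits (α.faceS J) = hits α + J.card := by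
  classical
  have h1 : ∀ i, (if α.faceS J i = 0 then 1 else 0 : ℕ) = (if α i = 0 then 1 else 0) + (if i ∈ J then 1 else 0) := by
    intro i
    by_cases hi : i ∈ J
    · simp [Stat.faceS, hi, hJ i hi]
    · simp [Stat.faceS, hi]
  unfold hits
  rw [Finset.sum_congr rfl fun i _ => h1 i, Finset.sum_add_distrib]
  simp

/-- faces have at least as many hits. -/
theorem sh_hits_le_faceS [Fintype ι] (α : Stat ι) (J : Finset ι) : hits α ≤ hits (α.faceS J) := by
  classical
  unfold hits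
  refine Finset.sum_le_sum fun i _ => ?_
  by_cases hi : i ∈ J
  · simp only [Stat.faceS, if_pos hi]
    split_ifs <;> simp
  · simp [Stat.faceS, hi]

/-- hit entries of a coface are hit entries of `β`. -/
theorem Stat.IsCof.zero {β α : Stat ι} (h : β.IsCof α) {i : ι} (hi : α i = 0) : β i = 0 := by
  by_contra hb
  exact hb ((h i hb).symm.trans hi)

theorem Stat.IsCof.hits [Fintype ι] {β α : Stat ι} (h : β.IsCof α) :
    hits β = hits α + (β.cofJ α).card := by
  have := sh_hits_faceS α (β.cofJ α) fun j hj => (Stat.mem_cofJ.1 hj).2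
  rwa [h.faceS] at this

/-- the face of a coface in an entry of `cofJ` is a coface. -/
theorem Stat.IsCof.face [Fintype ι] {β α : Stat ι} (h : β.IsCof α) {i : ι} (hi : β i = 0) :
    β.IsCof (α.face i) := by
  classical
  intro k hk
  have hki : k ≠ i := fun e => hk (e ▸ hi)
  simp only [Stat.face, Function.update_of_ne hki]
  exact h k hk

/-- faces in other entries are not cofaces. -/
theorem Stat.not_isCof_face {β α : Stat ι} {i : ι} (hi : β i ≠ 0) : ¬ β.IsCof (α.face i) := by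
  classical
  intro h
  have := h i hi
  simp only [Stat.face, Function.update_self] at this
  exact hi this.symm

/-- a face of a non-coface is not a coface. -/
theorem Stat.not_isCof_face' {β α : Stat ι} (h : ¬ β.IsCof α) (i : ι) : ¬ β.IsCof (α.face i) := by
  classical
  intro h'
  refine h fun k hk => ?_
  have h1 := h' k hk
  have hki : k ≠ i := by
    intro e
    subst e
    simp only [Stat.face, Function.update_self] at h1
    exact hk h1.symm
  simpa only [Stat.face, Function.update_of_ne hki] using h1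

theorem Stat.face_self (α : Stat ι) (i : ι) : α.face i i = 0 := by
  classical
  simp [Stat.face]

theorem Stat.face_ne (α : Stat ι) {i k : ι} (h : k ≠ i) : α.face i k = α k := by
  classical
  simp [Stat.face, Function.update_of_ne h]

theorem Frame.isOpen_tailS (F : Frame V W ι) (α : Stat ι) (J : Finset ι) (T : ℝ) : IsOpen (F.tailS α J T) := by
  have h : F.tailS α J T = ⋂ j ∈ J, {z | T < (α j : ℝ) * F.t j z} := by
    ext z
    simp [Frame.tailS]
  rw [h]
  exact isOpen_biInter_finset fun j _ => isOpen_lt continuous_const (continuous_const.mul (F.t j).continuous)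

theorem Frame.isClosed_tailC (F : Frame V W ι) (α : Stat ι) (J : Finset ι) (T : ℝ) :
    IsClosed {z | ∀ j ∈ J, T ≤ (α j : ℝ) * F.t j z} := by
  have h : {z | ∀ j ∈ J, T ≤ (α j : ℝ) * F.t j z} = ⋂ j ∈ J, {z | T ≤ (α j : ℝ) * F.t j z} := by
    ext z
    simp
  rw [h]
  exact isClosed_biInter fun j _ => isClosed_le continuous_const (continuous_const.mul (F.t j).continuous)

/-- `dropS J` as a continuous linear map. -/
noncomputable def Frame.dropSL (F : Frame V W ι) (J : Finset ι) : W →L[ℝ] W :=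
  ContinuousLinearMap.id ℝ W - ∑ j ∈ J, (F.t j).smulRight (F.e j)

theorem Frame.dropSL_apply (F : Frame V W ι) (J : Finset ι) (z : W) : F.dropSL J z = F.dropS J z := by
  simp [Frame.dropSL, Frame.dropS]

theorem Frame.dropS_e (F : Frame V W ι) {J : Finset ι} {j : ι} (hj : j ∈ J) : F.dropS J (F.e j) = 0 := by
  classical
  unfold Frame.dropS
  rw [Finset.sum_eq_single j, F.t_e, one_smul, sub_self]
  · intro i _ hij
    rw [F.t_e_ne i j hij, zero_smul]
  · intro h
    exact absurd hj h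

theorem Frame.dropS_add_smul (F : Frame V W ι) {J : Finset ι} {j : ι} (hj : j ∈ J) (z : W) (s : ℝ) :
    F.dropS J (z + s • F.e j) = F.dropS J z := by
  rw [← F.dropSL_apply, map_add, map_smul, F.dropSL_apply, F.dropSL_apply, F.dropS_e hj, smul_zero, add_zero]

/-! ### uniform thresholds over compact subsets of `V` (from `Pk/Thr.lean`) -/

section unif

variable [Fintype ι] {n : ℕ} {M : Set V} {F : Frame V W ι} {E : Stat ι → Set W}

omit [Fintype ι] in
/-- iterated tails: membership. -/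
theorem DThr.dropS_iff {T : V → ℝ} (hT : DThr F E T) (S : Finset ι) : ∀ {α : Stat ι} {z : W},
    (∀ i ∈ S, α i ≠ 0 ∧ T (F.q z) < (α i : ℝ) * F.t i z) → (z ∈ E α ↔ F.dropS S z ∈ E (α.faceS S)) := by
  classical
  induction S using Finset.induction_on with
  | empty =>
    intro α z _
    rw [F.dropS_empty, Stat.faceS_empty]
  | insert i S hi ih =>
    intro α z hS
    obtain ⟨h1, h2⟩ := hS i (Finset.mem_insert_self i S)
    rw [F.dropS_insert hi, ← Stat.faceS_insert, hT i α h1 z h2]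
    refine ih fun j hj => ?_
    have hji : j ≠ i := fun h => hi (h ▸ hj)
    rw [F.q_drop, F.t_drop_ne hji, Stat.face_ne α hji]
    exact hS j (Finset.mem_insert_of_mem hj)

variable [FiniteDimensional ℝ V]

/-- one threshold for all iterated tails over a compact set. -/
theorem sh_unif_thr (hD : IsDiag n M F E) {K : Set V} (hK : IsCompact K) : ∃ R : ℝ, 0 ≤ R ∧
    ∀ (S : Finset ι) (α : Stat ι) (z : W), F.q z ∈ K → (∀ i ∈ S, α i ≠ 0 ∧ R < (α i : ℝ) * F.t i z) →
      (z ∈ E α ↔ F.dropS S z ∈ E (α.faceS S)) := by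
  obtain ⟨T, hTs, _, hT⟩ := hD.exists_thr
  obtain ⟨R, hR⟩ := (hK.image hTs.continuous).bddAbove
  exact ⟨max R 0, le_max_right _ _, fun S α z hq hS => hT.dropS_iff S fun i hi =>
    ⟨(hS i hi).1, lt_of_le_of_lt ((hR ⟨_, hq, rfl⟩).trans (le_max_left _ _)) (hS i hi).2⟩⟩

/-- one threshold of compatibility for all iterated tails over a compact set. -/
theorem sh_unif_compat (hD : IsDiag n M F E) {X : Type} {φ : W → X} (hφ : Compat F E φ) {K : Set V}
    (hK : IsCompact K) : ∃ R : ℝ, 0 ≤ R ∧ ∀ (S : Finset ι), ∀ z ∈ tot E, F.q z ∈ K →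
      (∀ i ∈ S, R < |F.t i z|) → φ (F.dropS S z) = φ z := by
  obtain ⟨T1, hT1s, hT10, hT1⟩ := hD.exists_thr
  obtain ⟨T2, hT2s, hT20, hT2⟩ := hφ.exists_thr
  obtain ⟨R, hR⟩ := (hK.image (hT1s.continuous.add hT2s.continuous)).bddAbove
  refine ⟨max R 0, le_max_right _ _, fun S z hz hq hS => ?_⟩
  refine Thr.dropS hD (T := fun x => T1 x + T2 x) (fun x => add_nonneg (hT10 x) (hT20 x))
    (hT1.mono fun x => le_add_of_nonneg_right (hT20 x)) (hT2.mono fun x => le_add_of_nonneg_left (hT10 x)) S hz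
    fun i hi => lt_of_le_of_lt ((hR ⟨_, hq, rfl⟩).trans (le_max_left _ _)) (hS i hi)

end unif

/-! ### thresholds -/

/-- `T` is a product threshold for `S0 ⊆ E β`. -/
structure ShThr [Fintype ι] (C : ShCtx V W ι) (β : Stat ι) (S0 : Set W) (T : ℝ) : Prop where
  nonneg : 0 ≤ T
  bdd : ∀ z ∈ S0, ∀ i, |C.F.t i z| ≤ T
  prod : ∃ U : Set V, IsOpen U ∧ C.F.q '' S0 ⊆ U ∧ ∀ α, β.IsCof α → ∀ z, C.F.q z ∈ U →
    z ∈ C.F.tailS α (β.cofJ α) T →
      (z ∈ C.P.E α ↔ C.F.dropS (β.cofJ α) z ∈ C.P.E β) ∧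
      (z ∈ C.P.E α → C.P.h z = C.P.h (C.F.dropS (β.cofJ α) z) ∧
        C.P.dr z = C.P.dr (C.F.dropS (β.cofJ α) z))

variable [FiniteDimensional ℝ V] [FiniteDimensional ℝ W] [Fintype ι] [MeasurableSpace W] [BorelSpace W]

omit [FiniteDimensional ℝ V] [FiniteDimensional ℝ W] [MeasurableSpace W] [BorelSpace W] in
theorem ShThr.mono {C : ShCtx V W ι} {β : Stat ι} {S0 : Set W} {T T' : ℝ} (h : ShThr C β S0 T) (hT : T ≤ T') :
    ShThr C β S0 T' := by
  obtain ⟨U, hU, hsub, hp⟩ := h.prod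
  exact ⟨h.nonneg.trans hT, fun z hz i => (h.bdd z hz i).trans hT,
    U, hU, hsub, fun α hα z hq hz => hp α hα z hq fun j hj => lt_of_le_of_lt hT (hz j hj)⟩

omit [FiniteDimensional ℝ V] [FiniteDimensional ℝ W] [MeasurableSpace W] [BorelSpace W] in
theorem ShThr.subset {C : ShCtx V W ι} {β : Stat ι} {S0 S1 : Set W} {T : ℝ} (h : ShThr C β S0 T) (hS : S1 ⊆ S0) :
    ShThr C β S1 T := by
  obtain ⟨U, hU, hsub, hp⟩ := h.prod
  exact ⟨h.nonneg, fun z hz i => h.bdd z (hS hz) i, U, hU, (Set.image_mono hS).trans hsub, hp⟩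

theorem sh_thr_exists (C : ShCtx V W ι) (hC : C.Ok) (β : Stat ι) {S0 : Set W} (hS0 : IsCompact S0)
    (hsub : S0 ⊆ C.P.E β) (T0 : ℝ) : ∃ T, T0 ≤ T ∧ ShThr C β S0 T := by
  classical
  have hD := hC.inv.diag
  have hK : IsCompact (Metric.cthickening 1 (C.F.q '' S0)) := (hS0.image C.F.q.continuous).cthickening
  obtain ⟨R1, hR10, hR1⟩ := sh_unif_thr hD hK
  obtain ⟨R2, hR20, hR2⟩ := sh_unif_compat hD hC.inv.met.compat hK
  obtain ⟨R3, hR30, hR3⟩ := sh_unif_compat hD hC.inv.dr_sc.2 hK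
  have hb : ∀ i, ∃ B : ℝ, ∀ z ∈ S0, |C.F.t i z| ≤ B := fun i => by
    obtain ⟨B, hB⟩ := (hS0.image (continuous_abs.comp (C.F.t i).continuous)).bddAbove
    exact ⟨B, fun z hz => hB ⟨z, hz, rfl⟩⟩
  choose B hB using hb
  obtain ⟨B', hB'⟩ := (Set.finite_range B).bddAbove
  set T := max (max T0 B') (max R1 (max R2 R3)) with hTdef
  have hT0 : T0 ≤ T := (le_max_left _ _).trans (le_max_left _ _)
  have hTB : B' ≤ T := (le_max_right _ _).trans (le_max_left _ _)
  have hT1 : R1 ≤ T := (le_max_left _ _).trans (le_max_right _ _)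
  have hT2 : R2 ≤ T := ((le_max_left _ _).trans (le_max_right _ _)).trans (le_max_right _ _)
  have hT3 : R3 ≤ T := ((le_max_right _ _).trans (le_max_right _ _)).trans (le_max_right _ _)
  refine ⟨T, hT0, hR10.trans hT1, fun z hz i => ((hB i z hz).trans (hB' ⟨i, rfl⟩)).trans hTB,
    Metric.thickening 1 (C.F.q '' S0), Metric.isOpen_thickening, Metric.self_subset_thickening one_pos _, ?_⟩
  intro α hα z hq hz
  have hqK : C.F.q z ∈ Metric.cthickening 1 (C.F.q '' S0) := Metric.thickening_subset_cthickening _ _ hq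
  have h1 := hR1 (β.cofJ α) α z hqK fun i hi => ⟨(Stat.mem_cofJ.1 hi).2, lt_of_le_of_lt hT1 (hz i hi)⟩
  rw [hα.faceS] at h1
  refine ⟨h1, fun hzE => ⟨(hR2 _ z (mem_tot.2 ⟨α, hzE⟩) hqK fun i hi => ?_).symm,
    (hR3 _ z (mem_tot.2 ⟨α, hzE⟩) hqK fun i hi => ?_).symm⟩⟩
  · rw [← hD.sign_mul hzE i]
    exact lt_of_le_of_lt hT2 (hz i hi)
  · rw [← hD.sign_mul hzE i]
    exact lt_of_le_of_lt hT3 (hz i hi)

/-- compatible data beyond a (larger) threshold. -/
theorem sh_thr_compat (C : ShCtx V W ι) (hC : C.Ok) (β : Stat ι) {S0 : Set W} (hS0 : IsCompact S0)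
    (hsub : S0 ⊆ C.P.E β) {X : Type} {φ : W → X} (hφ : Compat C.F C.P.E φ) :
    ∃ T, ∀ α, β.IsCof α → ∀ z ∈ C.P.E α, C.F.dropS (β.cofJ α) z ∈ S0 → z ∈ C.F.tailS α (β.cofJ α) T →
      φ z = φ (C.F.dropS (β.cofJ α) z) := by
  obtain ⟨R, _, hR⟩ := sh_unif_compat hC.inv.diag hφ (hS0.image C.F.q.continuous)
  refine ⟨R, fun α _ z hz hzS hzt => (hR _ z (mem_tot.2 ⟨α, hz⟩) ⟨_, hzS, C.F.q_dropS _ z⟩ fun i hi => ?_).symm⟩
  rw [← hC.inv.diag.sign_mul hz i]
  exact hzt i hi

/-- the metric of the tail is `h_β + ∑ dt_j²`. -/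
theorem sh_metric_split (C : ShCtx V W ι) (hC : C.Ok) (β : Stat ι) (J : Finset ι) (hJ : ∀ j ∈ J, β j = 0) {x : W}
    (hx : x ∈ C.P.E β) (v : W) :
    C.P.h x v v = C.P.h x (C.F.dropS J v) (C.F.dropS J v) + ∑ j ∈ J, C.F.t j v ^ 2 := by
  classical
  induction J using Finset.induction_on generalizing v with
  | empty => simp [Frame.dropS_empty]
  | insert i S hi ih =>
    have hn := hC.inv.met.normal β x hx i (hJ i (Finset.mem_insert_self i S))
    have h1 : C.P.h x v v = C.P.h x (C.F.drop i v) (C.F.drop i v) + C.F.t i v ^ 2 := by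
      conv_lhs => rw [C.F.self_eq_drop_add i v]
      simp only [map_add, map_smul, ContinuousLinearMap.add_apply, ContinuousLinearMap.smul_apply,
        smul_eq_mul, (hn _).1, (hn _).2, C.F.t_drop_self, C.F.t_e]
      ring
    rw [h1, ih (fun j hj => hJ j (Finset.mem_insert_of_mem hj)) (C.F.drop i v), C.F.dropS_insert hi,
      Finset.sum_insert hi, Finset.sum_congr rfl fun j hj => by
        rw [C.F.t_drop_ne (fun h => hi (h ▸ hj) : j ≠ i)]]
    ring

end Claimed.Agent.R315
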