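import Claimed.Agent.R315.Sh.Ctx
import Claimed.Agent.R315.Sh.Prof

/-!
# Row 315, package SH-FORCE: the state of the shielding process and ONE forcing update of one label (P Lemmas C.3, D.5: the bookkeeping part)

* `ShState C hh tt θ P1` : the invariant of the process (P Prop. D.6 (i), (iii) + anchor sign restrictions).
* `ShExt C P1 P2 U` : `P2` extends `P1` (cores grow), nothing changes over `V \ U`.
* `ShForce C j S u D K` : an abstract forcing triple for the label `j`: extended profile `u`, potential `D ≥ 0`, core `K`, all trivial off the relatively closed set `S`;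
  `2 slope(u) ≤ .58 u² + p_j^* + D`.
* `P.forceUp j u D K` : `μ_j := max (μ_j, u)`, `Π_j := Π_j + D`, `U_j^+ := U_j^+ ∪ K`;   `P.forceUn j u D K` : `μ_j := min (μ_j, -u)`, `Π_j := Π_j + D`, `U_j^- := U_j^- ∪ K`.

## PLAN of `sh_force_up` (P proof of C.3, last paragraph); `sh_force_un` is the mirror image (replace `μ` by `-μ`; `EReal.neg` is an order reversing homeomorphism)
All fields for labels `≠ j` are unchanged (`Function.update_of_ne`).  For the label `j`, with `μ' = max μ u`, `Π' = Π + D`, `U' = U⁺ ∪ K`: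
* `mu_cc`: `max` of continuous / compatible functions.   `pot_sc`: sum (`SmoothAlong` is chartwise `ContDiffOn.add`).   `pot_ge`: `D ≥ 0`.
* `slope`: `sh_slope_emax`; active old branch: old slope `(a μ² + Π)/2 ≤ (a μ'² + Π')/2` as `μ = μ'` at `z`; active new branch: `(.58 u² + p* + D)/2 ≤ (a u² + Π + D)/2`
  since `a = pkA s ≥ .60` (`hC.s0`) and `Π ≥ p*` (`pot_ge`).
* `up_open`, `up_compat`: unions.   `up_pole`: `closure ((U⁺ ∪ K) ∩ E α) = closure (U⁺ ∩ E α) ∪ closure (K ∩ E α)`; `max = ⊤` if one of the two is `⊤`.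
* `un_pole`: `z ∈ closure (U⁻ ∩ E α)` has `hh j z ≤ tt j` (`un_anchor`, continuity of `hh j` on the closed set `E α`), so `z ∉ S` (`hS`), so `u = ⊥` near `z` (`ShForce.off`) and `μ' = μ = ⊥` near `z`.
* `forced_up/un`: cores grow / are unchanged.   `up_anchor`: `K ∩ tot E ⊆ S ⊆ {hh > tt}` (`ShForce.off` at the point itself).   `passive`: the old finite set plus `j`.
* `budget`: hypothesis `hbud` + `sh_add_update`.
-/

set_option autoImplicit false
open scoped ContDiff ENNReal Topology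
open MeasureTheory Claims.C0499

namespace Claimed.Agent.R315

variable {V W : Type} [NormedAddCommGroup V] [NormedSpace ℝ V] [NormedAddCommGroup W] [NormedSpace ℝ W] {ι : Type}

/-- **the invariant of the shielding process.** -/
structure ShState [Fintype ι] [MeasurableSpace W] [BorelSpace W] (C : ShCtx V W ι) (hh : C.B.J → W → ℝ)
    (tt : C.B.J → ℝ) (θ : ℝ) (P1 : PData W ι C.B.J) : Prop where
  E_eq : P1.E = C.P.E
  h_eq : P1.h = C.P.h
  dr_eq : P1.dr = C.P.dr
  label : ∀ j ∈ C.R, LabelOk C.B C.F P1 C.a j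
  up_mono : ∀ j ∈ C.R, C.P.Up j ⊆ P1.Up j
  un_mono : ∀ j ∈ C.R, C.P.Un j ⊆ P1.Un j
  pot_mono : ∀ j ∈ C.R, ∀ z, C.P.pot j z ≤ P1.pot j z
  up_anchor : ∀ j ∈ C.R, ∀ z ∈ tot C.P.E, z ∈ P1.Up j → tt j < hh j z
  un_anchor : ∀ j ∈ C.R, ∀ z ∈ tot C.P.E, z ∈ P1.Un j → hh j z < tt j
  passive : ∀ K : Set V, IsCompact K →
    {j | j ∈ C.R ∧ ∃ z ∈ tot C.P.E, C.F.q z ∈ K ∧ ¬ P1.Passive C.B.pst C.c j z}.Finite
  budget : ∀ α, C.Bud α (fun z => 1.16 * C.add P1 z) θ C.e0 0

/-- `P2` extends `P1`, no change over `V \ U`. -/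
structure ShExt (C : ShCtx V W ι) (P1 P2 : PData W ι C.B.J) (U : Set V) : Prop where
  up : ∀ j, P1.Up j ⊆ P2.Up j
  un : ∀ j, P1.Un j ⊆ P2.Un j
  off : ∀ z, C.F.q z ∉ U → ∀ j, P2.mu j z = P1.mu j z ∧ P2.pot j z = P1.pot j z ∧
    (z ∈ P2.Up j ↔ z ∈ P1.Up j) ∧ (z ∈ P2.Un j ↔ z ∈ P1.Un j)

theorem ShExt.refl (C : ShCtx V W ι) (P1 : PData W ι C.B.J) (U : Set V) : ShExt C P1 P1 U :=
  ⟨fun _ => subset_rfl, fun _ => subset_rfl, fun _ _ _ => ⟨rfl, rfl, Iff.rfl, Iff.rfl⟩⟩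

theorem ShExt.trans {C : ShCtx V W ι} {P1 P2 P3 : PData W ι C.B.J} {U U' : Set V} (h1 : ShExt C P1 P2 U)
    (h2 : ShExt C P2 P3 U') : ShExt C P1 P3 (U ∪ U') := by
  refine ⟨fun j => (h1.up j).trans (h2.up j), fun j => (h1.un j).trans (h2.un j), fun z hz j => ?_⟩
  have hz1 : C.F.q z ∉ U := fun h => hz (Or.inl h)
  have hz2 : C.F.q z ∉ U' := fun h => hz (Or.inr h)
  obtain ⟨a1, a2, a3, a4⟩ := h1.off z hz1 j
  obtain ⟨b1, b2, b3, b4⟩ := h2.off z hz2 j
  exact ⟨b1.trans a1, b2.trans a2, b3.trans a3, b4.trans a4⟩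

theorem ShExt.mono {C : ShCtx V W ι} {P1 P2 : PData W ι C.B.J} {U U' : Set V} (h : ShExt C P1 P2 U) (hU : U ⊆ U') :
    ShExt C P1 P2 U' :=
  ⟨h.up, h.un, fun z hz j => h.off z (fun hz' => hz (hU hz')) j⟩

/-- undecided labels only disappear. -/
theorem ShExt.cnt {C : ShCtx V W ι} {P1 P2 : PData W ι C.B.J} {U : Set V} (h : ShExt C P1 P2 U) {k : ℕ} {z : W}
    (hc : P2.Cnt C.R k z) : P1.Cnt C.R k z := by
  obtain ⟨s, hs, hk⟩ := hc
  exact ⟨s, fun j hj => ⟨(hs j hj).1, fun h1 => (hs j hj).2.1 (h.up j h1), fun h1 => (hs j hj).2.2 (h.un j h1)⟩, hk⟩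

theorem ShDone.ext [Fintype ι] {C : ShCtx V W ι} {P1 P2 : PData W ι C.B.J} {U : Set V} (h : ShExt C P1 P2 U)
    {α : Stat ι} {K : Set V} (hd : ShDone C P1 α K) : ShDone C P2 α K :=
  fun z hz hq hc => hd z hz hq (h.cnt hc)

/-- **abstract forcing triple** for the label `j`. -/
structure ShForce [Fintype ι] (C : ShCtx V W ι) (j : C.B.J) (S : Set W) (u : W → EReal) (D : W → ℝ) (K : Set W) :
    Prop where
  u_cc : CC C.F C.P.E u
  slope : ∀ α, ∀ z ∈ C.P.E α, u z ≠ ⊤ → u z ≠ ⊥ →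
    SlopeLE (C.P.E α) C.P.h (fun y => (u y).toReal) z ((0.58 * (u z).toReal ^ 2 + C.B.pst j + D z) / 2)
  D_sc : SC C.B.n C.F C.P.E D
  D_nonneg : ∀ z, 0 ≤ D z
  K_open : RelOpen C.P.E K
  K_compat : Compat C.F C.P.E (fun z => z ∈ K)
  K_pole : ∀ α, ∀ z ∈ C.P.E α, z ∈ closure (K ∩ C.P.E α) → ∃ N ∈ 𝓝 z, ∀ y ∈ N ∩ C.P.E α, u y = ⊤
  /-- everything is trivial near the points off `S` -/
  off : ∀ α, ∀ z ∈ C.P.E α, z ∉ S → ∃ N ∈ 𝓝 z, ∀ y ∈ N ∩ C.P.E α, u y = ⊥ ∧ D y = 0 ∧ y ∉ K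

open Classical in
/-- plus update of the label `j`. -/
noncomputable def PData.forceUp {I : Type} (P : PData W ι I) (j : I) (u : W → EReal) (D : W → ℝ) (K : Set W) :
    PData W ι I :=
  { P with
    mu := Function.update P.mu j (fun z => max (P.mu j z) (u z))
    pot := Function.update P.pot j (fun z => P.pot j z + D z)
    Up := Function.update P.Up j (P.Up j ∪ K) }

open Classical in
/-- minus update of the label `j`. -/
noncomputable def PData.forceUn {I : Type} (P : PData W ι I) (j : I) (u : W → EReal) (D : W → ℝ) (K : Set W) :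
    PData W ι I :=
  { P with
    mu := Function.update P.mu j (fun z => min (P.mu j z) (-u z))
    pot := Function.update P.pot j (fun z => P.pot j z + D z)
    Un := Function.update P.Un j (P.Un j ∪ K) }

variable [FiniteDimensional ℝ V] [FiniteDimensional ℝ W] [Fintype ι] [MeasurableSpace W] [BorelSpace W]
  {C : ShCtx V W ι} {hh : C.B.J → W → ℝ} {tt : C.B.J → ℝ}

/-- the initial state. -/
theorem sh_state_init (hC : C.Ok) (hA : ShAnchor C hh tt) : ShState C hh tt 0.78 C.P := by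
  have hR : ∀ j ∈ C.R, j ∈ C.rem := fun j hj => hj.1
  refine ⟨rfl, rfl, rfl, fun j hj => hC.inv.label j (hR j hj), fun _ _ => subset_rfl, fun _ _ => subset_rfl,
    fun _ _ _ => le_rfl, ?_, ?_, ?_, ?_⟩
  · intro j hj z hz hzU
    obtain ⟨α, hα⟩ := Set.mem_iUnion.1 hz
    obtain ⟨N, hN, hN'⟩ := (hC.inv.label j (hR j hj)).up_pole α z hα (subset_closure ⟨hzU, hα⟩)
    exact hA.top j hj z hz (hN' z ⟨mem_of_mem_nhds hN, hα⟩)
  · intro j hj z hz hzU
    obtain ⟨α, hα⟩ := Set.mem_iUnion.1 hz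
    obtain ⟨N, hN, hN'⟩ := (hC.inv.label j (hR j hj)).un_pole α z hα (subset_closure ⟨hzU, hα⟩)
    exact hA.bot j hj z hz (hN' z ⟨mem_of_mem_nhds hN, hα⟩)
  · intro K hK
    exact (hC.inv.passive K hK).subset (fun j hj => ⟨hR j hj.1, hj.2⟩)
  · intro α
    refine C.bud_zero α (fun z => ?_) _ _ _
    have h0 : C.add C.P z = 0 := by simp [ShCtx.add]
    rw [h0, mul_zero]

/-- the bound of the budget may be increased. -/
theorem ShState.mono {θ θ' : ℝ} {P1 : PData W ι C.B.J} (hC : C.Ok) (hS : ShState C hh tt θ P1) (hθ : θ ≤ θ') :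
    ShState C hh tt θ' P1 :=
  { hS with budget := fun α => (hS.budget α).mono hC (fun _ _ => le_rfl) hθ }

/-- a finished state is the output. -/
theorem ShState.shieldOK {θ : ℝ} {P1 : PData W ι C.B.J} (hC : C.Ok) (hS : ShState C hh tt θ P1) (hθ : θ ≤ 0.88)
    (hd : ∀ α, ShDone C P1 α Set.univ) : ShieldOK C P1 :=
  ⟨hS.E_eq, hS.h_eq, hS.dr_eq, hS.label, hS.up_mono, hS.un_mono, hS.pot_mono, hS.passive, hd,
    fun α => (hS.budget α).mono hC (fun _ _ => le_rfl) hθ⟩

/-- over a compact set only finitely many potentials have been changed. -/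
theorem ShState.add_fin {θ : ℝ} {P1 : PData W ι C.B.J} (hC : C.Ok) (hS : ShState C hh tt θ P1) {K : Set V}
    (hK : IsCompact K) : {j | j ∈ C.R ∧ ∃ z ∈ tot C.P.E, C.F.q z ∈ K ∧ P1.pot j z ≠ C.P.pot j z}.Finite := by
  refine ((hS.passive K hK).union (hC.inv.passive K hK)).subset ?_
  rintro j ⟨hj, z, hz, hq, hne⟩
  by_cases h1 : P1.Passive C.B.pst C.c j z
  · right
    refine ⟨hj.1, z, hz, hq, fun h0 => hne ?_⟩
    rw [h1.2.2.2, h0.2.2.2]
  · left
    exact ⟨hj, z, hz, hq, h1⟩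

/-- over a compact set the cumulative addition is a finite sum. -/
theorem ShState.add_eq_sum {θ : ℝ} {P1 : PData W ι C.B.J} (hC : C.Ok) (hS : ShState C hh tt θ P1) {K : Set V}
    (hK : IsCompact K) : ∃ s : Finset C.B.J, (∀ j ∈ s, j ∈ C.R) ∧ ∀ z ∈ tot C.P.E, C.F.q z ∈ K →
      C.add P1 z = ∑ j ∈ s, (P1.pot j z - C.P.pot j z) := by
  classical
  have hfin := hS.add_fin hC hK
  refine ⟨hfin.toFinset, fun j hj => ((hfin.mem_toFinset).1 hj).1, fun z hz hq => ?_⟩
  unfold ShCtx.add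
  rw [tsum_eq_sum (s := hfin.toFinset)]
  · exact Finset.sum_congr rfl fun j hj => Set.indicator_of_mem ((hfin.mem_toFinset).1 hj).1 _
  · intro j hj
    by_cases hjR : j ∈ C.R
    · rw [Set.indicator_of_mem hjR]
      by_contra hne
      exact hj ((hfin.mem_toFinset).2 ⟨hjR, z, hz, hq, fun h => hne (by rw [h, sub_self])⟩)
    · exact Set.indicator_of_notMem hjR _

/-- the potentials of a state are continuous and compatible. -/
theorem ShState.pot_cc {θ : ℝ} {P1 : PData W ι C.B.J} (hC : C.Ok) (hS : ShState C hh tt θ P1) {j : C.B.J}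
    (hj : j ∈ C.R) : CC C.F C.P.E (P1.pot j) := by
  have h := (hS.label j hj).pot_sc
  rw [hS.E_eq] at h
  exact ⟨fun α => if_smoothAlong_continuousOn (hC.inv.diag.mfd α) (h.1 α), h.2⟩

/-- the cumulative addition is continuous on the status spaces, nonnegative, and bounded over compact sets. -/
theorem ShState.add_cont {θ : ℝ} {P1 : PData W ι C.B.J} (hC : C.Ok) (hS : ShState C hh tt θ P1) (α : Stat ι) :
    ContinuousOn (C.add P1) (C.P.E α) := by
  intro z hz
  obtain ⟨s, hs, hsum⟩ := hS.add_eq_sum hC (isCompact_closedBall (C.F.q z) 1)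
  have h0 := sh_state_init hC (hh := hh) (tt := tt)
  have hc : ContinuousOn (fun y => ∑ j ∈ s, (P1.pot j y - C.P.pot j y)) (C.P.E α) := by
    refine continuousOn_finset_sum _ fun j hj => ?_
    have h1 := (hS.pot_cc hC (hs j hj)).1 α
    have h2 : ContinuousOn (C.P.pot j) (C.P.E α) :=
      if_smoothAlong_continuousOn (hC.inv.diag.mfd α) ((hC.inv.label j (hs j hj).1).pot_sc.1 α)
    exact h1.sub h2
  have hN : C.F.q ⁻¹' Metric.closedBall (C.F.q z) 1 ∈ 𝓝 z :=
    C.F.q.continuous.continuousAt.preimage_mem_nhds (Metric.closedBall_mem_nhds _ one_pos)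
  refine (hc z hz).congr_of_eventuallyEq ?_ (hsum z (Set.mem_iUnion.2 ⟨α, hz⟩) (Metric.mem_closedBall_self zero_le_one))
  filter_upwards [mem_nhdsWithin_of_mem_nhds hN, self_mem_nhdsWithin] with y hy hyE
  exact hsum y (Set.mem_iUnion.2 ⟨α, hyE⟩) hy

theorem ShState.add_nonneg {θ : ℝ} {P1 : PData W ι C.B.J} (hS : ShState C hh tt θ P1) (z : W) : 0 ≤ C.add P1 z :=
  tsum_nonneg fun j => Set.indicator_nonneg (fun j hj => sub_nonneg.2 (hS.pot_mono j hj z)) j

theorem ShState.add_bdd {θ : ℝ} {P1 : PData W ι C.B.J} (hC : C.Ok) (hS : ShState C hh tt θ P1) {K : Set V}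
    (hK : IsCompact K) : ∃ Vmax : ℝ, 0 ≤ Vmax ∧ ∀ z ∈ tot C.P.E, C.F.q z ∈ K → 1.16 * C.add P1 z ≤ Vmax := by
  obtain ⟨s, hs, hsum⟩ := hS.add_eq_sum hC hK
  have hb : ∀ j, ∃ Cj : ℝ, j ∈ C.R → ∀ z ∈ tot C.P.E, C.F.q z ∈ K → |P1.pot j z - C.P.pot j z| ≤ Cj := by
    intro j
    by_cases hj : j ∈ C.R
    · obtain ⟨C1, h1⟩ := (hS.pot_cc hC hj).bounded hC.inv.diag hK
      have h0 : CC C.F C.P.E (C.P.pot j) :=
        ⟨fun α => if_smoothAlong_continuousOn (hC.inv.diag.mfd α) ((hC.inv.label j hj.1).pot_sc.1 α),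
          (hC.inv.label j hj.1).pot_sc.2⟩
      obtain ⟨C0, h0'⟩ := h0.bounded hC.inv.diag hK
      refine ⟨C1 + C0, fun _ z hz hq => ?_⟩
      calc |P1.pot j z - C.P.pot j z| ≤ |P1.pot j z| + |C.P.pot j z| := abs_sub _ _
        _ ≤ C1 + C0 := add_le_add (h1 z hz hq) (h0' z hz hq)
    · exact ⟨0, fun h => absurd h hj⟩
  choose Cb hCb using hb
  refine ⟨1.16 * ∑ j ∈ s, |Cb j|, mul_nonneg (by norm_num) (Finset.sum_nonneg fun _ _ => abs_nonneg _),
    fun z hz hq => ?_⟩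
  rw [hsum z hz hq]
  refine mul_le_mul_of_nonneg_left (Finset.sum_le_sum fun j hj => ?_) (by norm_num)
  exact (le_abs_self _).trans ((hCb j (hs j hj) z hz hq).trans (le_abs_self _))

/-- the cumulative addition after an update of one label. -/
theorem sh_add_update {θ : ℝ} {P1 P2 : PData W ι C.B.J} (hC : C.Ok) (hS : ShState C hh tt θ P1) {j : C.B.J}
    (hj : j ∈ C.R) {D : W → ℝ} (h1 : ∀ z, P2.pot j z = P1.pot j z + D z) (h2 : ∀ k, k ≠ j → P2.pot k = P1.pot k)
    {z : W} (hz : z ∈ tot C.P.E) : C.add P2 z = C.add P1 z + D z := by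
  classical
  have hsum : Summable (fun k => C.R.indicator (fun k => P1.pot k z - C.P.pot k z) k) := by
    refine summable_of_finite_support ((hS.add_fin hC (isCompact_singleton (x := C.F.q z))).subset ?_)
    intro k hk
    rw [Function.mem_support] at hk
    have hkR : k ∈ C.R := by
      by_contra h
      exact hk (Set.indicator_of_notMem h _)
    rw [Set.indicator_of_mem hkR] at hk
    exact ⟨hkR, z, hz, rfl, fun h => hk (by rw [h, sub_self])⟩
  have h3 : (fun k => C.R.indicator (fun k => P2.pot k z - C.P.pot k z) k) =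
      fun k => C.R.indicator (fun k => P1.pot k z - C.P.pot k z) k + (if k = j then D z else 0) := by
    funext k
    by_cases hk : k = j
    · subst hk
      rw [if_pos rfl, Set.indicator_of_mem hj, Set.indicator_of_mem hj, h1]
      ring
    · rw [if_neg hk, add_zero]
      by_cases hkR : k ∈ C.R
      · rw [Set.indicator_of_mem hkR, Set.indicator_of_mem hkR, h2 k hk]
      · rw [Set.indicator_of_notMem hkR, Set.indicator_of_notMem hkR]
  unfold ShCtx.add
  rw [h3, hsum.tsum_add (hasSum_ite_eq j (D z)).summable, tsum_ite_eq]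

/-! ### the updates -/

omit [FiniteDimensional ℝ V] [FiniteDimensional ℝ W] [Fintype ι] [MeasurableSpace W] [BorelSpace W] in
/-- compatible data may be combined pointwise. -/
theorem sh_compat_map2 {X Y Z : Type} {F : Frame V W ι} {E : Stat ι → Set W} {φ : W → X} {ψ : W → Y}
    (hφ : Compat F E φ) (hψ : Compat F E ψ) (f : X → Y → Z) : Compat F E (fun z => f (φ z) (ψ z)) := by
  intro i K hK
  obtain ⟨R1, h1⟩ := hφ i K hK
  obtain ⟨R2, h2⟩ := hψ i K hK
  refine ⟨max R1 R2, fun z hz hq hlt => ?_⟩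
  show f (φ _) (ψ _) = _
  rw [h1 z hz hq (lt_of_le_of_lt (le_max_left _ _) hlt), h2 z hz hq (lt_of_le_of_lt (le_max_right _ _) hlt)]

omit [FiniteDimensional ℝ V] [FiniteDimensional ℝ W] [MeasurableSpace W] [BorelSpace W] in
/-- `LabelOk` only depends on the entries of the label. -/
theorem LabelOk.congr {B : Base V} {F : Frame V W ι} {P P' : PData W ι B.J} {a : ℝ} {j : B.J}
    (h : LabelOk B F P a j) (hE : P'.E = P.E) (hh : P'.h = P.h) (hmu : P'.mu j = P.mu j)
    (hpot : P'.pot j = P.pot j) (hUp : P'.Up j = P.Up j) (hUn : P'.Un j = P.Un j) : LabelOk B F P' a j := by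
  constructor
  · rw [hE, hmu]; exact h.mu_cc
  · rw [hE, hh, hmu, hpot]; exact h.slope
  · rw [hE, hpot]; exact h.pot_sc
  · rw [hE, hpot]; exact h.pot_ge
  · rw [hE, hUp]; exact h.up_open
  · rw [hE, hUn]; exact h.un_open
  · rw [hE, hUp]; exact h.up_compat
  · rw [hE, hUn]; exact h.un_compat
  · rw [hE, hUp, hmu]; exact h.up_pole
  · rw [hE, hUn, hmu]; exact h.un_pole
  · rw [hE, hUp]; exact h.forced_up
  · rw [hE, hUn]; exact h.forced_un

section upd

variable {I : Type} (P : PData W ι I) (j : I) (u : W → EReal) (D : W → ℝ) (K : Set W)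

theorem PData.forceUp_mu_self : (P.forceUp j u D K).mu j = fun z => max (P.mu j z) (u z) := by
  simp [PData.forceUp]

theorem PData.forceUp_pot_self : (P.forceUp j u D K).pot j = fun z => P.pot j z + D z := by
  simp [PData.forceUp]

theorem PData.forceUp_Up_self : (P.forceUp j u D K).Up j = P.Up j ∪ K := by
  simp [PData.forceUp]

theorem PData.forceUn_mu_self : (P.forceUn j u D K).mu j = fun z => min (P.mu j z) (-u z) := by
  simp [PData.forceUn]

theorem PData.forceUn_pot_self : (P.forceUn j u D K).pot j = fun z => P.pot j z + D z := by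
  simp [PData.forceUn]

theorem PData.forceUn_Un_self : (P.forceUn j u D K).Un j = P.Un j ∪ K := by
  simp [PData.forceUn]

variable {j} {k : I}

theorem PData.forceUp_mu_ne (hk : k ≠ j) : (P.forceUp j u D K).mu k = P.mu k := by
  simp [PData.forceUp, hk]

theorem PData.forceUp_pot_ne (hk : k ≠ j) : (P.forceUp j u D K).pot k = P.pot k := by
  simp [PData.forceUp, hk]

theorem PData.forceUp_Up_ne (hk : k ≠ j) : (P.forceUp j u D K).Up k = P.Up k := by
  simp [PData.forceUp, hk]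

theorem PData.forceUn_mu_ne (hk : k ≠ j) : (P.forceUn j u D K).mu k = P.mu k := by
  simp [PData.forceUn, hk]

theorem PData.forceUn_pot_ne (hk : k ≠ j) : (P.forceUn j u D K).pot k = P.pot k := by
  simp [PData.forceUn, hk]

theorem PData.forceUn_Un_ne (hk : k ≠ j) : (P.forceUn j u D K).Un k = P.Un k := by
  simp [PData.forceUn, hk]

variable (j k)

theorem PData.forceUp_Up_subset : P.Up k ⊆ (P.forceUp j u D K).Up k := by
  by_cases hk : k = j
  · subst hk
    rw [P.forceUp_Up_self]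
    exact Set.subset_union_left
  · rw [P.forceUp_Up_ne u D K hk]

theorem PData.forceUn_Un_subset : P.Un k ⊆ (P.forceUn j u D K).Un k := by
  by_cases hk : k = j
  · subst hk
    rw [P.forceUn_Un_self]
    exact Set.subset_union_left
  · rw [P.forceUn_Un_ne u D K hk]

end upd

theorem ShCtx.Ok.a_ge (hC : C.Ok) : 0.58 ≤ C.a := by
  have := hC.s0
  unfold ShCtx.a pkA
  linarith

/-- the core of a forcing triple lies in `S`. -/
theorem ShForce.K_sub {j : C.B.J} {S : Set W} {u : W → EReal} {D : W → ℝ} {K : Set W} (hF : ShForce C j S u D K)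
    {z : W} (hz : z ∈ tot C.P.E) (hzK : z ∈ K) : z ∈ S := by
  by_contra hzS
  obtain ⟨α, hα⟩ := Set.mem_iUnion.1 hz
  obtain ⟨N, hN, hN'⟩ := hF.off α z hα hzS
  exact (hN' z ⟨mem_of_mem_nhds hN, hα⟩).2.2 hzK

/-- the updated label, plus update. -/
theorem sh_label_up (hC : C.Ok) (hA : ShAnchor C hh tt) {P1 : PData W ι C.B.J} (hE : P1.E = C.P.E)
    (hh' : P1.h = C.P.h) {j : C.B.J} (hj : j ∈ C.R) (L : LabelOk C.B C.F P1 C.a j)
    (hun : ∀ z ∈ tot C.P.E, z ∈ P1.Un j → hh j z < tt j) {S : Set W} {u : W → EReal} {D : W → ℝ} {K : Set W}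
    (hF : ShForce C j S u D K) (hSa : ∀ z ∈ S, tt j < hh j z) :
    LabelOk C.B C.F (P1.forceUp j u D K) C.a j := by
  have ha := hC.a_ge
  refine LabelOk.congr (P := ⟨C.P.E, C.P.h, P1.dr, fun _ z => max (P1.mu j z) (u z), fun _ z => P1.pot j z + D z,
    fun _ => P1.Up j ∪ K, fun _ => P1.Un j⟩) ?_ hE hh' (P1.forceUp_mu_self j u D K) (P1.forceUp_pot_self j u D K)
    (P1.forceUp_Up_self j u D K) rfl
  obtain ⟨Lcc, Lsl, Lsc, Lge, Lupo, Luno, Lupc, Lunc, Lupp, Lunp, Lfu, Lfn⟩ := L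
  rw [hE] at Lcc Lsc Lge Lupo Luno Lupc Lunc Lupp Lunp Lfu Lfn
  rw [hE, hh'] at Lsl
  constructor
  · exact ⟨fun α => ContinuousOn.sup (Lcc.1 α) (hF.u_cc.1 α), sh_compat_map2 Lcc.2 hF.u_cc.2 max⟩
  · intro α z hz h1 h2
    dsimp only at hz h1 h2 ⊢
    have hD := hF.D_nonneg z
    refine sh_slope_emax hz (Lcc.1 α z hz) (hF.u_cc.1 α z hz) h1 h2 (fun e => ?_) (fun e => ?_)
    · rw [← e] at h1 h2 ⊢
      exact sh_slope_mono (Lsl α z hz h1 h2) (by linarith)
    · rw [← e] at h1 h2 ⊢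
      refine sh_slope_mono (hF.slope α z hz h1 h2) ?_
      have := Lge z (Set.mem_iUnion.2 ⟨α, hz⟩)
      nlinarith [sq_nonneg (u z).toReal]
  · exact ⟨fun α ψ U hψ => ((Lsc.1 α) ψ U hψ).add ((hF.D_sc.1 α) ψ U hψ),
      sh_compat_map2 Lsc.2 hF.D_sc.2 (· + ·)⟩
  · intro z hz
    have := Lge z hz
    have := hF.D_nonneg z
    dsimp only
    linarith
  · rintro α z ⟨hzU | hzK, hz⟩
    · obtain ⟨N, hN, hsub⟩ := Lupo α z ⟨hzU, hz⟩
      exact ⟨N, hN, fun y hy => Or.inl (hsub hy)⟩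
    · obtain ⟨N, hN, hsub⟩ := hF.K_open α z ⟨hzK, hz⟩
      exact ⟨N, hN, fun y hy => Or.inr (hsub hy)⟩
  · exact Luno
  · exact sh_compat_map2 Lupc hF.K_compat Or
  · exact Lunc
  · intro α z hz hcl
    dsimp only at hz hcl ⊢
    rw [Set.union_inter_distrib_right, closure_union] at hcl
    rcases hcl with h | h
    · obtain ⟨N, hN, hN'⟩ := Lupp α z hz h
      exact ⟨N, hN, fun y hy => by rw [hN' y hy]; exact max_top_left _⟩
    · obtain ⟨N, hN, hN'⟩ := hF.K_pole α z hz h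
      exact ⟨N, hN, fun y hy => by rw [hN' y hy]; exact max_top_right _⟩
  · intro α z hz hcl
    dsimp only at hz hcl ⊢
    obtain ⟨N1, hN1, hN1'⟩ := Lunp α z hz hcl
    have hcls : IsClosed (C.P.E α ∩ hh j ⁻¹' Set.Iic (tt j)) :=
      ((hA.cc j hj).1 α).preimage_isClosed_of_isClosed (hC.inv.diag.closed α) isClosed_Iic
    have hsub : P1.Un j ∩ C.P.E α ⊆ C.P.E α ∩ hh j ⁻¹' Set.Iic (tt j) :=
      fun y hy => ⟨hy.2, (hun y (Set.mem_iUnion.2 ⟨α, hy.2⟩) hy.1).le⟩
    have hzle : hh j z ≤ tt j := (closure_minimal hsub hcls hcl).2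
    have hzS : z ∉ S := fun h => absurd (hSa z h) (not_lt.2 hzle)
    obtain ⟨N2, hN2, hN2'⟩ := hF.off α z hz hzS
    refine ⟨N1 ∩ N2, Filter.inter_mem hN1 hN2, fun y hy => ?_⟩
    rw [hN1' y ⟨hy.1.1, hy.2⟩, (hN2' y ⟨hy.1.2, hy.2⟩).1]
    exact max_self _
  · exact fun z hz hq => Or.inl (Lfu z hz hq)
  · exact Lfn

/-- the updated label, minus update. -/
theorem sh_label_un (hC : C.Ok) (hA : ShAnchor C hh tt) {P1 : PData W ι C.B.J} (hE : P1.E = C.P.E)
    (hh' : P1.h = C.P.h) {j : C.B.J} (hj : j ∈ C.R) (L : LabelOk C.B C.F P1 C.a j)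
    (hup : ∀ z ∈ tot C.P.E, z ∈ P1.Up j → tt j < hh j z) {S : Set W} {u : W → EReal} {D : W → ℝ} {K : Set W}
    (hF : ShForce C j S u D K) (hSa : ∀ z ∈ S, hh j z < tt j) :
    LabelOk C.B C.F (P1.forceUn j u D K) C.a j := by
  have ha := hC.a_ge
  refine LabelOk.congr (P := ⟨C.P.E, C.P.h, P1.dr, fun _ z => min (P1.mu j z) (-u z), fun _ z => P1.pot j z + D z,
    fun _ => P1.Up j, fun _ => P1.Un j ∪ K⟩) ?_ hE hh' (P1.forceUn_mu_self j u D K) (P1.forceUn_pot_self j u D K)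
    rfl (P1.forceUn_Un_self j u D K)
  obtain ⟨Lcc, Lsl, Lsc, Lge, Lupo, Luno, Lupc, Lunc, Lupp, Lunp, Lfu, Lfn⟩ := L
  rw [hE] at Lcc Lsc Lge Lupo Luno Lupc Lunc Lupp Lunp Lfu Lfn
  rw [hE, hh'] at Lsl
  have hnc : ∀ α, ContinuousOn (fun z => -u z) (C.P.E α) := fun α =>
    continuous_neg.comp_continuousOn (hF.u_cc.1 α)
  constructor
  · exact ⟨fun α => ContinuousOn.inf (Lcc.1 α) (hnc α), sh_compat_map2 Lcc.2 hF.u_cc.2 (fun a b => min a (-b))⟩
  · intro α z hz h1 h2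
    dsimp only at hz h1 h2 ⊢
    have hD := hF.D_nonneg z
    refine sh_slope_emin hz (Lcc.1 α z hz) (hnc α z hz) h1 h2 (fun e => ?_) (fun e => ?_)
    · rw [← e] at h1 h2 ⊢
      exact sh_slope_mono (Lsl α z hz h1 h2) (by linarith)
    · rw [← e] at h1 h2 ⊢
      have h1' : u z ≠ ⊥ := fun h => h1 (by rw [h]; rfl)
      have h2' : u z ≠ ⊤ := fun h => h2 (by rw [h]; rfl)
      have h3 := sh_slope_neg (hF.slope α z hz h2' h1')
      have h4 : (fun y => -(u y).toReal) = fun y => (-u y).toReal := by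
        funext y
        rw [EReal.toReal_neg_eq]
      rw [h4] at h3
      refine sh_slope_mono h3 ?_
      have := Lge z (Set.mem_iUnion.2 ⟨α, hz⟩)
      rw [EReal.toReal_neg_eq]
      nlinarith [sq_nonneg (u z).toReal]
  · exact ⟨fun α ψ U hψ => ((Lsc.1 α) ψ U hψ).add ((hF.D_sc.1 α) ψ U hψ),
      sh_compat_map2 Lsc.2 hF.D_sc.2 (· + ·)⟩
  · intro z hz
    have := Lge z hz
    have := hF.D_nonneg z
    dsimp only
    linarith
  · exact Lupo
  · rintro α z ⟨hzU | hzK, hz⟩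
    · obtain ⟨N, hN, hsub⟩ := Luno α z ⟨hzU, hz⟩
      exact ⟨N, hN, fun y hy => Or.inl (hsub hy)⟩
    · obtain ⟨N, hN, hsub⟩ := hF.K_open α z ⟨hzK, hz⟩
      exact ⟨N, hN, fun y hy => Or.inr (hsub hy)⟩
  · exact Lupc
  · exact sh_compat_map2 Lunc hF.K_compat Or
  · intro α z hz hcl
    dsimp only at hz hcl ⊢
    obtain ⟨N1, hN1, hN1'⟩ := Lupp α z hz hcl
    have hcls : IsClosed (C.P.E α ∩ hh j ⁻¹' Set.Ici (tt j)) :=
      ((hA.cc j hj).1 α).preimage_isClosed_of_isClosed (hC.inv.diag.closed α) isClosed_Ici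
    have hsub : P1.Up j ∩ C.P.E α ⊆ C.P.E α ∩ hh j ⁻¹' Set.Ici (tt j) :=
      fun y hy => ⟨hy.2, (hup y (Set.mem_iUnion.2 ⟨α, hy.2⟩) hy.1).le⟩
    have hzle : tt j ≤ hh j z := (closure_minimal hsub hcls hcl).2
    have hzS : z ∉ S := fun h => absurd (hSa z h) (not_lt.2 hzle)
    obtain ⟨N2, hN2, hN2'⟩ := hF.off α z hz hzS
    refine ⟨N1 ∩ N2, Filter.inter_mem hN1 hN2, fun y hy => ?_⟩
    rw [hN1' y ⟨hy.1.1, hy.2⟩, (hN2' y ⟨hy.1.2, hy.2⟩).1]
    rfl
  · intro α z hz hcl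
    dsimp only at hz hcl ⊢
    rw [Set.union_inter_distrib_right, closure_union] at hcl
    rcases hcl with h | h
    · obtain ⟨N, hN, hN'⟩ := Lunp α z hz h
      exact ⟨N, hN, fun y hy => by rw [hN' y hy]; exact min_bot_left _⟩
    · obtain ⟨N, hN, hN'⟩ := hF.K_pole α z hz h
      exact ⟨N, hN, fun y hy => by rw [hN' y hy]; exact min_bot_right _⟩
  · exact Lfu
  · exact fun z hz hq => Or.inl (Lfn z hz hq)

/-- **plus update.** -/
theorem sh_force_up {θ θ' : ℝ} {P1 : PData W ι C.B.J} (hC : C.Ok) (hA : ShAnchor C hh tt)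
    (hS : ShState C hh tt θ P1) {j : C.B.J} (hj : j ∈ C.R) {S : Set W} {u : W → EReal} {D : W → ℝ} {K : Set W}
    (hF : ShForce C j S u D K) (hSa : ∀ z ∈ S, tt j < hh j z)
    (hbud : ∀ α, C.Bud α (fun z => 1.16 * C.add P1 z + 1.16 * D z) θ' C.e0 0) :
    ShState C hh tt θ' (P1.forceUp j u D K) := by
  refine ⟨hS.E_eq, hS.h_eq, hS.dr_eq, ?_, ?_, hS.un_mono, ?_, ?_, hS.un_anchor, ?_, ?_⟩
  · intro k hk
    by_cases hkj : j = k
    · subst hkj
      exact sh_label_up hC hA hS.E_eq hS.h_eq hk (hS.label j hk) (hS.un_anchor j hk) hF hSa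
    · have hkj' : k ≠ j := fun h => hkj h.symm
      exact (hS.label k hk).congr rfl rfl (P1.forceUp_mu_ne u D K hkj') (P1.forceUp_pot_ne u D K hkj')
        (P1.forceUp_Up_ne u D K hkj') rfl
  · intro k hk
    exact (hS.up_mono k hk).trans (P1.forceUp_Up_subset j u D K k)
  · intro k hk z
    refine (hS.pot_mono k hk z).trans ?_
    by_cases hkj : j = k
    · subst hkj
      rw [P1.forceUp_pot_self]
      have := hF.D_nonneg z
      dsimp only
      linarith
    · rw [P1.forceUp_pot_ne u D K (fun h => hkj h.symm)]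
  · intro k hk z hz hzU
    by_cases hkj : j = k
    · subst hkj
      rw [P1.forceUp_Up_self] at hzU
      rcases hzU with h | h
      · exact hS.up_anchor j hk z hz h
      · exact hSa z (hF.K_sub hz h)
    · rw [P1.forceUp_Up_ne u D K (fun h => hkj h.symm)] at hzU
      exact hS.up_anchor k hk z hz hzU
  · intro K' hK'
    refine ((hS.passive K' hK').union (Set.finite_singleton j)).subset ?_
    rintro k ⟨hk, z, hz, hq, hnp⟩
    by_cases hkj : k = j
    · right
      exact hkj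
    · left
      refine ⟨hk, z, hz, hq, fun hp => hnp ?_⟩
      unfold PData.Passive at hp ⊢
      rw [P1.forceUp_mu_ne u D K hkj, P1.forceUp_pot_ne u D K hkj, P1.forceUp_Up_ne u D K hkj]
      exact hp
  · intro α
    refine (hbud α).mono hC (fun x hx => le_of_eq ?_) le_rfl
    rw [sh_add_update hC hS hj (P2 := P1.forceUp j u D K) (D := D) (fun z => by rw [P1.forceUp_pot_self])
      (fun k hk => P1.forceUp_pot_ne u D K hk) (Set.mem_iUnion.2 ⟨α, hx⟩)]
    ring

/-- **minus update.** -/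
theorem sh_force_un {θ θ' : ℝ} {P1 : PData W ι C.B.J} (hC : C.Ok) (hA : ShAnchor C hh tt)
    (hS : ShState C hh tt θ P1) {j : C.B.J} (hj : j ∈ C.R) {S : Set W} {u : W → EReal} {D : W → ℝ} {K : Set W}
    (hF : ShForce C j S u D K) (hSa : ∀ z ∈ S, hh j z < tt j)
    (hbud : ∀ α, C.Bud α (fun z => 1.16 * C.add P1 z + 1.16 * D z) θ' C.e0 0) :
    ShState C hh tt θ' (P1.forceUn j u D K) := by
  refine ⟨hS.E_eq, hS.h_eq, hS.dr_eq, ?_, hS.up_mono, ?_, ?_, hS.up_anchor, ?_, ?_, ?_⟩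
  · intro k hk
    by_cases hkj : j = k
    · subst hkj
      exact sh_label_un hC hA hS.E_eq hS.h_eq hk (hS.label j hk) (hS.up_anchor j hk) hF hSa
    · have hkj' : k ≠ j := fun h => hkj h.symm
      exact (hS.label k hk).congr rfl rfl (P1.forceUn_mu_ne u D K hkj') (P1.forceUn_pot_ne u D K hkj') rfl
        (P1.forceUn_Un_ne u D K hkj')
  · intro k hk
    exact (hS.un_mono k hk).trans (P1.forceUn_Un_subset j u D K k)
  · intro k hk z
    refine (hS.pot_mono k hk z).trans ?_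
    by_cases hkj : j = k
    · subst hkj
      rw [P1.forceUn_pot_self]
      have := hF.D_nonneg z
      dsimp only
      linarith
    · rw [P1.forceUn_pot_ne u D K (fun h => hkj h.symm)]
  · intro k hk z hz hzU
    by_cases hkj : j = k
    · subst hkj
      rw [P1.forceUn_Un_self] at hzU
      rcases hzU with h | h
      · exact hS.un_anchor j hk z hz h
      · exact hSa z (hF.K_sub hz h)
    · rw [P1.forceUn_Un_ne u D K (fun h => hkj h.symm)] at hzU
      exact hS.un_anchor k hk z hz hzU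
  · intro K' hK'
    refine ((hS.passive K' hK').union (Set.finite_singleton j)).subset ?_
    rintro k ⟨hk, z, hz, hq, hnp⟩
    by_cases hkj : k = j
    · right
      exact hkj
    · left
      refine ⟨hk, z, hz, hq, fun hp => hnp ?_⟩
      unfold PData.Passive at hp ⊢
      rw [P1.forceUn_mu_ne u D K hkj, P1.forceUn_pot_ne u D K hkj, P1.forceUn_Un_ne u D K hkj]
      exact hp
  · intro α
    refine (hbud α).mono hC (fun x hx => le_of_eq ?_) le_rfl
    rw [sh_add_update hC hS hj (P2 := P1.forceUn j u D K) (D := D) (fun z => by rw [P1.forceUn_pot_self])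
      (fun k hk => P1.forceUn_pot_ne u D K hk) (Set.mem_iUnion.2 ⟨α, hx⟩)]
    ring

/-- the updates are extensions, supported over `q(S)`. -/
theorem sh_force_ext {P1 : PData W ι C.B.J} (hE : P1.E = C.P.E) {j : C.B.J} {S : Set W} {u : W → EReal} {D : W → ℝ}
    {K : Set W} (hF : ShForce C j S u D K) (hK : K ⊆ tot C.P.E) (hu : ∀ z, z ∉ tot C.P.E → u z = ⊥ ∧ D z = 0) {U : Set V}
    (hU : ∀ z ∈ S, C.F.q z ∈ U) :
    ShExt C P1 (P1.forceUp j u D K) U ∧ ShExt C P1 (P1.forceUn j u D K) U := by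
  have key : ∀ z, C.F.q z ∉ U → u z = ⊥ ∧ D z = 0 ∧ z ∉ K := by
    intro z hz
    have hzS : z ∉ S := fun h => hz (hU z h)
    by_cases hzt : z ∈ tot C.P.E
    · obtain ⟨α, hα⟩ := Set.mem_iUnion.1 hzt
      obtain ⟨N, hN, hN'⟩ := hF.off α z hα hzS
      exact hN' z ⟨mem_of_mem_nhds hN, hα⟩
    · exact ⟨(hu z hzt).1, (hu z hzt).2, fun h => hzt (hK h)⟩
  constructor
  · refine ⟨fun k => P1.forceUp_Up_subset j u D K k, fun _ => subset_rfl, fun z hz k => ?_⟩
    obtain ⟨h1, h2, h3⟩ := key z hz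
    by_cases hk : k = j
    · subst hk
      rw [P1.forceUp_mu_self, P1.forceUp_pot_self, P1.forceUp_Up_self]
      refine ⟨?_, ?_, ?_, Iff.rfl⟩
      · show max _ _ = _
        rw [h1]
        exact max_bot_right _
      · show _ + _ = _
        rw [h2, add_zero]
      · exact ⟨fun h => h.resolve_right h3, Or.inl⟩
    · rw [P1.forceUp_mu_ne u D K hk, P1.forceUp_pot_ne u D K hk, P1.forceUp_Up_ne u D K hk]
      exact ⟨rfl, rfl, Iff.rfl, Iff.rfl⟩
  · refine ⟨fun _ => subset_rfl, fun k => P1.forceUn_Un_subset j u D K k, fun z hz k => ?_⟩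
    obtain ⟨h1, h2, h3⟩ := key z hz
    by_cases hk : k = j
    · subst hk
      rw [P1.forceUn_mu_self, P1.forceUn_pot_self, P1.forceUn_Un_self]
      refine ⟨?_, ?_, Iff.rfl, ?_⟩
      · show min _ _ = _
        rw [h1]
        exact min_top_right _
      · show _ + _ = _
        rw [h2, add_zero]
      · exact ⟨fun h => h.resolve_right h3, Or.inl⟩
    · rw [P1.forceUn_mu_ne u D K hk, P1.forceUn_pot_ne u D K hk, P1.forceUn_Un_ne u D K hk]
      exact ⟨rfl, rfl, Iff.rfl, Iff.rfl⟩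

end Claimed.Agent.R315
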