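import Claimed.Agent.R315.Sh.Lift

/-!
# Row 315, package SH-LIFTU: extension of a forcing profile to all cofaces with caps (P Lemma D.5)

`liftU u0 w = min (u0 (π z), min_{j ∈ J} w (α_j t_j z))` on a coface `E α` (`J = β.cofJ α`, `π = dropS J`), `⊥` on the other status spaces.
Standing data (`ShProf`): `u0 : W → EReal` continuous on `E β`, `u0 = ⊥` off `S1` (`S1 ⊆ S0` closed), `u0 = ⊤` on `K1`;
`w : ℝ → EReal` a cap: continuous, `⊥` on `(-∞, Tw]`, `⊤` on `[Tw', ∞)`, `Tw > T` = a product threshold of `S0`.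

PLANS.
* continuity on `E α` (`sh_liftU_cont`), `α` a coface, at `z ∈ E α`:
  (a) some `α_j t_j z ≤ Tw`... then `liftU z = ⊥` and `liftU ≤ w (α_j t_j ·) → ⊥`: squeeze (`tendsto_order`/`le_bot`), `w` continuous;
  (b) all `α_j t_j z > Tw > T` and `q z ∈ U` (the open set of `ShThr.prod`): near `z`, `π y ∈ E β`, `π` continuous, `u0` continuous on `E β`: finite infimum of continuous functions
      (`Finset.inf` induction, `ContinuousWithinAt.min`/`inf`);
  (c) all `α_j t_j z > Tw` and `q z ∉ q(S1)` (an open condition, `q(S1)` compact): `u0 (π y) = ⊥` near `z` since `q (π y) = q y`.   `U ∪ (q S1)ᶜ = V`.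
* compatibility: the three cases of `Sh/Lift.lean` (`w = ⊤` beyond `Tw'`; `⊤` is neutral for `min`).
* slope (`sh_liftU_slope`): `sh_slope_einf` over `Option`-indexed branches (or `insert`): active branch `u0 ∘ π`: then all caps are `> ⊥`, so `α_j t_j z > Tw` and `π z ∈ S1`; `sh_slope_lift`; the potential
  `liftD D0 χ = D0 ∘ π` near... at `z` (`χ = 1` on `[Tw, ∞)`, `sh_liftD_one`).  Active branch `w (α_j t_j ·)`: `sh_slope_t` + `sh_slope_comp` with `φ = toReal ∘ w`, `φ' = (.58 φ² + p)/2` (continuous);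
  again `liftU z ≠ ⊥` forces `π z ∈ S1` and the tail.
-/

set_option autoImplicit false
open scoped ContDiff ENNReal Topology
open MeasureTheory Claims.C0499

namespace Claimed.Agent.R315

variable {V W : Type} [NormedAddCommGroup V] [NormedSpace ℝ V] [NormedAddCommGroup W] [NormedSpace ℝ W] {ι : Type}
  [Fintype ι]

open Classical in
/-- lift of a forcing profile with caps. -/
noncomputable def ShCtx.liftU (C : ShCtx V W ι) (β : Stat ι) (u0 : W → EReal) (w : ℝ → EReal) : W → EReal :=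
  shGlue C.P.E (fun α z => if β.IsCof α then
    u0 (C.F.dropS (β.cofJ α) z) ⊓ (β.cofJ α).inf (fun j => w ((α j : ℝ) * C.F.t j z)) else ⊥) ⊥

/-- standing hypotheses on `(u0, w)`. -/
structure ShProf (C : ShCtx V W ι) (β : Stat ι) (S0 S1 : Set W) (T : ℝ) (u0 : W → EReal) (w : ℝ → EReal) (Tw Tw' : ℝ) :
    Prop where
  S0_cpt : IsCompact S0
  thr : ShThr C β S0 T
  S1_sub : S1 ⊆ S0
  S1_closed : IsClosed S1
  u_cont : ContinuousOn u0 (C.P.E β)
  u_bot : ∀ z, z ∉ S1 → u0 z = ⊥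
  T_lt : T < Tw
  Tw_lt : Tw < Tw'
  w_cont : Continuous w
  w_bot : ∀ s ≤ Tw, w s = ⊥
  w_top : ∀ s, Tw' ≤ s → w s = ⊤

variable [FiniteDimensional ℝ V] [FiniteDimensional ℝ W] [MeasurableSpace W] [BorelSpace W]
  {C : ShCtx V W ι} {β : Stat ι} {S0 S1 : Set W} {T Tw Tw' : ℝ} {u0 : W → EReal} {w : ℝ → EReal}

theorem sh_liftU_cof (hC : C.Ok) (u0 : W → EReal) (w : ℝ → EReal) {α : Stat ι} (hα : β.IsCof α) {z : W}
    (hz : z ∈ C.P.E α) :
    C.liftU β u0 w z = u0 (C.F.dropS (β.cofJ α) z) ⊓ (β.cofJ α).inf (fun j => w ((α j : ℝ) * C.F.t j z)) := by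
  classical
  unfold ShCtx.liftU
  rw [shGlue_eq hC.inv.diag.disj _ _ hz, if_pos hα]

theorem sh_liftU_not (hC : C.Ok) (u0 : W → EReal) (w : ℝ → EReal) {α : Stat ι} (hα : ¬ β.IsCof α) {z : W}
    (hz : z ∈ C.P.E α) : C.liftU β u0 w z = ⊥ := by
  classical
  unfold ShCtx.liftU
  rw [shGlue_eq hC.inv.diag.disj _ _ hz, if_neg hα]

omit [FiniteDimensional ℝ V] [FiniteDimensional ℝ W] [MeasurableSpace W] [BorelSpace W] in
theorem sh_liftU_off (C : ShCtx V W ι) (β : Stat ι) (u0 : W → EReal) (w : ℝ → EReal) {z : W} (hz : z ∉ tot C.P.E) :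
    C.liftU β u0 w z = ⊥ := shGlue_of_not _ _ hz

/-- `⊥` off the closed support set. -/
theorem sh_liftU_bot (hC : C.Ok) (H : ShProf C β S0 S1 T u0 w Tw Tw') {z : W} (hz : z ∉ C.liftS β S1 Tw) :
    C.liftU β u0 w z = ⊥ := by
  by_cases hzt : z ∈ tot C.P.E
  · obtain ⟨α, hα⟩ := mem_tot.1 hzt
    by_cases hcof : β.IsCof α
    · rw [sh_liftU_cof hC u0 w hcof hα]
      by_cases h1 : C.F.dropS (β.cofJ α) z ∈ S1
      · have h2 : ¬ ∀ j ∈ β.cofJ α, Tw ≤ (α j : ℝ) * C.F.t j z := fun h => hz ⟨α, hα, hcof, h1, h⟩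
        push Not at h2
        obtain ⟨j, hj, hlt⟩ := h2
        have h3 : (β.cofJ α).inf (fun j => w ((α j : ℝ) * C.F.t j z)) ≤ ⊥ := by
          rw [← H.w_bot _ hlt.le]
          exact Finset.inf_le hj
        rw [le_bot_iff.1 h3, inf_bot_eq]
      · rw [H.u_bot _ h1, bot_inf_eq]
    · exact sh_liftU_not hC u0 w hcof hα
  · exact sh_liftU_off C β u0 w hzt

/-- `⊤` on the lift of `{u0 = ⊤}` beyond the caps. -/
theorem sh_liftU_top (hC : C.Ok) (H : ShProf C β S0 S1 T u0 w Tw Tw') {K1 : Set W} (hK : ∀ z ∈ K1, u0 z = ⊤) {z : W}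
    (hz : z ∈ C.liftS β K1 Tw') : C.liftU β u0 w z = ⊤ := by
  obtain ⟨α, h1, h2, h3, h4⟩ := hz
  rw [sh_liftU_cof hC u0 w h2 h1]
  refine le_antisymm le_top (le_inf ?_ (Finset.le_inf fun j hj => ?_))
  · rw [hK _ h3]
  · rw [H.w_top _ (h4 j hj)]

/-- pull backs of functions which are continuous on `E β` are continuous on the coface at the points of the product region. -/
theorem sh_pull_cont (hT : ShThr C β S0 T) {α : Stat ι} (hα : β.IsCof α) {X : Type} [TopologicalSpace X]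
    {f : W → X} (hf : ContinuousOn f (C.P.E β)) {z : W} (hz : z ∈ C.P.E α) (hzt : z ∈ C.F.tailS α (β.cofJ α) T)
    (hzS : C.F.dropS (β.cofJ α) z ∈ S0) :
    C.F.dropS (β.cofJ α) z ∈ C.P.E β ∧ ContinuousWithinAt (fun y => f (C.F.dropS (β.cofJ α) y)) (C.P.E α) z := by
  obtain ⟨U, hU, hUsub, hp⟩ := hT.prod
  have hqU : C.F.q z ∈ U := hUsub ⟨_, hzS, C.F.q_dropS _ z⟩
  have hπ : C.F.dropS (β.cofJ α) z ∈ C.P.E β := (hp α hα z hqU hzt).1.1 hz
  refine ⟨hπ, ?_⟩
  have hN : C.F.tailS α (β.cofJ α) T ∩ C.F.q ⁻¹' U ∈ 𝓝 z :=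
    Filter.inter_mem ((C.F.isOpen_tailS α _ T).mem_nhds hzt) ((hU.preimage C.F.q.continuous).mem_nhds hqU)
  rw [← continuousWithinAt_inter hN]
  refine ContinuousWithinAt.comp (t := C.P.E β) (hf _ hπ) (C.F.continuous_dropS _).continuousWithinAt ?_
  rintro y ⟨hyE, hyt, hyU⟩
  exact (hp α hα y hyU hyt).1.1 hyE

omit [FiniteDimensional ℝ V] [FiniteDimensional ℝ W] [MeasurableSpace W] [BorelSpace W] in
/-- the caps are continuous. -/
theorem ShProf.cap_cont (H : ShProf C β S0 S1 T u0 w Tw Tw') (α : Stat ι) (J : Finset ι) :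
    Continuous fun y => J.inf (fun j => w ((α j : ℝ) * C.F.t j y)) :=
  Continuous.finset_inf_apply (f := fun j y => w ((α j : ℝ) * C.F.t j y)) fun j _ =>
    H.w_cont.comp (continuous_const.mul (C.F.t j).continuous)

theorem sh_liftU_cont (hC : C.Ok) (H : ShProf C β S0 S1 T u0 w Tw Tw') (α : Stat ι) :
    ContinuousOn (C.liftU β u0 w) (C.P.E α) := by
  by_cases hα : β.IsCof α
  · have hcongr : ∀ y ∈ C.P.E α, C.liftU β u0 w y =
        u0 (C.F.dropS (β.cofJ α) y) ⊓ (β.cofJ α).inf (fun j => w ((α j : ℝ) * C.F.t j y)) :=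
      fun y hy => sh_liftU_cof hC u0 w hα hy
    refine ContinuousOn.congr ?_ hcongr
    intro z hz
    by_cases h1 : C.F.dropS (β.cofJ α) z ∈ S1
    · by_cases h2 : z ∈ C.F.tailS α (β.cofJ α) T
      · exact (sh_pull_cont H.thr hα H.u_cont hz h2 (H.S1_sub h1)).2.inf (H.cap_cont α _).continuousWithinAt
      · -- squeeze below a cap
        have h2' : ∃ j ∈ β.cofJ α, (α j : ℝ) * C.F.t j z ≤ T := by
          by_contra hcon
          push Not at hcon
          exact h2 hcon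
        obtain ⟨j, hj, hle⟩ := h2'
        have hwz : w ((α j : ℝ) * C.F.t j z) = ⊥ := H.w_bot _ (hle.trans H.T_lt.le)
        have hfz : u0 (C.F.dropS (β.cofJ α) z) ⊓ (β.cofJ α).inf (fun j => w ((α j : ℝ) * C.F.t j z)) = ⊥ := by
          refine le_bot_iff.1 ?_
          rw [← hwz]
          exact inf_le_right.trans (Finset.inf_le hj)
        have hwc : Filter.Tendsto (fun y => w ((α j : ℝ) * C.F.t j y)) (𝓝[C.P.E α] z) (𝓝 ⊥) := by
          rw [← hwz]
          exact (H.w_cont.comp (continuous_const.mul (C.F.t j).continuous)).continuousWithinAt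
        unfold ContinuousWithinAt
        beta_reduce
        rw [hfz]
        exact tendsto_of_tendsto_of_tendsto_of_le_of_le tendsto_const_nhds hwc (fun _ => bot_le)
          (fun y => inf_le_right.trans (Finset.inf_le hj))
    · have hN : (C.F.dropS (β.cofJ α) ⁻¹' S1)ᶜ ∈ 𝓝 z :=
        (H.S1_closed.preimage (C.F.continuous_dropS _)).isOpen_compl.mem_nhds h1
      refine (continuousWithinAt_const (b := (⊥ : EReal))).congr_of_eventuallyEq ?_ (by rw [H.u_bot _ h1, bot_inf_eq])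
      filter_upwards [mem_nhdsWithin_of_mem_nhds hN] with y hy
      rw [H.u_bot _ hy, bot_inf_eq]
  · exact (continuousOn_const (c := (⊥ : EReal))).congr fun y hy => sh_liftU_not hC u0 w hα hy

theorem sh_liftU_compat (hC : C.Ok) (H : ShProf C β S0 S1 T u0 w Tw Tw') : Compat C.F C.P.E (C.liftU β u0 w) := by
  classical
  refine sh_glue_compat hC ⊥
    (fun α z => u0 (C.F.dropS (β.cofJ α) z) ⊓ (β.cofJ α).inf (fun j => w ((α j : ℝ) * C.F.t j z))) (max Tw' T)
    (fun α hα z hz => sh_liftU_cof hC u0 w hα hz) (fun α hα z hz => sh_liftU_not hC u0 w hα hz) ?_ ?_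
  · intro α hα i hb ha z hz hlt
    obtain ⟨e1, e2⟩ := sh_face_data C.F hb ha z
    have e3 : (β.cofJ (α.face i)).inf (fun j => w (((α.face i j : SignType) : ℝ) * C.F.t j (C.F.drop i z))) =
        (β.cofJ (α.face i)).inf (fun j => w ((α j : ℝ) * C.F.t j z)) :=
      Finset.inf_congr rfl fun j hj => by rw [e2 j hj]
    have e4 : (β.cofJ α).inf (fun j => w ((α j : ℝ) * C.F.t j z)) =
        (β.cofJ (α.face i)).inf (fun j => w ((α j : ℝ) * C.F.t j z)) := by
      rw [Stat.cofJ_face hb ha, Finset.inf_insert, H.w_top _ ((le_max_left _ _).trans hlt.le), top_inf_eq]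
    show u0 _ ⊓ _ = u0 _ ⊓ _
    rw [e1, e3, e4]
  · intro α hα i hb z hz hlt
    show u0 _ ⊓ _ = ⊥
    rw [H.u_bot _ (fun h => H.thr.notMem hb (lt_of_le_of_lt (le_max_right _ _) hlt) (H.S1_sub h)), bot_inf_eq]

/-- **slope of the lifted profile**: `2 slope ≤ .58 u² + p + D_E`. -/
theorem sh_liftU_slope (hC : C.Ok) (H : ShProf C β S0 S1 T u0 w Tw Tw') {p : ℝ} (hp : 0 < p)
    (hw : ∀ s, Tw < s → s < Tw' → w s ≠ ⊥ ∧ w s ≠ ⊤ ∧
        HasDerivAt (fun σ => (w σ).toReal) ((0.58 * (w s).toReal ^ 2 + p) / 2) s)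
    {D0 : W → ℝ} (hD0 : ∀ z, 0 ≤ D0 z)
    (hu : ∀ z ∈ C.P.E β, u0 z ≠ ⊤ → u0 z ≠ ⊥ →
      SlopeLE (C.P.E β) C.P.h (fun y => (u0 y).toReal) z ((0.58 * (u0 z).toReal ^ 2 + D0 z) / 2))
    {χ : ℝ → ℝ} (hχ0 : ∀ s, 0 ≤ χ s) (hχ : ∀ s, Tw ≤ s → χ s = 1) {α : Stat ι} {z : W} (hz : z ∈ C.P.E α)
    (h1 : C.liftU β u0 w z ≠ ⊤) (h2 : C.liftU β u0 w z ≠ ⊥) :
    SlopeLE (C.P.E α) C.P.h (fun y => (C.liftU β u0 w y).toReal) z
      ((0.58 * (C.liftU β u0 w z).toReal ^ 2 + p + C.liftD β D0 χ z) / 2) := by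
  have hzS : z ∈ C.liftS β S1 Tw := by
    by_contra h
    exact h2 (sh_liftU_bot hC H h)
  obtain ⟨hα, hπS, hzt⟩ := (sh_mem_liftS hC hz).1 hzS
  have hzT : z ∈ C.F.tailS α (β.cofJ α) T := fun j hj => lt_of_lt_of_le H.T_lt (hzt j hj)
  obtain ⟨hπ, hμc⟩ := sh_pull_cont H.thr hα H.u_cont hz hzT (H.S1_sub hπS)
  rw [sh_liftD_one hC D0 hχ hα hz hzt]
  have hDz := hD0 (C.F.dropS (β.cofJ α) z)
  have e := sh_liftU_cof hC u0 w hα hz
  rw [e] at h1 h2 ⊢
  refine sh_slope_congr (f := fun y => (min (u0 (C.F.dropS (β.cofJ α) y))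
    ((β.cofJ α).inf (fun j => w ((α j : ℝ) * C.F.t j y)))).toReal) ?_
    ⟨Set.univ, Filter.univ_mem, fun y hy => by rw [sh_liftU_cof hC u0 w hα hy.2]⟩
  refine sh_slope_emin hz hμc (H.cap_cont α _).continuousWithinAt h1 h2 (fun ea => ?_) (fun eb => ?_)
  · have ea' : u0 (C.F.dropS (β.cofJ α) z) ⊓ (β.cofJ α).inf (fun j => w ((α j : ℝ) * C.F.t j z)) =
        u0 (C.F.dropS (β.cofJ α) z) := ea.symm
    rw [ea'] at h1 h2 ⊢
    refine sh_slope_mono (sh_slope_lift hC H.thr hα hz hzT (H.S1_sub hπS) (by positivity) (hu _ hπ h1 h2)) ?_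
    linarith
  · have eb' : u0 (C.F.dropS (β.cofJ α) z) ⊓ (β.cofJ α).inf (fun j => w ((α j : ℝ) * C.F.t j z)) =
        (β.cofJ α).inf (fun j => w ((α j : ℝ) * C.F.t j z)) := eb.symm
    rw [eb'] at h1 h2 ⊢
    refine sh_slope_einf (β.cofJ α) (fun j y => w ((α j : ℝ) * C.F.t j y)) hz
      (fun k _ => (H.w_cont.comp (continuous_const.mul (C.F.t k).continuous)).continuousWithinAt) h1 h2
      (fun k hk ek => ?_)
    have ek' : (β.cofJ α).inf (fun j => w ((α j : ℝ) * C.F.t j z)) = w ((α k : ℝ) * C.F.t k z) := ek.symm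
    rw [ek'] at h1 h2 ⊢
    have hs1 : Tw < (α k : ℝ) * C.F.t k z := by
      by_contra hcon
      exact h2 (H.w_bot _ (not_lt.1 hcon))
    have hs2 : (α k : ℝ) * C.F.t k z < Tw' := by
      by_contra hcon
      exact h1 (H.w_top _ (not_lt.1 hcon))
    have hder : ∀ᶠ s in 𝓝 ((α k : ℝ) * C.F.t k z),
        HasDerivAt (fun σ => (w σ).toReal) ((fun s => (0.58 * (w s).toReal ^ 2 + p) / 2) s) s := by
      filter_upwards [Ioo_mem_nhds hs1 hs2] with s hs
      exact (hw s hs.1 hs.2).2.2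
    have hcont : ContinuousAt (fun s => (0.58 * (w s).toReal ^ 2 + p) / 2) ((α k : ℝ) * C.F.t k z) := by
      have hc := (hw _ hs1 hs2).2.2.continuousAt
      exact (((hc.pow 2).const_mul 0.58).add continuousAt_const).div_const 2
    have hsl := sh_slope_comp (φ := fun σ => (w σ).toReal) (φ' := fun s => (0.58 * (w s).toReal ^ 2 + p) / 2)
      zero_le_one (sh_slope_t hC H.thr hα hz hzT (H.S1_sub hπS) hk)
      (continuous_const.mul (C.F.t k).continuous).continuousWithinAt hder hcont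
    refine sh_slope_mono hsl ?_
    rw [mul_one, abs_of_nonneg (by positivity)]
    linarith

end Claimed.Agent.R315
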