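import Claimed.Agent.R315.Sh.Ims
import Claimed.Agent.R315.Sh.LiftU
import Claimed.Agent.R315.Sh.Force
import Claimed.Agent.R315.Gs.Calc

/-!
# Row 315, package SH-ADD: ONE ADDITION (P Lemmas C.3 + D.3 + D.4 + D.5 together)

Input: a state `P1` with bound `θ ∈ [.78, 1]`, a status `β`, a label `j`, a piece `Fp ⊆ Σ_β` with a gauge `(δ, d, Cc, CF, Tg)` inside a strict anchor region, `γ > 0`.
Output: a state with bound `θ + γ`, `Fp ⊆` the new core of `j`, changes only over `q({δ ≤ d})`.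

`ShPar` = all parameters of one addition with their properties.  ORDER OF THE CHOICES (`sh_par_exists`):
 `N` (angle: `ξ = 1.7 (π/2)² (4 Cc/N)²` small against `γ`, `γ e0/CF`), `r2 < d` small against `Vmax + CF`, `r1 = r2/2^N`, `ε = r1/(2 e^{5π})`,
 `L` (fronts: `κ = 1.7 (π/2)² |ι| (C0/L)² ≤ γ e0/2`), `T ≥ Tg, T0` a product threshold of `S0 = {δ ≤ d}` (`sh_thr_exists`), `T1 = T + 1` (angle front, `b : 0 → 1` on `[T1, T1 + L]`),
 `T2 = T1 + L` (potential front, `χ : 0 → 1` on `[T2, T2 + 1]`), cap `w : ⊥ → ⊤` on `[T2 + 1, Tw']` (`sh_cap_exists`), core beyond `Tw' + 1`.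
 Existence of the objects: `sh_shell_exists`, `sh_shell_pot`, `sh_dyadic`, `sh_cutoff_exists`, `sh_cap_exists` (`Sh/Prof.lean`).

`sh_par_force`: the lifted triple is a `ShForce`.  Fields: `u_cc` = `sh_liftU_cont/compat` (`ShProf` with `S0 = {δ ≤ d}`, `S1 = {δ ≤ e^{5π} ε}`, `Tw = T2 + 1`); `slope` = `sh_liftU_slope` with `sh_shell_slope` and `D0 ≥ 2/δ²` on the
 finite band; `D_sc` = `sh_liftD_smooth/compat`; `K_open/compat` = `sh_liftK_*` (`K0 = {δ < ε/2}` is relatively open in `E β`: continuity of `δ`); `K_pole`: `sh_liftK_closure` (`K1 = {δ ≤ ε/2}`) puts `z` in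
 `liftS {δ ≤ ε/2} (Tw' + 1)`, which lies in the relatively open set `liftK {δ < ε} Tw'`, where `u = ⊤` (`sh_liftU_top`); `off` = `sh_liftS_closed` + `sh_liftU_bot` + `sh_liftD_supp`.

`sh_par_bud`: for `α` not a coface `D = 0` on `E α` (`ShForm.Bud.mono`).  For a coface apply `sh_max` to the three forms of `E α` (`sh_fw_ok`, `sh_fs_ok`, `CtLAM.diff` for the other side; `CtGeo` from `Inv`, `CtLAM` from `CutOK.lam`;
 `2 ≤ m α` from `hC.dim`, trivial if `E α = ∅`) with `M = E α`, `wt ρ = shWt F α J Tg δ d ρ`, `ϑ = (π/2) liftD a b`, `G = ξ wt r1 + κ`, `ρ0 = ε/2`, `r2 = 2^N r1`: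
 * `hims`: `sh_ims_wall/side`, `gradSq ϑ = (π/2)² gradSq (liftD a b)` (`gs_sq_smul`), `sh_liftD_grad`, `a_grad`, `b_der`, `tail_{T1} ⊆ tail_{Tg}`;
 * `hcos`: `D ≠ 0` ⇒ `D0 (π z) ≠ 0`, `χ ≠ 0` ⇒ `δ (π z) < 2 e^{5π} ε ≤ r1`, `α_j t_j z > T2 ≥ T1 + L` ⇒ `a = b = 1` ⇒ `ϑ = π/2`;
 * `hsin`: `ϑ ≠ 0` ⇒ `δ (π z) < r2 < d`, `α_j t_j z > T1 > Tg` ⇒ `wt r2 z = 1/r2²`, and `q z = q (π z) ∈ q(S0)` ⇒ `Vo ≤ Vmax`;
 * `hDn`: `D ≤ D0 ∘ π ≤ 2.12 shW d (ε/2) (δ ∘ π)` and `D ≠ 0` only in `tail_{T2} ⊆ tail_{Tg}`;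
 * measurability: `sh_aemeasurable` (continuous on `E α`), `ShGauge.measurable_w` composed with the continuous `dropS J`, indicator of the open set `tailS`.
-/

set_option autoImplicit false
open scoped ContDiff ENNReal Topology
open MeasureTheory Claims.C0499

namespace Claimed.Agent.R315

variable {V W : Type} [NormedAddCommGroup V] [NormedSpace ℝ V] [NormedAddCommGroup W] [NormedSpace ℝ W] {ι : Type}
  [Fintype ι]

/-- all parameters of one addition (`p` = the floor of the label). -/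
structure ShPar (C : ShCtx V W ι) (β : Stat ι) (p : ℝ) (δ : W → ℝ) (d Cc Tg : ℝ) where
  T : ℝ
  ε : ℝ
  r1 : ℝ
  N : ℕ
  L : ℝ
  C0 : ℝ
  T1 : ℝ
  T2 : ℝ
  Tw' : ℝ
  U : ℝ → EReal
  D0 : W → ℝ
  a : W → ℝ
  b : ℝ → ℝ
  χ : ℝ → ℝ
  w : ℝ → EReal
  thr : ShThr C β {z | δ z ≤ d} T
  Tg_le : Tg ≤ T
  ε_pos : 0 < ε
  ε_r1 : 2 * (Real.exp (5 * Real.pi) * ε) ≤ r1
  N_pos : 0 < N
  r2_lt : 2 ^ N * r1 < d
  U_cont : Continuous U
  U_top : ∀ s ≤ ε, U s = ⊤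
  U_bot : ∀ s, Real.exp (5 * Real.pi) * ε ≤ s → U s = ⊥
  U_der : ∀ s, ε < s → s < Real.exp (5 * Real.pi) * ε → U s ≠ ⊥ ∧ U s ≠ ⊤ ∧
    HasDerivAt (fun σ => (U σ).toReal) (-(0.29 * (U s).toReal ^ 2 + 1 / s ^ 2)) s
  D0_sm : SmoothAlong (C.m β) (C.P.E β) D0
  D0_nonneg : ∀ z, 0 ≤ D0 z
  D0_ge : ∀ z, ε ≤ δ z → δ z ≤ Real.exp (5 * Real.pi) * ε → 2 / δ z ^ 2 ≤ D0 z
  D0_le : ∀ z, D0 z ≤ 2.12 * shW d (ε / 2) (δ z)
  D0_zero : ∀ z, δ z ≤ ε / 2 ∨ 2 * (Real.exp (5 * Real.pi) * ε) ≤ δ z → D0 z = 0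
  a_sm : SmoothAlong (C.m β) (C.P.E β) a
  a_01 : ∀ z, 0 ≤ a z ∧ a z ≤ 1
  a_one : ∀ z, δ z ≤ r1 → a z = 1
  a_zero : ∀ z, 2 ^ N * r1 ≤ δ z → a z = 0
  a_grad : ∀ z ∈ C.P.E β, gradSq (C.m β) (C.P.E β) C.P.h a z ≤ (4 * Cc / N) ^ 2 * shW d r1 (δ z)
  L_pos : 0 < L
  b_sm : ContDiff ℝ ∞ b
  b_01 : ∀ s, 0 ≤ b s ∧ b s ≤ 1
  b_zero : ∀ s ≤ T1, b s = 0
  b_one : ∀ s, T1 + L ≤ s → b s = 1
  b_der : ∀ s, |deriv b s| ≤ C0 / L
  T_lt : T < T1
  T12 : T1 + L ≤ T2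
  χ_sm : ContDiff ℝ ∞ χ
  χ_01 : ∀ s, 0 ≤ χ s ∧ χ s ≤ 1
  χ_zero : ∀ s ≤ T2, χ s = 0
  χ_one : ∀ s, T2 + 1 ≤ s → χ s = 1
  Tw_lt : T2 + 1 < Tw'
  w_cont : Continuous w
  w_bot : ∀ s ≤ T2 + 1, w s = ⊥
  w_top : ∀ s, Tw' ≤ s → w s = ⊤
  w_der : ∀ s, T2 + 1 < s → s < Tw' → w s ≠ ⊥ ∧ w s ≠ ⊤ ∧
    HasDerivAt (fun σ => (w σ).toReal) ((0.58 * (w s).toReal ^ 2 + p) / 2) s

section par

variable {C : ShCtx V W ι} {β : Stat ι} {p : ℝ} {δ : W → ℝ} {d Cc Tg : ℝ}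

/-- the forcing profile. -/
noncomputable def ShPar.u (Q : ShPar C β p δ d Cc Tg) : W → EReal := C.liftU β (fun z => Q.U (δ z)) Q.w

/-- the potential addition. -/
noncomputable def ShPar.D (Q : ShPar C β p δ d Cc Tg) : W → ℝ := C.liftD β Q.D0 Q.χ

/-- the new core. -/
def ShPar.K (Q : ShPar C β p δ d Cc Tg) : Set W := C.liftK β {z | δ z < Q.ε / 2} (Q.Tw' + 1)

/-- the support set. -/
def ShPar.S (Q : ShPar C β p δ d Cc Tg) : Set W :=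
  C.liftS β {z | δ z ≤ 2 * (Real.exp (5 * Real.pi) * Q.ε)} Q.T2

/-- the localisation angle. -/
noncomputable def ShPar.ang (Q : ShPar C β p δ d Cc Tg) (z : W) : ℝ := Real.pi / 2 * C.liftD β Q.a Q.b z

/-- `ξ`. -/
noncomputable def shXi (Cc : ℝ) (N : ℕ) : ℝ := 1.7 * (Real.pi / 2) ^ 2 * (4 * Cc / N) ^ 2

/-- `κ`. -/
noncomputable def shKap (k : ℕ) (C0 L : ℝ) : ℝ := 1.7 * (Real.pi / 2) ^ 2 * (k * (C0 / L) ^ 2)

end par

variable [FiniteDimensional ℝ V] [FiniteDimensional ℝ W] [MeasurableSpace W] [BorelSpace W]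
  {C : ShCtx V W ι} {β : Stat ι} {Fp : Set W} {δ : W → ℝ} {d Cc CF Tg : ℝ}

/-- **choice of the parameters.** -/
theorem sh_par_exists (hC : C.Ok) (hG : ShGauge C β Fp δ d Cc CF Tg) {p : ℝ} (hp : 0 < p) {Vmax γ : ℝ}
    (hV : 0 ≤ Vmax) (hγ : 0 < γ) (T0 : ℝ) :
    ∃ Q : ShPar C β p δ d Cc Tg, T0 ≤ Q.T2 ∧ (Vmax + CF) * (2 ^ Q.N * Q.r1) ^ 2 ≤ 0.1 ∧ shXi Cc Q.N / 3.4 ≤ γ ∧
      shXi Cc Q.N * CF / 3.4 + shKap (Fintype.card ι) Q.C0 Q.L ≤ γ * C.e0 := by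
  have he0 := hC.e0_pos
  have hCF := hG.CF_nonneg
  have hd := hG.d_pos
  -- the number of dyadic cut-offs
  obtain ⟨c1, hc1⟩ : ∃ c1 : ℝ, c1 = 1.7 * (Real.pi / 2) ^ 2 := ⟨_, rfl⟩
  have hc1pos : 0 < c1 := by rw [hc1]; positivity
  obtain ⟨η, hη⟩ : ∃ η : ℝ, η = min (3.4 * γ) (3.4 * (γ * C.e0 / 2) / (CF + 1)) := ⟨_, rfl⟩
  have hηpos : 0 < η := by rw [hη]; exact lt_min (by positivity) (by positivity)
  obtain ⟨N, hN⟩ := exists_nat_ge (c1 * (4 * Cc) ^ 2 / η + 1)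
  have hA0 : 0 ≤ c1 * (4 * Cc) ^ 2 / η := by positivity
  have hN1 : (1 : ℝ) ≤ N := by linarith
  have hNpos : 0 < N := by exact_mod_cast (lt_of_lt_of_le one_pos hN1)
  have hXi : shXi Cc N ≤ η := by
    have h1 : c1 * (4 * Cc) ^ 2 ≤ N * η := by
      have : c1 * (4 * Cc) ^ 2 / η ≤ N := by linarith
      rwa [div_le_iff₀ hηpos] at this
    have h2 : shXi Cc N = c1 * (4 * Cc) ^ 2 / (N : ℝ) ^ 2 := by
      unfold shXi
      rw [hc1, div_pow]; ring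
    rw [h2, div_le_iff₀ (by positivity)]
    have hNN : (N : ℝ) ≤ (N : ℝ) ^ 2 := by nlinarith
    have := mul_le_mul_of_nonneg_right hNN hηpos.le
    linarith
  -- the outer radius
  obtain ⟨r2, hr2⟩ : ∃ r2 : ℝ, r2 = min (d / 2) (Real.sqrt (0.1 / (Vmax + CF + 1))) := ⟨_, rfl⟩
  have hr2pos : 0 < r2 := by rw [hr2]; exact lt_min (by positivity) (Real.sqrt_pos.2 (by positivity))
  have hr2d : r2 < d := by
    have : r2 ≤ d / 2 := by rw [hr2]; exact min_le_left _ _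
    linarith
  have hr2sq : (Vmax + CF) * r2 ^ 2 ≤ 0.1 := by
    have h1 : r2 ≤ Real.sqrt (0.1 / (Vmax + CF + 1)) := by rw [hr2]; exact min_le_right _ _
    have h2 : r2 ^ 2 ≤ 0.1 / (Vmax + CF + 1) := by
      calc r2 ^ 2 ≤ Real.sqrt (0.1 / (Vmax + CF + 1)) ^ 2 := pow_le_pow_left₀ hr2pos.le h1 2
        _ = 0.1 / (Vmax + CF + 1) := Real.sq_sqrt (by positivity)
    have h3 : (Vmax + CF) * (0.1 / (Vmax + CF + 1)) ≤ 0.1 := by
      rw [mul_div_assoc', div_le_iff₀ (by positivity)]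
      nlinarith
    exact (mul_le_mul_of_nonneg_left h2 (by positivity)).trans h3
  have h2N : (0 : ℝ) < 2 ^ N := by positivity
  obtain ⟨r1, hr1⟩ : ∃ r1 : ℝ, r1 = r2 / 2 ^ N := ⟨_, rfl⟩
  have hr1pos : 0 < r1 := by rw [hr1]; positivity
  have hr12 : 2 ^ N * r1 = r2 := by rw [hr1]; field_simp
  have hexp : 0 < Real.exp (5 * Real.pi) := Real.exp_pos _
  obtain ⟨ε, hε⟩ : ∃ ε : ℝ, ε = r1 / (2 * Real.exp (5 * Real.pi)) := ⟨_, rfl⟩
  have hεpos : 0 < ε := by rw [hε]; positivity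
  have hεr1 : 2 * (Real.exp (5 * Real.pi) * ε) = r1 := by rw [hε]; field_simp
  have hr1r2 : r1 ≤ r2 := by
    rw [← hr12]
    have : (1 : ℝ) ≤ 2 ^ N := one_le_pow₀ (by norm_num)
    nlinarith
  -- the fronts
  obtain ⟨C0, hC0, hcut⟩ := sh_cutoff_exists
  obtain ⟨L, hL⟩ : ∃ L : ℝ, L = c1 * (Fintype.card ι * C0 ^ 2) / (γ * C.e0 / 2) + 1 := ⟨_, rfl⟩
  have hB0 : 0 ≤ c1 * (Fintype.card ι * C0 ^ 2) / (γ * C.e0 / 2) := by positivity
  have hL1 : 1 ≤ L := by rw [hL]; linarith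
  have hLpos : 0 < L := by linarith
  have hKap : shKap (Fintype.card ι) C0 L ≤ γ * C.e0 / 2 := by
    have h1 : c1 * (Fintype.card ι * C0 ^ 2) ≤ L * (γ * C.e0 / 2) := by
      have : c1 * (Fintype.card ι * C0 ^ 2) / (γ * C.e0 / 2) ≤ L := by rw [hL]; linarith
      rwa [div_le_iff₀ (by positivity)] at this
    have h2 : shKap (Fintype.card ι) C0 L = c1 * (Fintype.card ι * C0 ^ 2) / L ^ 2 := by
      unfold shKap
      rw [hc1, div_pow]; ring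
    rw [h2, div_le_iff₀ (by positivity)]
    have hg : 0 < γ * C.e0 / 2 := by positivity
    have hLL : L ≤ L ^ 2 := by nlinarith
    have := mul_le_mul_of_nonneg_right hLL hg.le
    linarith
  obtain ⟨T, hT0, hthr⟩ := sh_thr_exists C hC β hG.cpt (fun z hz => hG.sub z hz) (max Tg T0)
  obtain ⟨b, b1, b2, b3, b4, b5⟩ := hcut (T + 1) L hLpos
  obtain ⟨χ, x1, x2, x3, x4, _⟩ := hcut (T + 1 + L) 1 one_pos
  obtain ⟨w, Tw', w1, w2, w3, w4, w5⟩ := sh_cap_exists hp (T + 1 + L + 1)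
  obtain ⟨U, u1, u2, u3, u4⟩ := sh_shell_exists hεpos
  obtain ⟨D0, d1, d2, d3, d4, d5⟩ := sh_shell_pot hC hG hεpos (by rw [hεr1]; linarith)
  obtain ⟨a, a1, a2, a3, a4, a5⟩ := sh_dyadic hC hG hr1pos hNpos (by rw [hr12]; exact hr2d)
  refine ⟨{ T := T, ε := ε, r1 := r1, N := N, L := L, C0 := C0, T1 := T + 1, T2 := T + 1 + L, Tw' := Tw', U := U,
            D0 := D0, a := a, b := b, χ := χ, w := w, thr := hthr, Tg_le := (le_max_left _ _).trans hT0,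
            ε_pos := hεpos, ε_r1 := hεr1.le, N_pos := hNpos, r2_lt := by rw [hr12]; exact hr2d, U_cont := u1,
            U_top := u2, U_bot := u3, U_der := u4, D0_sm := d1, D0_nonneg := d2, D0_ge := d3, D0_le := d4,
            D0_zero := d5, a_sm := a1, a_01 := a2, a_one := a3, a_zero := a4, a_grad := a5, L_pos := hLpos,
            b_sm := b1, b_01 := b2, b_zero := b3, b_one := b4, b_der := b5, T_lt := by linarith, T12 := le_rfl,
            χ_sm := x1, χ_01 := x2, χ_zero := x3, χ_one := x4, Tw_lt := w1, w_cont := w2, w_bot := w3,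
            w_top := w4, w_der := w5 }, ?_, ?_, ?_, ?_⟩
  · show T0 ≤ T + 1 + L
    have := (le_max_right Tg T0).trans hT0
    linarith
  · show (Vmax + CF) * (2 ^ N * r1) ^ 2 ≤ 0.1
    rw [hr12]; exact hr2sq
  · show shXi Cc N / 3.4 ≤ γ
    have : η ≤ 3.4 * γ := by rw [hη]; exact min_le_left _ _
    rw [div_le_iff₀ (by norm_num)]
    linarith
  · show shXi Cc N * CF / 3.4 + shKap (Fintype.card ι) C0 L ≤ γ * C.e0
    have h1 : η ≤ 3.4 * (γ * C.e0 / 2) / (CF + 1) := by rw [hη]; exact min_le_right _ _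
    have h2 : shXi Cc N * (CF + 1) ≤ 3.4 * (γ * C.e0 / 2) := by
      have := hXi.trans h1
      rwa [le_div_iff₀ (by positivity)] at this
    have h3 : 0 ≤ shXi Cc N := by unfold shXi; positivity
    have h4 : shXi Cc N * CF / 3.4 ≤ γ * C.e0 / 2 := by
      rw [div_le_iff₀ (by norm_num)]
      nlinarith
    linarith

section parlemmas

variable {p : ℝ} (Q : ShPar C β p δ d Cc Tg)

omit [FiniteDimensional ℝ V] [FiniteDimensional ℝ W] [MeasurableSpace W] [BorelSpace W] in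
theorem ShPar.R_pos : 0 < Real.exp (5 * Real.pi) * Q.ε := mul_pos (Real.exp_pos _) Q.ε_pos

omit [FiniteDimensional ℝ V] [FiniteDimensional ℝ W] [MeasurableSpace W] [BorelSpace W] in
theorem ShPar.r1_le : Q.r1 ≤ 2 ^ Q.N * Q.r1 := by
  have h1 : (1 : ℝ) ≤ 2 ^ Q.N := one_le_pow₀ (by norm_num)
  have h2 : 0 < Q.r1 := lt_of_lt_of_le (by have := Q.R_pos; linarith) Q.ε_r1
  nlinarith

omit [FiniteDimensional ℝ V] [FiniteDimensional ℝ W] [MeasurableSpace W] [BorelSpace W] in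
theorem ShPar.twoR_lt : 2 * (Real.exp (5 * Real.pi) * Q.ε) < d :=
  lt_of_le_of_lt (Q.ε_r1.trans Q.r1_le) Q.r2_lt

omit [FiniteDimensional ℝ V] [FiniteDimensional ℝ W] [MeasurableSpace W] [BorelSpace W] in
theorem ShPar.eps_lt_R : Q.ε < Real.exp (5 * Real.pi) * Q.ε := by
  have h1 : (1 : ℝ) < Real.exp (5 * Real.pi) := Real.one_lt_exp_iff.2 (by positivity)
  have := Q.ε_pos
  nlinarith

omit [FiniteDimensional ℝ V] [FiniteDimensional ℝ W] [MeasurableSpace W] [BorelSpace W] in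
theorem ShPar.T_lt_T2 : Q.T < Q.T2 := by
  have := Q.T_lt; have := Q.T12; have := Q.L_pos; linarith

end parlemmas

/-- the profile data of the parameters. -/
theorem sh_par_prof (hG : ShGauge C β Fp δ d Cc CF Tg) {p : ℝ} (Q : ShPar C β p δ d Cc Tg) :
    ShProf C β {z | δ z ≤ d} {z | δ z ≤ Real.exp (5 * Real.pi) * Q.ε} Q.T (fun z => Q.U (δ z)) Q.w (Q.T2 + 1) Q.Tw' where
  S0_cpt := hG.cpt
  thr := Q.thr
  S1_sub := fun z (hz : δ z ≤ _) => by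
    show δ z ≤ d
    have := Q.twoR_lt; have := Q.R_pos; linarith
  S1_closed := hG.isClosed_le (by have := Q.twoR_lt; have := Q.R_pos; linarith)
  u_cont := Q.U_cont.comp_continuousOn hG.cont
  u_bot := fun z (hz : ¬ δ z ≤ _) => Q.U_bot _ (not_le.1 hz).le
  T_lt := by have := Q.T_lt_T2; linarith
  Tw_lt := Q.Tw_lt
  w_cont := Q.w_cont
  w_bot := Q.w_bot
  w_top := Q.w_top

/-- **the lifted triple is a forcing triple** (P Lemma D.5). -/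
theorem sh_par_force (hC : C.Ok) (hG : ShGauge C β Fp δ d Cc CF Tg) {j : C.B.J}
    (Q : ShPar C β (C.B.pst j) δ d Cc Tg) : ShForce C j Q.S Q.u Q.D Q.K := by
  have H := sh_par_prof hG Q
  have hR := Q.R_pos
  have h2R := Q.twoR_lt
  have hεR := Q.eps_lt_R
  have hε := Q.ε_pos
  have hTT2 := Q.T_lt_T2
  have hTw := Q.Tw_lt
  have hD00 : ∀ z, z ∉ {z | δ z ≤ d} → Q.D0 z = 0 := fun z (hz : ¬ δ z ≤ d) =>
    Q.D0_zero z (Or.inr (by have := not_le.1 hz; linarith))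
  have hK0 : {z | δ z < Q.ε / 2} ⊆ {z | δ z ≤ d} := fun z (hz : δ z < Q.ε / 2) => by
    show δ z ≤ d
    linarith
  have hKε : {z | δ z < Q.ε} ⊆ {z | δ z ≤ d} := fun z (hz : δ z < Q.ε) => by
    show δ z ≤ d
    linarith
  refine ⟨⟨fun α => sh_liftU_cont hC H α, sh_liftU_compat hC H⟩, ?_, ⟨fun α => ?_, ?_⟩, ?_, ?_, ?_, ?_, ?_⟩
  · -- slope
    intro α z hz h1 h2
    refine sh_liftU_slope hC H (hC.base.pst_pos j) Q.w_der Q.D0_nonneg ?_ (fun s => (Q.χ_01 s).1) Q.χ_one hz h1 h2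
    intro y _ hy1 hy2
    have a1 : Q.ε < δ y := by
      by_contra hcon
      exact hy1 (Q.U_top _ (not_lt.1 hcon))
    have a2 : δ y < Real.exp (5 * Real.pi) * Q.ε := by
      by_contra hcon
      exact hy2 (Q.U_bot _ (not_lt.1 hcon))
    refine sh_slope_mono (sh_shell_slope hC hG hε (by linarith) Q.U_der Q.U_cont a1 a2) ?_
    have := Q.D0_ge y a1.le a2.le
    linarith
  · exact sh_liftD_smooth hC hG.cpt Q.thr Q.D0_sm hD00 Q.χ_sm hTT2 Q.χ_zero α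
  · exact sh_liftD_compat hC hG.cpt Q.thr hD00 Q.χ_one
  · exact sh_liftD_nonneg C β Q.D0_nonneg (fun s => (Q.χ_01 s).1)
  · exact sh_liftK_relOpen hC Q.thr hK0 (fun z hz => hG.relOpen_lt (by linarith) hz) (by linarith)
  · exact sh_liftK_compat hC hG.cpt Q.thr hK0 _
  · -- poles
    intro α z hz hzc
    have h1 : z ∈ C.liftS β {z | δ z ≤ Q.ε / 2} (Q.Tw' + 1) :=
      sh_liftK_closure hC Q.thr (fun y (hy : δ y < Q.ε / 2) => hy.le)
        (fun y (hy : δ y ≤ Q.ε / 2) => by show δ y ≤ d; linarith)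
        (hG.isClosed_le (by linarith)) (by linarith) hz hzc
    have h2 : z ∈ C.liftK β {z | δ z < Q.ε} Q.Tw' :=
      sh_liftS_subset_liftK (fun y (hy : δ y ≤ Q.ε / 2) => by show δ y < Q.ε; linarith) (by linarith) h1
    obtain ⟨N, hN, hsub⟩ := sh_liftK_relOpen hC Q.thr hKε (fun z hz => hG.relOpen_lt (by linarith) hz)
      (by linarith : Q.T ≤ Q.Tw') α z ⟨h2, hz⟩
    refine ⟨N, hN, fun y hy => ?_⟩
    exact sh_liftU_top hC H (K1 := {z | δ z < Q.ε}) (fun y (hy : δ y < Q.ε) => Q.U_top _ hy.le)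
      (sh_liftK_subset_liftS subset_rfl le_rfl (hsub hy))
  · -- off the support
    intro α z hz hzS
    obtain ⟨N, hN, hoff⟩ := sh_liftS_closed hC Q.thr
      (K0 := {z | δ z ≤ 2 * (Real.exp (5 * Real.pi) * Q.ε)}) (fun y (hy : δ y ≤ _) => by show δ y ≤ d; linarith)
      (hG.isClosed_le h2R.le) hTT2 hz hzS
    refine ⟨N, hN, fun y hy => ⟨?_, ?_, ?_⟩⟩
    · refine sh_liftU_bot hC H fun hcon => hoff y hy ?_
      exact sh_liftS_mono (fun x (hx : δ x ≤ _) => by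
        show δ x ≤ 2 * (Real.exp (5 * Real.pi) * Q.ε)
        linarith) (by linarith) hcon
    · by_contra hne
      refine hoff y hy (sh_liftK_subset_liftS subset_rfl le_rfl
        (sh_liftD_supp hC (S0 := {z | δ z ≤ 2 * (Real.exp (5 * Real.pi) * Q.ε)}) ?_ Q.χ_zero hne))
      intro x (hx : ¬ δ x ≤ _)
      exact Q.D0_zero x (Or.inr (not_le.1 hx).le)
    · intro hyK
      refine hoff y hy (sh_liftK_subset_liftS (fun x (hx : δ x < Q.ε / 2) => ?_) (by linarith) hyK)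
      show δ x ≤ 2 * (Real.exp (5 * Real.pi) * Q.ε)
      linarith

/-- elementary properties of the lifted triple. -/
theorem sh_par_basic (hC : C.Ok) (hG : ShGauge C β Fp δ d Cc CF Tg) {p : ℝ} (Q : ShPar C β p δ d Cc Tg) :
    Fp ⊆ Q.K ∧ Q.K ⊆ tot C.P.E ∧ (∀ z, z ∉ tot C.P.E → Q.u z = ⊥ ∧ Q.D z = 0) ∧
      Q.S ⊆ C.liftS β {z | δ z ≤ d} Q.T2 := by
  have hR := Q.R_pos
  have h2R := Q.twoR_lt
  have hεR := Q.eps_lt_R
  have hε := Q.ε_pos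
  refine ⟨fun z hz => ?_, sh_liftK_subset_tot _ _, fun z hz => ⟨by
      unfold ShPar.u ShCtx.liftU
      exact shGlue_of_not _ _ hz, sh_liftD_off C β _ _ hz⟩,
    sh_liftS_mono (fun y (hy : δ y ≤ _) => by show δ y ≤ d; linarith) le_rfl⟩
  have h0 : δ z = 0 := (hG.zero z).2 hz
  refine sh_liftK_self hC (fun y (hy : δ y < Q.ε / 2) => hG.sub y (by linarith)) _ ?_
  show δ z < Q.ε / 2
  rw [h0]; linarith

/-! ### the budget -/

theorem shW_nonneg (d ρ s : ℝ) : 0 ≤ shW d ρ s := by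
  unfold shW
  split_ifs <;> positivity

omit [Fintype ι] [FiniteDimensional ℝ V] [FiniteDimensional ℝ W] [MeasurableSpace W] [BorelSpace W] in
theorem shWt_nonneg (F : Frame V W ι) (α : Stat ι) (J : Finset ι) (T : ℝ) (δ : W → ℝ) (d ρ : ℝ) (z : W) :
    0 ≤ shWt F α J T δ d ρ z :=
  Set.indicator_nonneg (fun _ _ => shW_nonneg _ _ _) _

omit [Fintype ι] [FiniteDimensional ℝ V] [FiniteDimensional ℝ W] [MeasurableSpace W] [BorelSpace W] in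
theorem shWt_of_mem {F : Frame V W ι} {α : Stat ι} {J : Finset ι} {T : ℝ} (δ : W → ℝ) (d ρ : ℝ) {z : W}
    (hz : z ∈ F.tailS α J T) : shWt F α J T δ d ρ z = shW d ρ (δ (F.dropS J z)) :=
  Set.indicator_of_mem hz _

omit [Fintype ι] [FiniteDimensional ℝ V] [FiniteDimensional ℝ W] [MeasurableSpace W] [BorelSpace W] in
theorem Frame.tailS_mono (F : Frame V W ι) (α : Stat ι) (J : Finset ι) {T T' : ℝ} (h : T ≤ T') :
    F.tailS α J T' ⊆ F.tailS α J T := fun _ hz j hj => lt_of_le_of_lt h (hz j hj)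

omit [Fintype ι] [FiniteDimensional ℝ V] [FiniteDimensional ℝ W] in
theorem Frame.measurableSet_tailS (F : Frame V W ι) (α : Stat ι) (J : Finset ι) (T : ℝ) :
    MeasurableSet (F.tailS α J T) := by
  have : F.tailS α J T = ⋂ j ∈ J, {z | T < (α j : ℝ) * F.t j z} := by
    ext z; simp [Frame.tailS]
  rw [this]
  exact Finset.measurableSet_biInter _ fun j _ =>
    measurableSet_lt measurable_const (continuous_const.mul (F.t j).continuous).measurable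

theorem sh_wt_measurable (hC : C.Ok) (hG : ShGauge C β Fp δ d Cc CF Tg) (α : Stat ι) (J : Finset ι) (ρ : ℝ) :
    Measurable (shWt C.F α J Tg δ d ρ) :=
  Measurable.indicator ((hG.measurable_w hC ρ).comp (C.F.continuous_dropS J).measurable)
    (C.F.measurableSet_tailS α J Tg)

omit [Fintype ι] [FiniteDimensional ℝ V] [FiniteDimensional ℝ W] [MeasurableSpace W] [BorelSpace W] in
/-- `gradSq` vanishes off the manifold (junk value). -/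
theorem sh_gradSq_off {k : ℕ} {M : Set W} {g : Ten W} {f : W → ℝ} {x : W} (hx : x ∉ M) : gradSq k M g f x = 0 := by
  unfold gradSq pv
  have : {r | ∃ (ψ : E k → W) (U : Set (E k)) (u : E k), IsParam M ψ U ∧ u ∈ U ∧ ψ u = x ∧
      r = gradSqC (cm g ψ) (f ∘ ψ) u} = ∅ := by
    ext r
    simp only [Set.mem_setOf_eq, Set.mem_empty_iff_false, iff_false]
    rintro ⟨ψ, U, u, hp, hu, rfl, _⟩
    obtain ⟨O, _, hO⟩ := hp.2.2.2.2.1
    have : ψ u ∈ M ∩ O := hO ▸ Set.mem_image_of_mem ψ hu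
    exact hx this.1
  rw [this, Real.sSup_empty]

/-- the budget for one abstract form on a coface. -/
theorem sh_par_bud_form (hC : C.Ok) (hG : ShGauge C β Fp δ d Cc CF Tg) {p : ℝ} (Q : ShPar C β p δ d Cc Tg) {Vo : W → ℝ}
    {θ γ Vmax : ℝ} (hVc : ∀ α, ContinuousOn Vo (C.P.E α)) (hV0 : ∀ z, 0 ≤ Vo z) (hVm : 0 ≤ Vmax)
    (hVmax : ∀ z ∈ tot C.P.E, C.F.q z ∈ C.F.q '' {z | δ z ≤ d} → Vo z ≤ Vmax)
    (hθ : 0.78 ≤ θ) (hθ1 : θ ≤ 1) (hγ : 0 < γ)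
    (hnum1 : (Vmax + CF) * (2 ^ Q.N * Q.r1) ^ 2 ≤ 0.1) (hnum2 : shXi Cc Q.N / 3.4 ≤ γ)
    (hnum3 : shXi Cc Q.N * CF / 3.4 + shKap (Fintype.card ι) Q.C0 Q.L ≤ γ * C.e0) {α : Stat ι} (hα : β.IsCof α)
    (𝔉 : ShForm W) (hOk : 𝔉.Ok (C.P.E α))
    (hIms : ∀ ϑ G : W → ℝ, SmoothAlong (C.m α) (C.P.E α) ϑ →
      (∀ x ∈ C.P.E α, 1.7 * gradSq (C.m α) (C.P.E α) C.P.h ϑ x ≤ G x) → 𝔉.Ims ϑ G)
    (hold : 𝔉.Bud Vo θ C.e0 0)
    (hhy : ∀ ρ, 0 < ρ → 𝔉.Bud (fun z => 3.4 * shWt C.F α (β.cofJ α) Tg δ d ρ z) 1 0 CF) :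
    𝔉.Bud (fun z => Vo z + 1.16 * Q.D z) (θ + γ) C.e0 0 := by
  classical
  set J := β.cofJ α with hJ
  have hcl : IsClosed (C.P.E α) := hC.inv.diag.closed α
  have hmfd : IsMfd (C.m α) (C.P.E α) := hC.inv.diag.mfd α
  have hmet : IsMetricOn (C.m α) (C.P.E α) C.P.h := hC.inv.met.met α
  have hR := Q.R_pos
  have h2R := Q.twoR_lt
  have hε := Q.ε_pos
  have hr1 : 0 < Q.r1 := lt_of_lt_of_le (by linarith) Q.ε_r1
  have hr2 : 0 < 2 ^ Q.N * Q.r1 := by positivity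
  have hTT2 := Q.T_lt_T2
  have hD00 : ∀ z, z ∉ {z | δ z ≤ d} → Q.D0 z = 0 := fun z (hz : ¬ δ z ≤ d) =>
    Q.D0_zero z (Or.inr (by have := not_le.1 hz; linarith))
  have ha00 : ∀ z, z ∉ {z | δ z ≤ d} → Q.a z = 0 := fun z (hz : ¬ δ z ≤ d) =>
    Q.a_zero z (by have := not_le.1 hz; have := Q.r2_lt; linarith)
  have hDsm : SmoothAlong (C.m α) (C.P.E α) Q.D :=
    sh_liftD_smooth hC hG.cpt Q.thr Q.D0_sm hD00 Q.χ_sm hTT2 Q.χ_zero α
  have hLsm : SmoothAlong (C.m α) (C.P.E α) (C.liftD β Q.a Q.b) :=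
    sh_liftD_smooth hC hG.cpt Q.thr Q.a_sm ha00 Q.b_sm Q.T_lt Q.b_zero α
  have hAsm : SmoothAlong (C.m α) (C.P.E α) Q.ang := gs_sm_smul (Real.pi / 2) hLsm
  have hM0 : ∀ v, 𝔉.m v (C.P.E α)ᶜ = 0 := by
    intro v
    obtain ⟨K, _, hKM, hK0⟩ := hOk.cs v
    exact measure_mono_null (Set.compl_subset_compl.2 hKM) hK0
  -- pointwise formulas
  have fD : ∀ z ∈ C.P.E α, Q.D z = Q.D0 (C.F.dropS J z) * ∏ j ∈ J, Q.χ ((α j : ℝ) * C.F.t j z) :=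
    fun z hz => sh_liftD_cof hC _ _ hα hz
  have fA : ∀ z ∈ C.P.E α, C.liftD β Q.a Q.b z = Q.a (C.F.dropS J z) * ∏ j ∈ J, Q.b ((α j : ℝ) * C.F.t j z) :=
    fun z hz => sh_liftD_cof hC _ _ hα hz
  have hDne : ∀ z ∈ C.P.E α, Q.D z ≠ 0 → Q.D0 (C.F.dropS J z) ≠ 0 ∧ z ∈ C.F.tailS α J Q.T2 := by
    intro z hz hne
    rw [fD z hz] at hne
    refine ⟨left_ne_zero_of_mul hne, fun j hj => ?_⟩
    by_contra hcon
    exact (Finset.prod_ne_zero_iff.1 (right_ne_zero_of_mul hne)) j hj (Q.χ_zero _ (not_lt.1 hcon))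
  have hAne : ∀ z ∈ C.P.E α, C.liftD β Q.a Q.b z ≠ 0 → Q.a (C.F.dropS J z) ≠ 0 ∧ z ∈ C.F.tailS α J Q.T1 := by
    intro z hz hne
    rw [fA z hz] at hne
    refine ⟨left_ne_zero_of_mul hne, fun j hj => ?_⟩
    by_contra hcon
    exact (Finset.prod_ne_zero_iff.1 (right_ne_zero_of_mul hne)) j hj (Q.b_zero _ (not_lt.1 hcon))
  have hξ0 : 0 ≤ shXi Cc Q.N := by unfold shXi; positivity
  have hκ0 : 0 ≤ shKap (Fintype.card ι) Q.C0 Q.L := by unfold shKap; positivity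
  refine sh_max 𝔉 (C.P.E α) hOk.N_nonneg hOk.fin hM0 (Vo := Vo) (Dn := fun z => 1.16 * Q.D z) (ϑ := Q.ang)
    (G := fun z => shXi Cc Q.N * shWt C.F α J Tg δ d Q.r1 z + shKap (Fintype.card ι) Q.C0 Q.L)
    (wt := fun ρ => shWt C.F α J Tg δ d ρ) (CF := CF) (Vmax := Vmax) (r1 := Q.r1) (r2 := 2 ^ Q.N * Q.r1)
    (ρ0 := Q.ε / 2) (ξ := shXi Cc Q.N) (κ := shKap (Fintype.card ι) Q.C0 Q.L)
    (fun v => sh_aemeasurable hOk hcl (hVc α) v)
    (fun v => sh_aemeasurable hOk hcl (continuousOn_const.mul (if_smoothAlong_continuousOn hmfd hDsm)) v)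
    (fun v => sh_aemeasurable hOk hcl (if_smoothAlong_continuousOn hmfd hAsm) v)
    (fun ρ v => (sh_wt_measurable hC hG α J ρ).aemeasurable)
    hθ hθ1 hγ hC.e0_pos hG.CF_nonneg hVm hr1 hr2 (by linarith) hξ0 hκ0 hold hhy ?_
    (fun ρ x _ => shWt_nonneg _ _ _ _ _ _ _ _) (fun x _ => hV0 x) ?_ ?_ ?_ (fun x _ => le_rfl) hnum1 hnum2 hnum3
  · -- IMS
    refine hIms _ _ hAsm fun x hx => ?_
    have e1 : gradSq (C.m α) (C.P.E α) C.P.h Q.ang x =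
        (Real.pi / 2) ^ 2 * gradSq (C.m α) (C.P.E α) C.P.h (C.liftD β Q.a Q.b) x :=
      gs_sq_smul hmfd hmet (Real.pi / 2) hLsm hx
    have e2 := sh_liftD_grad hC hG.cpt Q.thr Q.a_sm ha00
      (fun z => abs_le.2 ⟨by have := (Q.a_01 z).1; linarith, (Q.a_01 z).2⟩) Q.b_sm Q.T_lt Q.b_zero
      (fun s => abs_le.2 ⟨by have := (Q.b_01 s).1; linarith, (Q.b_01 s).2⟩) hα hx
    have e3 : (C.F.tailS α J Q.T1).indicator (fun z =>
        gradSq (C.m β) (C.P.E β) C.P.h Q.a (C.F.dropS J z) + ∑ j ∈ J, deriv Q.b ((α j : ℝ) * C.F.t j z) ^ 2) x ≤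
        (4 * Cc / Q.N) ^ 2 * shWt C.F α J Tg δ d Q.r1 x + (Fintype.card ι : ℝ) * (Q.C0 / Q.L) ^ 2 := by
      by_cases hxt : x ∈ C.F.tailS α J Q.T1
      · rw [Set.indicator_of_mem hxt,
          shWt_of_mem δ d Q.r1 (C.F.tailS_mono α J (Q.Tg_le.trans Q.T_lt.le) hxt)]
        have g1 : gradSq (C.m β) (C.P.E β) C.P.h Q.a (C.F.dropS J x) ≤
            (4 * Cc / Q.N) ^ 2 * shW d Q.r1 (δ (C.F.dropS J x)) := by
          by_cases hm : C.F.dropS J x ∈ C.P.E β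
          · exact Q.a_grad _ hm
          · rw [sh_gradSq_off hm]
            exact mul_nonneg (by positivity) (shW_nonneg _ _ _)
        have g2 : ∑ j ∈ J, deriv Q.b ((α j : ℝ) * C.F.t j x) ^ 2 ≤ (Fintype.card ι : ℝ) * (Q.C0 / Q.L) ^ 2 := by
          calc ∑ j ∈ J, deriv Q.b ((α j : ℝ) * C.F.t j x) ^ 2 ≤ ∑ _j ∈ J, (Q.C0 / Q.L) ^ 2 :=
                Finset.sum_le_sum fun j _ => by
                  rw [← sq_abs]
                  exact pow_le_pow_left₀ (abs_nonneg _) (Q.b_der _) 2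
            _ = (J.card : ℝ) * (Q.C0 / Q.L) ^ 2 := by rw [Finset.sum_const, nsmul_eq_mul]
            _ ≤ (Fintype.card ι : ℝ) * (Q.C0 / Q.L) ^ 2 := by
                refine mul_le_mul_of_nonneg_right ?_ (by positivity)
                exact_mod_cast Finset.card_le_univ J
        linarith
      · rw [Set.indicator_of_notMem hxt]
        exact add_nonneg (mul_nonneg (by positivity) (shWt_nonneg _ _ _ _ _ _ _ _)) (by positivity)
    have e4 : gradSq (C.m α) (C.P.E α) C.P.h (C.liftD β Q.a Q.b) x ≤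
        (4 * Cc / Q.N) ^ 2 * shWt C.F α J Tg δ d Q.r1 x + (Fintype.card ι : ℝ) * (Q.C0 / Q.L) ^ 2 := e2.trans e3
    rw [e1]
    have hpos : (0 : ℝ) ≤ 1.7 * (Real.pi / 2) ^ 2 := by positivity
    have := mul_le_mul_of_nonneg_left e4 hpos
    unfold shXi shKap
    nlinarith [this]
  · -- the new potential
    intro x hx
    have h0 : 0 ≤ Q.D x := sh_liftD_nonneg C β Q.D0_nonneg (fun s => (Q.χ_01 s).1) x
    refine ⟨by positivity, ?_⟩
    by_cases hne : Q.D x = 0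
    · rw [hne]
      have := shWt_nonneg C.F α J Tg δ d (Q.ε / 2) x
      nlinarith
    · obtain ⟨_, ht⟩ := hDne x hx hne
      rw [shWt_of_mem δ d (Q.ε / 2) (C.F.tailS_mono α J (Q.Tg_le.trans hTT2.le) ht)]
      have h1 : Q.D x ≤ Q.D0 (C.F.dropS J x) := by
        rw [fD x hx]
        exact mul_le_of_le_one_right (Q.D0_nonneg _)
          (Finset.prod_le_one (fun j _ => (Q.χ_01 _).1) (fun j _ => (Q.χ_01 _).2))
      have h2 := Q.D0_le (C.F.dropS J x)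
      nlinarith
  · -- cos
    intro x hx hne
    have hne' : Q.D x ≠ 0 := fun h => hne (by simp [h])
    obtain ⟨hD0, ht⟩ := hDne x hx hne'
    have h1 : δ (C.F.dropS J x) < 2 * (Real.exp (5 * Real.pi) * Q.ε) := by
      by_contra hcon
      exact hD0 (Q.D0_zero _ (Or.inr (not_lt.1 hcon)))
    have h2 : Q.a (C.F.dropS J x) = 1 := Q.a_one _ (h1.le.trans Q.ε_r1)
    have h3 : ∏ j ∈ J, Q.b ((α j : ℝ) * C.F.t j x) = 1 :=
      Finset.prod_eq_one fun j hj => Q.b_one _ (Q.T12.trans (ht j hj).le)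
    have h4 : Q.ang x = Real.pi / 2 := by
      unfold ShPar.ang
      rw [fA x hx, h2, h3]; ring
    rw [h4, Real.cos_pi_div_two]
  · -- sin
    intro x hx hne
    have hne' : C.liftD β Q.a Q.b x ≠ 0 := by
      intro h
      apply hne
      unfold ShPar.ang
      rw [h]; simp
    obtain ⟨ha, ht⟩ := hAne x hx hne'
    have h1 : δ (C.F.dropS J x) < 2 ^ Q.N * Q.r1 := by
      by_contra hcon
      exact ha (Q.a_zero _ (not_lt.1 hcon))
    refine ⟨hVmax x (Set.mem_iUnion.2 ⟨α, hx⟩) ⟨C.F.dropS J x, (h1.trans Q.r2_lt).le, C.F.q_dropS J x⟩, ?_⟩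
    rw [shWt_of_mem δ d _ (C.F.tailS_mono α J (Q.Tg_le.trans Q.T_lt.le) ht)]
    unfold shW
    rw [if_pos (h1.trans Q.r2_lt), max_eq_right h1.le]

/-- **the budget after the addition** (P Lemmas D.3, D.4). -/
theorem sh_par_bud (hC : C.Ok) (hG : ShGauge C β Fp δ d Cc CF Tg) {p : ℝ} (Q : ShPar C β p δ d Cc Tg) {Vo : W → ℝ}
    {θ γ Vmax : ℝ} (hVc : ∀ α, ContinuousOn Vo (C.P.E α)) (hV0 : ∀ z, 0 ≤ Vo z) (hVm : 0 ≤ Vmax)
    (hVmax : ∀ z ∈ tot C.P.E, C.F.q z ∈ C.F.q '' {z | δ z ≤ d} → Vo z ≤ Vmax)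
    (hold : ∀ α, C.Bud α Vo θ C.e0 0) (hθ : 0.78 ≤ θ) (hθ1 : θ ≤ 1) (hγ : 0 < γ)
    (hnum1 : (Vmax + CF) * (2 ^ Q.N * Q.r1) ^ 2 ≤ 0.1) (hnum2 : shXi Cc Q.N / 3.4 ≤ γ)
    (hnum3 : shXi Cc Q.N * CF / 3.4 + shKap (Fintype.card ι) Q.C0 Q.L ≤ γ * C.e0) (α : Stat ι) :
    C.Bud α (fun z => Vo z + 1.16 * Q.D z) (θ + γ) C.e0 0 := by
  by_cases hα : β.IsCof α
  · refine sh_three hC α (D2 := fun ρ z => 3.4 * shWt C.F α (β.cofJ α) Tg δ d ρ z) (CF' := CF)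
      (fun 𝔉 hOk hIms h1 h2 => sh_par_bud_form hC hG Q hVc hV0 hVm hVmax hθ hθ1 hγ hnum1 hnum2 hnum3 hα 𝔉 hOk hIms h1 h2)
      (hold α) (fun ρ hρ => hG.hy α (β.cofJ α) (fun j hj => (Stat.mem_cofJ.1 hj).2) hα.faceS ρ hρ)
  · refine sh_three hC α (D2 := fun _ _ => 0) (CF' := 0) (fun 𝔉 hOk _ h1 _ => ?_) (hold α) (fun ρ _ => ?_)
    · have hM0 : ∀ v, 𝔉.m v (C.P.E α)ᶜ = 0 := by
        intro v
        obtain ⟨K, _, hKM, hK0⟩ := hOk.cs v
        exact measure_mono_null (Set.compl_subset_compl.2 hKM) hK0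
      refine h1.mono hOk.N_nonneg hM0 (fun x hx => ?_) (by linarith) hC.e0_pos.le le_rfl
      have : Q.D x = 0 := sh_liftD_not hC _ _ hα hx
      rw [this]; simp
    · exact ⟨ShForm.bud_zero (M := Set.univ) (by simp) (fun _ _ => le_rfl) _ _ _,
        ShForm.bud_zero (M := Set.univ) (by simp) (fun _ _ => le_rfl) _ _ _,
        ShForm.bud_zero (M := Set.univ) (by simp) (fun _ _ => le_rfl) _ _ _⟩

variable {hh : C.B.J → W → ℝ} {tt : C.B.J → ℝ}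

/-- **existence of a forcing triple with budget** (glue of the four lemmas above + `sh_liftS_region`, `ShState.add_*`). -/
theorem sh_force_exists (hC : C.Ok) {θ γ : ℝ} {P1 : PData W ι C.B.J} (hS : ShState C hh tt θ P1) (hθ : 0.78 ≤ θ)
    (hθ1 : θ ≤ 1) (hγ : 0 < γ) {j : C.B.J} (hj : j ∈ C.R) (hG : ShGauge C β Fp δ d Cc CF Tg) {Rg : W → Prop}
    (hRg : Compat C.F C.P.E Rg) (hRg0 : ∀ z, δ z ≤ d → Rg z) :
    ∃ (S : Set W) (u : W → EReal) (D : W → ℝ) (K : Set W), ShForce C j S u D K ∧ (∀ z ∈ S, Rg z) ∧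
      (∀ z ∈ S, C.F.q z ∈ C.F.q '' {z | δ z ≤ d}) ∧ K ⊆ tot C.P.E ∧ (∀ z, z ∉ tot C.P.E → u z = ⊥ ∧ D z = 0) ∧
      Fp ⊆ K ∧ ∀ α, C.Bud α (fun z => 1.16 * C.add P1 z + 1.16 * D z) (θ + γ) C.e0 0 := by
  obtain ⟨Vmax, hV0, hVmax⟩ := hS.add_bdd hC (hG.cpt.image C.F.q.continuous)
  obtain ⟨T1, hT1⟩ := sh_liftS_region hC hG.cpt (fun z hz => hG.sub z hz) hRg (fun z hz => hRg0 z hz)
  obtain ⟨Q, hQT, h1, h2, h3⟩ := sh_par_exists hC hG (hC.base.pst_pos j) hV0 hγ T1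
  obtain ⟨b1, b2, b3, b4⟩ := sh_par_basic hC hG Q
  refine ⟨Q.S, Q.u, Q.D, Q.K, sh_par_force hC hG Q, fun z hz => hT1 _ hQT z (b4 hz),
    fun z hz => sh_liftS_q (b4 hz), b2, b3, b1, fun α => ?_⟩
  exact sh_par_bud hC hG Q (fun α => continuousOn_const.mul (hS.add_cont hC α))
    (fun z => mul_nonneg (by norm_num) (hS.add_nonneg z)) hV0 hVmax hS.budget hθ hθ1 hγ h1 h2 h3 α

/-- **ONE PLUS ADDITION.** -/
theorem sh_add_up (hC : C.Ok) (hA : ShAnchor C hh tt) {θ γ : ℝ} {P1 : PData W ι C.B.J} (hS : ShState C hh tt θ P1)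
    (hθ : 0.78 ≤ θ) (hθ1 : θ ≤ 1) (hγ : 0 < γ) {j : C.B.J} (hj : j ∈ C.R) (hG : ShGauge C β Fp δ d Cc CF Tg)
    (hreg : ∀ z, δ z ≤ d → tt j < hh j z) :
    ∃ P2, ShState C hh tt (θ + γ) P2 ∧ ShExt C P1 P2 (C.F.q '' {z | δ z ≤ d}) ∧ Fp ⊆ P2.Up j := by
  have hRg : Compat C.F C.P.E (fun z => tt j < hh j z) := by
    intro i K hK
    obtain ⟨R, hR⟩ := (hA.cc j hj).2 i K hK
    exact ⟨R, fun z hz hq hlt => by simp only [hR z hz hq hlt]⟩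
  obtain ⟨S, u, D, K, hF, hSR, hSq, hK, hu, hFp, hbud⟩ := sh_force_exists hC hS hθ hθ1 hγ hj hG hRg hreg
  refine ⟨P1.forceUp j u D K, sh_force_up hC hA hS hj hF hSR hbud, (sh_force_ext hS.E_eq hF hK hu hSq).1, ?_⟩
  intro z hz
  simp only [PData.forceUp, Function.update_self]
  exact Or.inr (hFp hz)

/-- **ONE MINUS ADDITION.** -/
theorem sh_add_un (hC : C.Ok) (hA : ShAnchor C hh tt) {θ γ : ℝ} {P1 : PData W ι C.B.J} (hS : ShState C hh tt θ P1)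
    (hθ : 0.78 ≤ θ) (hθ1 : θ ≤ 1) (hγ : 0 < γ) {j : C.B.J} (hj : j ∈ C.R) (hG : ShGauge C β Fp δ d Cc CF Tg)
    (hreg : ∀ z, δ z ≤ d → hh j z < tt j) :
    ∃ P2, ShState C hh tt (θ + γ) P2 ∧ ShExt C P1 P2 (C.F.q '' {z | δ z ≤ d}) ∧ Fp ⊆ P2.Un j := by
  have hRg : Compat C.F C.P.E (fun z => hh j z < tt j) := by
    intro i K hK
    obtain ⟨R, hR⟩ := (hA.cc j hj).2 i K hK
    exact ⟨R, fun z hz hq hlt => by simp only [hR z hz hq hlt]⟩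
  obtain ⟨S, u, D, K, hF, hSR, hSq, hK, hu, hFp, hbud⟩ := sh_force_exists hC hS hθ hθ1 hγ hj hG hRg hreg
  refine ⟨P1.forceUn j u D K, sh_force_un hC hA hS hj hF hSR hbud, (sh_force_ext hS.E_eq hF hK hu hSq).2, ?_⟩
  intro z hz
  simp only [PData.forceUn, Function.update_self]
  exact Or.inr (hFp hz)

end Claimed.Agent.R315
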