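import Claimed.Agent.R315.Sh.Need
import Claimed.Agent.R315.Sh.Add
import Claimed.Agent.R315.Sh.Risk

/-!
# Row 315, package SH-BLOCK: finitely many additions shield a compact block (P proof of D.6, 3rd-4th paragraphs)

`sh_block`: given a state (bound `θ`), all proper faces of `β` done, `K ⊆ V` compact, `U ⊆ V` open containing `q` of the risky points over `K`:
a new state (bound `θ + γ`), extension over `U`, with `ShDone β K`.

PLAN.  `X = {z ∈ Σ_β | q z ∈ K, Cnt}` is compact (`sh_risky_compact`).  If `X = ∅` take `P2 = P1` (`ShState.mono`).  Otherwise: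
1. `Lb` = the finite set of labels of `R` which are not passive somewhere over `K` (`ShState.passive`).  Passive labels are decided.
2. `sh_tasks`: a sequence of TASKS `(jj n, sg n, Fp n, gauge n)`: for every `(j, ±) ∈ Lb × Bool` apply `sh_need_pieces` to an ambient open set `O` with
   `O ∩ E β = {z ∈ E β | ± (hh j z - tt j) > 0, q z ∈ U}` (`hh j` continuous on `E β`: `continuousOn_iff'`), and interleave the finitely many sequences (`Nat.unpair`, a list of `Lb ×ˢ univ`).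
   If `Lb = ∅` there is nothing to enumerate: use any label of `R` (`R ≠ ∅` since `X ≠ ∅` and `m β - 2 ≥ 6 > 0` by `ShAnchor.few` with `s = ∅`) with the trivial gauge `sh_gauge_trivial`.
3. `sh_seq`: recursion on `n` with `sh_add_up` / `sh_add_un`, allowance `γ/2^{n+1}`: states `Pn n` with bound `θ + γ (1 - 2^{-n}) ≤ 1`, `Fp n ⊆` the core of `jj n` in `Pn (n+1)`, hence in all later ones.
   (`Nat.rec` on the subtype `{P // ∃ bound...}` or `exists_seq_of_forall_exists`-style dependent choice; compare `pk_depChoice`, `Pk/Out.lean`.)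
4. Termination: `O_n = {z ∈ E β | ¬ (Pn n).Cnt R (m β - 2) z}` is relatively open (`sh_cnt_open`), increasing (`ShExt.cnt`).  Every `x ∈ X` lies in some `O_n`: for each `j ∈ Lb` with `hh j x ≠ tt j` some task `n_j` has `x ∈ Fp n_j` with the right
   sign, so `j` is decided at `x` in `Pn n`, `n > max n_j`; labels outside `Lb` are passive over `K` in `P1`, hence decided; so all undecided labels at `x` satisfy `hh j x = tt j`: any finset of them has `card + 8 ≤ m β` (`ShAnchor.few`), so `card < m β - 2`.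
   `IsCompact.elim_directed_cover` (or `elim_finite_subcover` + monotonicity) gives one `n` with `X ⊆ O_n`.  `P2 = Pn n`.  `ShDone C P2 β K`: a point of `Σ_β` over `K` with `Cnt` for `P2` has `Cnt` for `P1` (`ShExt.cnt`), so it lies in `X ⊆ O_n`: contradiction.
-/

set_option autoImplicit false
open scoped ContDiff ENNReal Topology
open MeasureTheory Claims.C0499 Filter

namespace Claimed.Agent.R315

variable {V W : Type} [NormedAddCommGroup V] [NormedSpace ℝ V] [NormedAddCommGroup W] [NormedSpace ℝ W] {ι : Type}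
  [FiniteDimensional ℝ V] [FiniteDimensional ℝ W] [Fintype ι] [MeasurableSpace W] [BorelSpace W]
  {C : ShCtx V W ι} {hh : C.B.J → W → ℝ} {tt : C.B.J → ℝ}

/-- the trivial gauge. -/
theorem sh_gauge_trivial (_hC : C.Ok) (β : Stat ι) : ShGauge C β ∅ (fun _ => 2) 1 1 0 0 :=
  sc_gauge_trivial C β

/-- a task: label, sign, piece, gauge. -/
structure ShTask (C : ShCtx V W ι) (hh : C.B.J → W → ℝ) (tt : C.B.J → ℝ) (β : Stat ι) (U : Set V) where
  j : C.B.J
  sg : Bool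
  Fp : Set W
  δ : W → ℝ
  d : ℝ
  Cc : ℝ
  CF : ℝ
  T : ℝ
  j_mem : j ∈ C.R
  gauge : ShGauge C β Fp δ d Cc CF T
  q_mem : ∀ z, δ z ≤ d → C.F.q z ∈ U
  region : ∀ z, δ z ≤ d → if sg = true then tt j < hh j z else hh j z < tt j

/-- the singular set lies in the status space. -/
theorem sh_sig_subset (C : ShCtx V W ι) (β : Stat ι) : C.Sig β ⊆ C.P.E β :=
  fun _ hz => ct_bd_subset _ hz.1

/-- **enumeration of the signed pieces.** -/
theorem sh_tasks (hC : C.Ok) (hA : ShAnchor C hh tt) (β : Stat ι) {U : Set V} (hU : IsOpen U) (hR : C.R.Nonempty)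
    (Lb : Finset C.B.J) (hL : ∀ j ∈ Lb, j ∈ C.R) :
    ∃ τ : ℕ → ShTask C hh tt β U, ∀ z ∈ C.Sig β, C.F.q z ∈ U → ∀ j ∈ Lb, hh j z ≠ tt j →
      ∃ n, (τ n).j = j ∧ z ∈ (τ n).Fp := by
  classical
  obtain ⟨j0, hj0⟩ := hR
  let τ0 : ShTask C hh tt β U := ⟨j0, true, ∅, fun _ => 2, 1, 1, 0, 0, hj0, sh_gauge_trivial hC β,
    fun z hz => absurd hz (by norm_num), fun z hz => absurd hz (by norm_num)⟩
  have key : ∀ (j : C.B.J) (sg : Bool), j ∈ C.R → ∃ σ : ℕ → ShTask C hh tt β U, (∀ n, (σ n).j = j) ∧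
      ∀ z ∈ C.Sig β, C.F.q z ∈ U → (if sg = true then tt j < hh j z else hh j z < tt j) → ∃ n, z ∈ (σ n).Fp := by
    intro j sg hj
    have hcont : ContinuousOn (hh j) (C.P.E β) := (hA.cc j hj).1 β
    obtain ⟨I, hI, hIiff⟩ : ∃ I : Set ℝ, IsOpen I ∧
        ∀ x : ℝ, x ∈ I ↔ (if sg = true then tt j < x else x < tt j) := by
      cases sg
      · exact ⟨Set.Iio (tt j), isOpen_Iio, fun x => by simp⟩
      · exact ⟨Set.Ioi (tt j), isOpen_Ioi, fun x => by simp⟩
    obtain ⟨u, hu, hueq⟩ := continuousOn_iff'.1 hcont I hI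
    obtain ⟨Fp, δ, d, Cc, CF, T, hG, hO, hcov⟩ :=
      sh_need_pieces C hC β (u ∩ C.F.q ⁻¹' U) (hu.inter (hU.preimage C.F.q.continuous))
    refine ⟨fun n => ⟨j, sg, Fp n, δ n, d n, Cc n, CF n, T n, hj, hG n, fun z hz => (hO n z hz).2, fun z hz => ?_⟩,
      fun _ => rfl, fun z hz hq hc => ?_⟩
    · have h1 : z ∈ hh j ⁻¹' I ∩ C.P.E β := by
        rw [hueq]
        exact ⟨(hO n z hz).1, (hG n).sub z hz⟩
      exact (hIiff _).1 h1.1
    · have h1 : z ∈ u ∩ C.P.E β := by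
        rw [← hueq]
        exact ⟨(hIiff _).2 hc, sh_sig_subset C β hz⟩
      obtain ⟨n, hn⟩ := Set.mem_iUnion.1 (hcov ⟨hz, h1.1, hq⟩)
      exact ⟨n, hn⟩
  choose σ hσj hσ using key
  have : Countable C.B.J := hC.base.cnt
  have : Nonempty (C.B.J × Bool × ℕ) := ⟨(j0, true, 0)⟩
  obtain ⟨e, he⟩ := exists_surjective_nat (C.B.J × Bool × ℕ)
  refine ⟨fun n => if h : (e n).1 ∈ C.R then σ (e n).1 (e n).2.1 h (e n).2.2 else τ0, fun z hz hq j hj hne => ?_⟩
  have hjR := hL j hj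
  obtain ⟨m, hm⟩ := hσ j (decide (tt j < hh j z)) hjR z hz hq (by
    by_cases hlt : tt j < hh j z
    · simp [hlt]
    · simpa [hlt] using lt_of_le_of_ne (not_lt.1 hlt) hne)
  obtain ⟨n, hn⟩ := he (j, decide (tt j < hh j z), m)
  refine ⟨n, ?_⟩
  have h1 : (e n).1 ∈ C.R := by rw [hn]; exact hjR
  simp only [dif_pos h1]
  constructor
  · rw [hσj, hn]
  · have : σ (e n).1 (e n).2.1 h1 (e n).2.2 = σ j (decide (tt j < hh j z)) hjR m := by
      congr 1 <;> simp [hn]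
    rw [this]
    exact hm

/-- dependent choice with an index. -/
theorem sh_depChoice {X : Type} (A : ℕ → X → Prop) (R : ℕ → X → X → Prop) (x0 : X) (h0 : A 0 x0)
    (hstep : ∀ n x, A n x → ∃ y, A (n + 1) y ∧ R n x y) :
    ∃ f : ℕ → X, f 0 = x0 ∧ (∀ n, A n (f n)) ∧ ∀ n, R n (f n) (f (n + 1)) := by
  classical
  choose! g hg using hstep
  let f : ℕ → X := fun n => Nat.rec x0 (fun k x => g k x) n
  have hf : ∀ n, A n (f n) := by
    intro n
    induction n with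
    | zero => exact h0
    | succ k ih => exact (hg k (f k) ih).1
  exact ⟨f, rfl, hf, fun n => (hg n (f n) (hf n)).2⟩

/-- the allowances `θ + γ (1 - 2^{-n})`. -/
noncomputable def shTh (θ γ : ℝ) (n : ℕ) : ℝ := θ + γ * (1 - (1 / 2) ^ n)

theorem shTh_zero (θ γ : ℝ) : shTh θ γ 0 = θ := by simp [shTh]

theorem shTh_le {θ γ : ℝ} (hγ : 0 < γ) (n : ℕ) : shTh θ γ n ≤ θ + γ := by
  have h1 : (0 : ℝ) ≤ (1 / 2) ^ n := by positivity
  have h2 : γ * (1 - (1 / 2) ^ n) ≤ γ := by nlinarith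
  simp only [shTh]; linarith

theorem shTh_ge {θ γ : ℝ} (hγ : 0 < γ) (n : ℕ) : θ ≤ shTh θ γ n := by
  have h1 : ((1 : ℝ) / 2) ^ n ≤ 1 := pow_le_one₀ (by norm_num) (by norm_num)
  have h2 : 0 ≤ γ * (1 - (1 / 2) ^ n) := mul_nonneg hγ.le (by linarith)
  simp only [shTh]; linarith

theorem shTh_succ (θ γ : ℝ) (n : ℕ) : shTh θ γ n + γ * (1 / 2) ^ (n + 1) = shTh θ γ (n + 1) := by
  simp only [shTh, pow_succ]; ring

/-- **the sequence of additions.** -/
theorem sh_seq (hC : C.Ok) (hA : ShAnchor C hh tt) {θ γ : ℝ} {P1 : PData W ι C.B.J} (hS : ShState C hh tt θ P1)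
    (hθ : 0.78 ≤ θ) (hθγ : θ + γ ≤ 1) (hγ : 0 < γ) {β : Stat ι} {U : Set V} (τ : ℕ → ShTask C hh tt β U) :
    ∃ Pn : ℕ → PData W ι C.B.J, Pn 0 = P1 ∧ (∀ n, ShState C hh tt (θ + γ) (Pn n)) ∧
      (∀ n, ShExt C (Pn n) (Pn (n + 1)) U) ∧
      ∀ n, (τ n).Fp ⊆ (Pn (n + 1)).Up (τ n).j ∪ (Pn (n + 1)).Un (τ n).j := by
  have hstep : ∀ n P, ShState C hh tt (shTh θ γ n) P → ∃ P', ShState C hh tt (shTh θ γ (n + 1)) P' ∧
      (ShExt C P P' U ∧ (τ n).Fp ⊆ P'.Up (τ n).j ∪ P'.Un (τ n).j) := by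
    intro n P hP
    have hg : 0 < γ * (1 / 2) ^ (n + 1) := by positivity
    have h1 : 0.78 ≤ shTh θ γ n := hθ.trans (shTh_ge hγ n)
    have h2 : shTh θ γ n ≤ 1 := (shTh_le hγ n).trans hθγ
    have hsub : C.F.q '' {z | (τ n).δ z ≤ (τ n).d} ⊆ U := by
      rintro _ ⟨z, hz, rfl⟩
      exact (τ n).q_mem z hz
    cases hsg : (τ n).sg with
    | true =>
      obtain ⟨P', a1, a2, a3⟩ := sh_add_up hC hA hP h1 h2 hg (τ n).j_mem (τ n).gauge
        (fun z hz => by have := (τ n).region z hz; simpa [hsg] using this)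
      exact ⟨P', by rw [← shTh_succ]; exact a1, a2.mono hsub, fun z hz => Or.inl (a3 hz)⟩
    | false =>
      obtain ⟨P', a1, a2, a3⟩ := sh_add_un hC hA hP h1 h2 hg (τ n).j_mem (τ n).gauge
        (fun z hz => by have := (τ n).region z hz; simpa [hsg] using this)
      exact ⟨P', by rw [← shTh_succ]; exact a1, a2.mono hsub, fun z hz => Or.inr (a3 hz)⟩
  obtain ⟨Pn, h0, hA', hR⟩ := sh_depChoice (fun n P => ShState C hh tt (shTh θ γ n) P)
    (fun n P P' => ShExt C P P' U ∧ (τ n).Fp ⊆ P'.Up (τ n).j ∪ P'.Un (τ n).j) P1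
    (by rw [shTh_zero]; exact hS) hstep
  exact ⟨Pn, h0, fun n => (hA' n).mono hC (shTh_le hγ n), fun n => (hR n).1, fun n => (hR n).2⟩

/-- **shielding of a compact block.** -/
theorem sh_block (hC : C.Ok) (hA : ShAnchor C hh tt) {θ γ : ℝ} {P1 : PData W ι C.B.J} (hS : ShState C hh tt θ P1)
    (hθ : 0.78 ≤ θ) (hθγ : θ + γ ≤ 1) (hγ : 0 < γ) (β : Stat ι)
    (hface : ∀ J : Finset ι, J.Nonempty → (∀ j ∈ J, β j ≠ 0) → ShDone C P1 (β.faceS J) Set.univ) {K : Set V}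
    (hK : IsCompact K) {U : Set V} (hU : IsOpen U)
    (hKU : ∀ z ∈ C.Sig β, C.F.q z ∈ K → P1.Cnt C.R (C.m β - 2) z → C.F.q z ∈ U) :
    ∃ P2, ShState C hh tt (θ + γ) P2 ∧ ShExt C P1 P2 U ∧ ShDone C P2 β K := by
  classical
  set X : Set W := {z | z ∈ C.Sig β ∧ C.F.q z ∈ K ∧ P1.Cnt C.R (C.m β - 2) z} with hX
  have hXc : IsCompact X := sh_risky_compact hC hS β hface hK
  by_cases hXe : X = ∅
  · refine ⟨P1, hS.mono hC (by linarith), ShExt.refl _ _ _, ?_⟩
    intro z hz hq hc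
    have : z ∈ X := ⟨hz, hq, hc⟩
    rw [hXe] at this
    exact this
  obtain ⟨x0, hx0⟩ := Set.nonempty_iff_ne_empty.2 hXe
  have hm8 : 8 ≤ C.m β := by simpa using hA.few β x0 hx0.1 ∅ (by simp)
  have hR : C.R.Nonempty := by
    obtain ⟨s, hs, hcard⟩ := hx0.2.2
    have : 0 < s.card := by omega
    obtain ⟨j, hj⟩ := Finset.card_pos.1 this
    exact ⟨j, (hs j hj).1⟩
  have hfin := hS.passive K hK
  set Lb := hfin.toFinset with hLb
  obtain ⟨τ, hτ⟩ := sh_tasks hC hA β hU hR Lb (fun j hj => ((hfin.mem_toFinset).1 hj).1)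
  obtain ⟨Pn, hP0, hPS, hPE, hPF⟩ := sh_seq hC hA hS hθ hθγ hγ τ
  have hext2 : ∀ n k, n ≤ k → ShExt C (Pn n) (Pn k) U := by
    intro n k hnk
    induction k, hnk using Nat.le_induction with
    | base => exact ShExt.refl _ _ _
    | succ k _ ih => simpa using ih.trans (hPE k)
  have hext : ∀ n, ShExt C P1 (Pn n) U := fun n => by
    have := hext2 0 n (Nat.zero_le n)
    rwa [hP0] at this
  have hpt : ∀ x ∈ X, ∃ n, ¬ (Pn n).Cnt C.R (C.m β - 2) x := by
    intro x hx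
    have hxU : C.F.q x ∈ U := hKU x hx.1 hx.2.1 hx.2.2
    have hxE : x ∈ tot C.P.E := Set.mem_iUnion.2 ⟨β, sh_sig_subset C β hx.1⟩
    have hex : ∀ j ∈ Lb, ∃ n, hh j x ≠ tt j → x ∈ (Pn n).Up j ∪ (Pn n).Un j := by
      intro j hj
      by_cases hne : hh j x = tt j
      · exact ⟨0, fun h => absurd hne h⟩
      · obtain ⟨n, hnj, hxF⟩ := hτ x hx.1 hxU j hj hne
        exact ⟨n + 1, fun _ => by have := hPF n hxF; rwa [hnj] at this⟩
    choose! nn hnn using hex
    refine ⟨Lb.sup nn, ?_⟩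
    rintro ⟨s, hs, hcard⟩
    have hall : ∀ j ∈ s, j ∈ C.R ∧ hh j x = tt j := by
      intro j hj
      refine ⟨(hs j hj).1, ?_⟩
      by_contra hne
      by_cases hjL : j ∈ Lb
      · have h2 := hext2 (nn j) (Lb.sup nn) (Finset.le_sup hjL)
        rcases hnn j hjL hne with h1 | h1
        · exact (hs j hj).2.1 (h2.up j h1)
        · exact (hs j hj).2.2 (h2.un j h1)
      · have hpas : P1.Passive C.B.pst C.c j x := by
          by_contra hnp
          exact hjL ((hfin.mem_toFinset).2 ⟨(hs j hj).1, x, hxE, hx.2.1, hnp⟩)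
        exact (hs j hj).2.2 ((hext _).un j hpas.2.1)
    have := hA.few β x hx.1 s hall
    omega
  choose! nx hnx using hpt
  have hnb : ∀ x ∈ X, ∃ N ∈ 𝓝 x, ∀ y ∈ N ∩ C.P.E β, ¬ (Pn (nx x)).Cnt C.R (C.m β - 2) y := fun x hx =>
    sh_cnt_open hC (hPS (nx x)) β _ (sh_sig_subset C β hx.1) (hnx x hx)
  choose! Nx hNx hNx' using hnb
  obtain ⟨t, _, htc⟩ := hXc.elim_nhds_subcover Nx hNx
  refine ⟨Pn (t.sup nx), hPS _, hext _, ?_⟩
  intro z hz hq hc
  have hzX : z ∈ X := ⟨hz, hq, (hext _).cnt hc⟩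
  obtain ⟨x, hxt, hzx⟩ : ∃ x ∈ t, z ∈ Nx x := by simpa using htc hzX
  have hxX : x ∈ X := by
    rename_i htX
    exact htX x hxt
  exact hNx' x hxX z ⟨hzx, sh_sig_subset C β hz⟩ ((hext2 _ _ (Finset.le_sup hxt)).cnt hc)

end Claimed.Agent.R315
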