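import Claimed.Agent.R315.Sh.Defs

/-!
# Row 315, package SH-FORM-A: abstract form lemmas (pure measure theory + arithmetic; NO geometry, no paper needed)

`𝔉 : ShForm X` = tests `𝔉.T`, numbers `𝔉.N v ≥ 0`, finite measures `𝔉.m v` on `X`, all carried by a set `M` (`𝔉.m v Mᶜ = 0`).
`𝔉.Bud D θ e0 Cm : ∀ v, ∫⁻ ofReal (D x) d(m v) ≤ ofReal (θ (N v + e0 |v|²) + Cm |v|²)`, `|v|² = 𝔉.mass v = (m v univ).toReal`.

## `sh_max` = P Lemma D.3 AND D.4 (maximum of successive form costs), WITHOUT compactness.  Proof (complete):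
Fix `v`, take `vs, vc` from `hims` (`m vs = sin²ϑ · m v`, `m vc = cos²ϑ · m v`, `N vs + N vc ≤ N v + ∫ G dm_v`).
1. `ofReal (sin²) + ofReal (cos²) = 1`, so `m v = m vs + m vc` (`withDensity_add_left`, `withDensity_one`; measurability of `sin² ∘ ϑ` only a.e.:
   replace `ϑ` by `(hϑm v).mk ϑ` with `withDensity_congr_ae`) and `|v|² = |vs|² + |vc|²`, `∫⁻ f dm_v = ∫⁻ f dm_vs + ∫⁻ f dm_vc`.
2. cosine part: `∫⁻ (Vo + Dn) dm_vc = ∫⁻ (Vo + Dn) cos² dm_v = ∫⁻ Vo cos² dm_v = ∫⁻ Vo dm_vc ≤ θ (N vc + e0 |vc|²)`  (`hcos`, `hold`).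
   (`lintegral_withDensity_eq_lintegral_mul₀`.)
3. sine part, `w = vs`: a.e.-`m w` one has `sin ϑ ≠ 0`, hence `Vo ≤ Vmax` and `1 ≤ r2² wt r2`:
   `|w|² ≤ r2² ∫ wt r2 dm_w ≤ (r2²/3.4)(N w + CF |w|²)`, and `CF r2² ≤ .1` gives `|w|² ≤ (r2²/3.3) N w`;
   `∫ Dn dm_w ≤ (1.16·2.12/3.4)(N w + CF |w|²) ≤ .7233 (N w + CF |w|²)`;
   `∫ (Vo + Dn) dm_w ≤ .7233 N w + (Vmax + CF)|w|² ≤ (.7233 + .1/3.3) N w ≤ .754 N w ≤ .78 N w ≤ θ (N w + e0 |w|²)`.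
4. `∫ G dm_v ≤ ξ ∫ wt r1 dm_v + κ |v|² ≤ (ξ/3.4)(N v + CF |v|²) + κ |v|² ≤ γ (N v + e0 |v|²)`  (`hnum2`, `hnum3`).
5. Sum: `∫ (Vo + Dn) dm_v ≤ θ (N vs + N vc + e0 |v|²) ≤ θ (1 + γ)(N v + e0 |v|²) ≤ (θ + γ)(N v + e0 |v|²)`.
Advice: convert every `∫⁻` which is known to be finite to a real number at once (`ENNReal.toReal`, `ENNReal.ofReal_le_ofReal_iff`), do the arithmetic
in `ℝ` with `nlinarith`/`linarith`.
-/

set_option autoImplicit false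
open scoped ENNReal Topology
open MeasureTheory

namespace Claimed.Agent.R315

variable {X : Type} [MeasurableSpace X]

theorem ShForm.mass_nonneg (𝔉 : ShForm X) (v : 𝔉.T) : 0 ≤ 𝔉.mass v := ENNReal.toReal_nonneg

/-- monotonicity of the budget. -/
theorem ShForm.Bud.mono {𝔉 : ShForm X} {M : Set X} (hN : ∀ v, 0 ≤ 𝔉.N v) (hM : ∀ v, 𝔉.m v Mᶜ = 0)
    {D D' : X → ℝ} {θ θ' e0 Cm Cm' : ℝ} (h : 𝔉.Bud D θ e0 Cm) (hD : ∀ x ∈ M, D' x ≤ D x) (hθ : θ ≤ θ')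
    (he0 : 0 ≤ e0) (hC : Cm ≤ Cm') : 𝔉.Bud D' θ' e0 Cm' := by
  intro v
  have hae : ∀ᵐ x ∂(𝔉.m v), x ∈ M := by
    rw [ae_iff]
    exact hM v
  have hm := 𝔉.mass_nonneg v
  have hX : 0 ≤ 𝔉.N v + e0 * 𝔉.mass v := add_nonneg (hN v) (mul_nonneg he0 hm)
  calc ∫⁻ x, ENNReal.ofReal (D' x) ∂(𝔉.m v) ≤ ∫⁻ x, ENNReal.ofReal (D x) ∂(𝔉.m v) :=
        lintegral_mono_ae (hae.mono fun x hx => ENNReal.ofReal_le_ofReal (hD x hx))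
    _ ≤ ENNReal.ofReal (θ * (𝔉.N v + e0 * 𝔉.mass v) + Cm * 𝔉.mass v) := h v
    _ ≤ ENNReal.ofReal (θ' * (𝔉.N v + e0 * 𝔉.mass v) + Cm' * 𝔉.mass v) :=
        ENNReal.ofReal_le_ofReal
          (add_le_add (mul_le_mul_of_nonneg_right hθ hX) (mul_le_mul_of_nonneg_right hC hm))

/-- the zero potential. -/
theorem ShForm.bud_zero {𝔉 : ShForm X} {M : Set X} (hM : ∀ v, 𝔉.m v Mᶜ = 0) {D : X → ℝ}
    (hD : ∀ x ∈ M, D x ≤ 0) (θ e0 Cm : ℝ) : 𝔉.Bud D θ e0 Cm := by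
  intro v
  have hae : ∀ᵐ x ∂(𝔉.m v), x ∈ M := by
    rw [ae_iff]
    exact hM v
  have h0 : ∫⁻ x, ENNReal.ofReal (D x) ∂(𝔉.m v) ≤ ∫⁻ _, 0 ∂(𝔉.m v) :=
    lintegral_mono_ae (hae.mono fun x hx => (ENNReal.ofReal_eq_zero.2 (hD x hx)).le)
  rw [lintegral_zero] at h0
  exact h0.trans zero_le

/-- the budget is local: tests have compact support. -/
theorem ShForm.bud_of_local [TopologicalSpace X] {𝔉 : ShForm X} {M : Set X} (hOk : 𝔉.Ok M) {D : X → ℝ}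
    {θ e0 Cm : ℝ}
    (h : ∀ K, IsCompact K → K ⊆ M → ∃ D', 𝔉.Bud D' θ e0 Cm ∧ ∀ x ∈ K, D x = D' x) : 𝔉.Bud D θ e0 Cm := by
  intro v
  obtain ⟨K, hK, hKM, hK0⟩ := hOk.cs v
  obtain ⟨D', hB, hDD⟩ := h K hK hKM
  have hae : ∀ᵐ x ∂(𝔉.m v), x ∈ K := by
    rw [ae_iff]
    exact hK0
  rw [lintegral_congr_ae (hae.mono fun x hx => by rw [hDD x hx])]
  exact hB v

theorem sh_split {μ : Measure X} {ϑ : X → ℝ} (hϑ : AEMeasurable ϑ μ) {F : X → ℝ≥0∞}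
    (hF : AEMeasurable F μ) :
    ∫⁻ x, F x ∂μ = ∫⁻ x, F x ∂(μ.withDensity fun x => ENNReal.ofReal (Real.sin (ϑ x) ^ 2))
      + ∫⁻ x, F x ∂(μ.withDensity fun x => ENNReal.ofReal (Real.cos (ϑ x) ^ 2)) := by
  have hS : AEMeasurable (fun x => ENNReal.ofReal (Real.sin (ϑ x) ^ 2)) μ :=
    ((Real.measurable_sin.comp_aemeasurable hϑ).pow_const 2).ennreal_ofReal
  have hC : AEMeasurable (fun x => ENNReal.ofReal (Real.cos (ϑ x) ^ 2)) μ :=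
    ((Real.measurable_cos.comp_aemeasurable hϑ).pow_const 2).ennreal_ofReal
  rw [lintegral_withDensity_eq_lintegral_mul₀ hS hF, lintegral_withDensity_eq_lintegral_mul₀ hC hF,
    ← lintegral_add_left' (hS.mul hF)]
  refine lintegral_congr fun x => ?_
  simp only [Pi.mul_apply]
  rw [← add_mul, ← ENNReal.ofReal_add (sq_nonneg _) (sq_nonneg _), Real.sin_sq_add_cos_sq,
    ENNReal.ofReal_one, one_mul]

theorem sh_hardy (𝔉 : ShForm X) {wt : ℝ → X → ℝ} {CF : ℝ}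
    (hhy : ∀ ρ, 0 < ρ → 𝔉.Bud (fun x => 3.4 * wt ρ x) 1 0 CF) {ρ c : ℝ} (hρ : 0 < ρ) (hc : 0 ≤ c)
    (w : 𝔉.T) :
    ∫⁻ x, ENNReal.ofReal (c * wt ρ x) ∂(𝔉.m w) ≤ ENNReal.ofReal (c / 3.4 * (𝔉.N w + CF * 𝔉.mass w)) := by
  have h := hhy ρ hρ w
  have e : ∀ x, ENNReal.ofReal (c * wt ρ x)
      = ENNReal.ofReal (c / 3.4) * ENNReal.ofReal (3.4 * wt ρ x) := by
    intro x
    rw [← ENNReal.ofReal_mul (by positivity)]
    congr 1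
    ring
  simp only [e]
  rw [lintegral_const_mul' _ _ ENNReal.ofReal_ne_top, ENNReal.ofReal_mul (by positivity)]
  refine mul_le_mul_right (h.trans (le_of_eq ?_)) _
  congr 1
  ring

theorem sh_const (𝔉 : ShForm X) (hfin : ∀ v, 𝔉.m v Set.univ ≠ ⊤) (w : 𝔉.T) {c : ℝ} (hc : 0 ≤ c) :
    ∫⁻ _, ENNReal.ofReal c ∂(𝔉.m w) = ENNReal.ofReal (c * 𝔉.mass w) := by
  rw [lintegral_const, ENNReal.ofReal_mul hc]
  unfold ShForm.mass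
  rw [ENNReal.ofReal_toReal (hfin w)]

/-- **Maximum of successive form costs** (P Lemmas D.3, D.4). -/
theorem sh_max (𝔉 : ShForm X) (M : Set X) (hN : ∀ v, 0 ≤ 𝔉.N v) (hfin : ∀ v, 𝔉.m v Set.univ ≠ ⊤)
    (hM : ∀ v, 𝔉.m v Mᶜ = 0) {Vo Dn ϑ G : X → ℝ} {wt : ℝ → X → ℝ}
    {θ γ e0 CF Vmax r1 r2 ρ0 ξ κ : ℝ}
    (hVm : ∀ v, AEMeasurable Vo (𝔉.m v)) (hDm : ∀ v, AEMeasurable Dn (𝔉.m v))
    (hϑm : ∀ v, AEMeasurable ϑ (𝔉.m v)) (hwm : ∀ ρ v, AEMeasurable (wt ρ) (𝔉.m v))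
    (hθ : 0.78 ≤ θ) (hθ1 : θ ≤ 1) (hγ : 0 < γ) (he0 : 0 < e0) (hCF : 0 ≤ CF) (hV0 : 0 ≤ Vmax)
    (hr1 : 0 < r1) (hr2 : 0 < r2) (hρ0 : 0 < ρ0) (hξ : 0 ≤ ξ) (hκ : 0 ≤ κ)
    (hold : 𝔉.Bud Vo θ e0 0)
    (hhy : ∀ ρ, 0 < ρ → 𝔉.Bud (fun x => 3.4 * wt ρ x) 1 0 CF)
    (hims : 𝔉.Ims ϑ G)
    (hwt0 : ∀ ρ, ∀ x ∈ M, 0 ≤ wt ρ x)
    (hVo : ∀ x ∈ M, 0 ≤ Vo x)
    (hDn : ∀ x ∈ M, 0 ≤ Dn x ∧ Dn x ≤ 1.16 * 2.12 * wt ρ0 x)
    (hcos : ∀ x ∈ M, Dn x ≠ 0 → Real.cos (ϑ x) = 0)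
    (hsin : ∀ x ∈ M, Real.sin (ϑ x) ≠ 0 → Vo x ≤ Vmax ∧ 1 / r2 ^ 2 ≤ wt r2 x)
    (hG : ∀ x ∈ M, G x ≤ ξ * wt r1 x + κ)
    (hnum1 : (Vmax + CF) * r2 ^ 2 ≤ 0.1) (hnum2 : ξ / 3.4 ≤ γ) (hnum3 : ξ * CF / 3.4 + κ ≤ γ * e0) :
    𝔉.Bud (fun x => Vo x + Dn x) (θ + γ) e0 0 := by
  intro v
  obtain ⟨vs, vc, hms, hmc, hNs⟩ := hims v
  have hS : AEMeasurable (fun x => ENNReal.ofReal (Real.sin (ϑ x) ^ 2)) (𝔉.m v) :=
    ((Real.measurable_sin.comp_aemeasurable (hϑm v)).pow_const 2).ennreal_ofReal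
  have hC : AEMeasurable (fun x => ENNReal.ofReal (Real.cos (ϑ x) ^ 2)) (𝔉.m v) :=
    ((Real.measurable_cos.comp_aemeasurable (hϑm v)).pow_const 2).ennreal_ofReal
  have aeM : ∀ w, ∀ᵐ x ∂(𝔉.m w), x ∈ M := by
    intro w
    rw [ae_iff]
    exact hM w
  have aeS : ∀ᵐ x ∂(𝔉.m vs), Real.sin (ϑ x) ≠ 0 := by
    rw [hms, ae_withDensity_iff' hS]
    refine ae_of_all _ fun x hx h0 => hx ?_
    rw [h0]
    simp
  have aeC : ∀ᵐ x ∂(𝔉.m vc), Real.cos (ϑ x) ≠ 0 := by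
    rw [hmc, ae_withDensity_iff' hC]
    refine ae_of_all _ fun x hx h0 => hx ?_
    rw [h0]
    simp
  have hmass : 𝔉.mass v = 𝔉.mass vs + 𝔉.mass vc := by
    have h := sh_split (hϑm v) (F := fun _ => 1) aemeasurable_const
    simp only [lintegral_one] at h
    rw [← hms, ← hmc] at h
    unfold ShForm.mass
    rw [h, ENNReal.toReal_add (hfin vs) (hfin vc)]
  set a := 𝔉.mass v with ha
  set as := 𝔉.mass vs with has
  set ac := 𝔉.mass vc with hac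
  have ha0 : 0 ≤ a := 𝔉.mass_nonneg v
  have has0 : 0 ≤ as := 𝔉.mass_nonneg vs
  have hac0 : 0 ≤ ac := 𝔉.mass_nonneg vc
  have hNv := hN v
  have hNvs := hN vs
  have hNvc := hN vc
  -- the cosine part
  have hcosI : ∫⁻ x, ENNReal.ofReal (Vo x + Dn x) ∂(𝔉.m vc)
      ≤ ENNReal.ofReal (θ * (𝔉.N vc + e0 * ac)) := by
    have h1 : ∫⁻ x, ENNReal.ofReal (Vo x + Dn x) ∂(𝔉.m vc) = ∫⁻ x, ENNReal.ofReal (Vo x) ∂(𝔉.m vc) := by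
      refine lintegral_congr_ae ?_
      filter_upwards [aeM vc, aeC] with x hx hc
      have : Dn x = 0 := by
        by_contra h
        exact hc (hcos x hx h)
      rw [this, add_zero]
    rw [h1]
    refine (hold vc).trans (le_of_eq ?_)
    congr 1
    ring
  -- the sine part
  have hr2sq : 0 < r2 ^ 2 := by positivity
  have hA : 3.4 * (1 / r2 ^ 2) * as ≤ 𝔉.N vs + CF * as := by
    have h1 : ∫⁻ _, ENNReal.ofReal (3.4 * (1 / r2 ^ 2)) ∂(𝔉.m vs)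
        ≤ ∫⁻ x, ENNReal.ofReal (3.4 * wt r2 x) ∂(𝔉.m vs) := by
      refine lintegral_mono_ae ?_
      filter_upwards [aeM vs, aeS] with x hx hs
      refine ENNReal.ofReal_le_ofReal ?_
      have := (hsin x hx hs).2
      linarith
    have h2 := h1.trans (hhy r2 hr2 vs)
    rw [sh_const 𝔉 hfin vs (by positivity)] at h2
    have h3 : 0 ≤ 1 * (𝔉.N vs + 0 * 𝔉.mass vs) + CF * 𝔉.mass vs := by
      have := mul_nonneg hCF has0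
      simp only [one_mul, zero_mul, add_zero]
      linarith
    have h4 := (ENNReal.ofReal_le_ofReal_iff h3).1 h2
    simp only [one_mul, zero_mul, add_zero] at h4
    exact h4
  have hA' : 3.3 * as ≤ r2 ^ 2 * 𝔉.N vs := by
    have h1 : 3.4 * as ≤ r2 ^ 2 * (𝔉.N vs + CF * as) := by
      have h2 := mul_le_mul_of_nonneg_left hA hr2sq.le
      have h3 : r2 ^ 2 * (3.4 * (1 / r2 ^ 2) * as) = 3.4 * as := by
        field_simp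
      rwa [h3] at h2
    have h4 : CF * r2 ^ 2 ≤ 0.1 := by
      have : 0 ≤ Vmax * r2 ^ 2 := mul_nonneg hV0 hr2sq.le
      nlinarith
    have h5 : CF * r2 ^ 2 * as ≤ 0.1 * as := mul_le_mul_of_nonneg_right h4 has0
    nlinarith
  have hsinI : ∫⁻ x, ENNReal.ofReal (Vo x + Dn x) ∂(𝔉.m vs)
      ≤ ENNReal.ofReal (θ * (𝔉.N vs + e0 * as)) := by
    have h1 : ∫⁻ x, ENNReal.ofReal (Vo x + Dn x) ∂(𝔉.m vs)
        ≤ ∫⁻ x, (ENNReal.ofReal Vmax + ENNReal.ofReal (1.16 * 2.12 * wt ρ0 x)) ∂(𝔉.m vs) := by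
      refine lintegral_mono_ae ?_
      filter_upwards [aeM vs, aeS] with x hx hs
      exact ENNReal.ofReal_add_le.trans (add_le_add (ENNReal.ofReal_le_ofReal (hsin x hx hs).1)
        (ENNReal.ofReal_le_ofReal (hDn x hx).2))
    rw [lintegral_add_left measurable_const, sh_const 𝔉 hfin vs hV0] at h1
    have h2 := sh_hardy 𝔉 hhy hρ0 (c := 1.16 * 2.12) (by norm_num) vs
    have h3 := h1.trans (add_le_add le_rfl h2)
    have hnn : 0 ≤ 𝔉.N vs + CF * 𝔉.mass vs := add_nonneg hNvs (mul_nonneg hCF has0)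
    rw [← ENNReal.ofReal_add (mul_nonneg hV0 has0) (mul_nonneg (by norm_num) hnn)] at h3
    refine h3.trans (ENNReal.ofReal_le_ofReal ?_)
    show Vmax * as + 1.16 * 2.12 / 3.4 * (𝔉.N vs + CF * as) ≤ θ * (𝔉.N vs + e0 * as)
    have h4 : (Vmax + CF) * (3.3 * as) ≤ 0.1 * 𝔉.N vs := by
      have h5 : (Vmax + CF) * (3.3 * as) ≤ (Vmax + CF) * (r2 ^ 2 * 𝔉.N vs) :=
        mul_le_mul_of_nonneg_left hA' (add_nonneg hV0 hCF)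
      have h6 : (Vmax + CF) * r2 ^ 2 * 𝔉.N vs ≤ 0.1 * 𝔉.N vs := mul_le_mul_of_nonneg_right hnum1 hNvs
      nlinarith
    have h7 : 0 ≤ CF * as := mul_nonneg hCF has0
    have h8 : 0.78 * 𝔉.N vs ≤ θ * 𝔉.N vs := mul_le_mul_of_nonneg_right hθ hNvs
    have h9 : 0 ≤ θ * (e0 * as) := mul_nonneg (by linarith) (mul_nonneg he0.le has0)
    nlinarith
  -- the error term
  have hGI : ∫⁻ x, ENNReal.ofReal (G x) ∂(𝔉.m v) ≤ ENNReal.ofReal (γ * (𝔉.N v + e0 * a)) := by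
    have h1 : ∫⁻ x, ENNReal.ofReal (G x) ∂(𝔉.m v)
        ≤ ∫⁻ x, (ENNReal.ofReal κ + ENNReal.ofReal (ξ * wt r1 x)) ∂(𝔉.m v) := by
      refine lintegral_mono_ae ((aeM v).mono fun x hx => ?_)
      refine (ENNReal.ofReal_le_ofReal (hG x hx)).trans ?_
      rw [add_comm]
      exact ENNReal.ofReal_add_le
    rw [lintegral_add_left measurable_const, sh_const 𝔉 hfin v hκ] at h1
    have h2 := sh_hardy 𝔉 hhy hr1 hξ v
    have h3 := h1.trans (add_le_add le_rfl h2)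
    have hnn : 0 ≤ 𝔉.N v + CF * 𝔉.mass v := add_nonneg hNv (mul_nonneg hCF ha0)
    rw [← ENNReal.ofReal_add (mul_nonneg hκ ha0) (mul_nonneg (by positivity) hnn)] at h3
    refine h3.trans (ENNReal.ofReal_le_ofReal ?_)
    show κ * a + ξ / 3.4 * (𝔉.N v + CF * a) ≤ γ * (𝔉.N v + e0 * a)
    have h4 : ξ / 3.4 * 𝔉.N v ≤ γ * 𝔉.N v := mul_le_mul_of_nonneg_right hnum2 hNv
    have h5 : (ξ * CF / 3.4 + κ) * a ≤ γ * e0 * a := mul_le_mul_of_nonneg_right hnum3 ha0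
    have e1 : κ * a + ξ / 3.4 * (𝔉.N v + CF * a) = ξ / 3.4 * 𝔉.N v + (ξ * CF / 3.4 + κ) * a := by
      ring
    have e2 : γ * (𝔉.N v + e0 * a) = γ * 𝔉.N v + γ * e0 * a := by ring
    rw [e1, e2]
    exact add_le_add h4 h5
  have hNsum : 𝔉.N vs + 𝔉.N vc ≤ 𝔉.N v + γ * (𝔉.N v + e0 * a) := by
    have hnn : 0 ≤ γ * (𝔉.N v + e0 * a) :=
      mul_nonneg hγ.le (add_nonneg hNv (mul_nonneg he0.le ha0))
    have h1 := hNs.trans (add_le_add le_rfl hGI)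
    rw [← ENNReal.ofReal_add hNv hnn] at h1
    exact (ENNReal.ofReal_le_ofReal_iff (add_nonneg hNv hnn)).1 h1
  -- the sum
  have hF : AEMeasurable (fun x => ENNReal.ofReal (Vo x + Dn x)) (𝔉.m v) :=
    ((hVm v).add (hDm v)).ennreal_ofReal
  rw [sh_split (hϑm v) hF, ← hms, ← hmc]
  have hθ0 : 0 ≤ θ := by linarith
  have hn1 : 0 ≤ θ * (𝔉.N vs + e0 * as) :=
    mul_nonneg hθ0 (add_nonneg hNvs (mul_nonneg he0.le has0))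
  have hn2 : 0 ≤ θ * (𝔉.N vc + e0 * ac) :=
    mul_nonneg hθ0 (add_nonneg hNvc (mul_nonneg he0.le hac0))
  refine (add_le_add hsinI hcosI).trans ?_
  rw [← ENNReal.ofReal_add hn1 hn2]
  refine ENNReal.ofReal_le_ofReal ?_
  have hY : 0 ≤ 𝔉.N v + e0 * a := add_nonneg hNv (mul_nonneg he0.le ha0)
  have h1 : θ * (𝔉.N vs + 𝔉.N vc) ≤ θ * (𝔉.N v + γ * (𝔉.N v + e0 * a)) :=
    mul_le_mul_of_nonneg_left hNsum hθ0
  have h2 : θ * (γ * (𝔉.N v + e0 * a)) ≤ 1 * (γ * (𝔉.N v + e0 * a)) :=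
    mul_le_mul_of_nonneg_right hθ1 (mul_nonneg hγ.le hY)
  rw [hmass] at h1 h2 ⊢
  nlinarith

end Claimed.Agent.R315
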