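import Claimed.Agent.R315.Sh.GeoT
import Claimed.Agent.R315.Sh.RdLoc

/-!
# Row 315, package SH-GEO, part A: localisation of `rdist`, slopes in the tails

* `sh_rdist_local`: near a point `z` of a manifold `(Z, k)` the distance may be computed with curves which stay in a given open set `O ∋ z`.
* `sh_slope_of_gradSq`: the slope of a smooth function is at most its gradient norm.
* `sh_slope_lift`, `sh_slope_t`: in the product region of a tail the projection to the face and the normal coordinates are `1`-Lipschitz.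
-/

set_option autoImplicit false
open scoped ContDiff ENNReal Topology
open MeasureTheory Claims.C0499 Set

namespace Claimed.Agent.R315


variable {V W : Type} [NormedAddCommGroup V] [NormedSpace ℝ V] [NormedAddCommGroup W] [NormedSpace ℝ W] {ι : Type}
  [FiniteDimensional ℝ V] [FiniteDimensional ℝ W] [Fintype ι] [MeasurableSpace W] [BorelSpace W]
  {C : ShCtx V W ι} {β α : Stat ι} {S0 : Set W} {T : ℝ}

/-- slopes of functions pulled back from the face. -/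
theorem sh_slope_lift (hC : C.Ok) (hT : ShThr C β S0 T) (hα : β.IsCof α) {f : W → ℝ} {z : W} (hz : z ∈ C.P.E α)
    (hzt : z ∈ C.F.tailS α (β.cofJ α) T) (hzS : C.F.dropS (β.cofJ α) z ∈ S0) {c : ℝ} (hc : 0 ≤ c)
    (hs : SlopeLE (C.P.E β) C.P.h f (C.F.dropS (β.cofJ α) z) c) :
    SlopeLE (C.P.E α) C.P.h (fun y => f (C.F.dropS (β.cofJ α) y)) z c := by
  classical
  obtain ⟨U, hU, hUsub, hp⟩ := hT.prod
  have hqU : C.F.q z ∈ U := hUsub ⟨_, hzS, C.F.q_dropS _ z⟩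
  have hΩ : IsOpen (C.F.tailS α (β.cofJ α) T ∩ C.F.q ⁻¹' U) :=
    (C.F.isOpen_tailS α _ T).inter (hU.preimage C.F.q.continuous)
  have hZ := hC.inv.diag.mfd α
  have hk := hC.inv.met.met α
  have hX := hC.inv.diag.mfd β
  have hhX : IsTenOn (C.B.n - hits β) (C.P.E β) C.P.h := (if_isMetricOn_iff.1 (hC.inv.met.met β)).1
  have hkT : IsTenOn (C.B.n - hits α) (C.P.E α) C.P.h := (if_isMetricOn_iff.1 hk).1
  have hm0 : (0 : ℝ) ∈ Icc (0 : ℝ) 1 := ⟨le_rfl, zero_le_one⟩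
  have hm1 : (1 : ℝ) ∈ Icc (0 : ℝ) 1 := ⟨zero_le_one, le_rfl⟩
  obtain ⟨N, hN, hNΩ, hN'⟩ := sh_rdist_local hZ hk hz hΩ ⟨hzt, hqU⟩
  have key : ∀ y ∈ N ∩ C.P.E α, ∀ y' ∈ N ∩ C.P.E α,
      rdist (C.P.E β) C.P.h (C.F.dropS (β.cofJ α) y) (C.F.dropS (β.cofJ α) y') ≤ rdist (C.P.E α) C.P.h y y' := by
    intro y hy y' hy'
    obtain ⟨hj, hle⟩ := hN' y hy y' hy'
    refine le_trans (if_le_rdist hj fun c hc hc0 hc1 => ?_) hle
    have hπc : if_Adm (C.P.E β) (C.F.dropSL (β.cofJ α) ∘ c) := by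
      refine ⟨(C.F.dropSL (β.cofJ α)).contDiff.comp hc.1, fun t ht => ?_⟩
      have := hc.2 t ht
      rw [Function.comp_apply, C.F.dropSL_apply]
      exact (hp α hα _ this.2.2 this.2.1).1.1 this.1
    have h1 := if_rdist_le' hπc C.P.h (x := C.F.dropS (β.cofJ α) y) (y := C.F.dropS (β.cofJ α) y')
      (by rw [Function.comp_apply, hc0, C.F.dropSL_apply]) (by rw [Function.comp_apply, hc1, C.F.dropSL_apply])
    refine h1.trans ?_
    unfold if_len
    refine intervalIntegral.integral_mono_on zero_le_one (if_speed_intervalIntegrable hX hhX hπc hm0 hm1)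
      (if_speed_intervalIntegrable (if_mfd_inter hZ hΩ) (if_isTenOn_inter hkT hΩ) hc hm0 hm1) fun t ht => ?_
    rw [if_speed_map (C.F.dropSL (β.cofJ α)) C.P.h (hc.1.differentiable (by simp) t)]
    unfold if_speed
    refine Real.sqrt_le_sqrt ?_
    rw [if_pullL_apply]
    have hct := hc.2 t ht
    have hπ := hp α hα _ hct.2.2 hct.2.1
    rw [(hπ.2 hct.1).1, C.F.dropSL_apply, C.F.dropSL_apply,
      sh_metric_split C hC β (β.cofJ α) (fun j hj => (Stat.mem_cofJ.1 hj).1) (hπ.1.1 hct.1) (deriv c t)]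
    exact le_add_of_nonneg_right (Finset.sum_nonneg fun j _ => sq_nonneg _)
  intro ε hε
  obtain ⟨N1, hN1, hN1'⟩ := hs ε hε
  refine ⟨N ∩ C.F.dropS (β.cofJ α) ⁻¹' N1,
    Filter.inter_mem hN ((C.F.continuous_dropS _).continuousAt.preimage_mem_nhds hN1), fun y hy y' hy' => ?_⟩
  have hyβ : C.F.dropS (β.cofJ α) y ∈ C.P.E β := (hp α hα y (hNΩ hy.1.1).2 (hNΩ hy.1.1).1).1.1 hy.2
  have hyβ' : C.F.dropS (β.cofJ α) y' ∈ C.P.E β := (hp α hα y' (hNΩ hy'.1.1).2 (hNΩ hy'.1.1).1).1.1 hy'.2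
  exact (hN1' _ ⟨hy.1.2, hyβ⟩ _ ⟨hy'.1.2, hyβ'⟩).trans
    (mul_le_mul_of_nonneg_left (key y ⟨hy.1.1, hy.2⟩ y' ⟨hy'.1.1, hy'.2⟩) (by linarith))

/-- in the product region the normal directions are tangent and `dt_j` has norm `≤ 1`. -/
theorem sh_t_sq_le (hC : C.Ok) (hT : ShThr C β S0 T) (hα : β.IsCof α) {z : W} (hz : z ∈ C.P.E α)
    (hzt : z ∈ C.F.tailS α (β.cofJ α) T) (hzS : C.F.dropS (β.cofJ α) z ∈ S0) {j : ι} (hj : j ∈ β.cofJ α) {w : W}
    (hw : TanAt (C.B.n - hits α) (C.P.E α) z w) : C.F.t j w ^ 2 ≤ C.P.h z w w := by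
  obtain ⟨U, hU, hUsub, hp⟩ := hT.prod
  have hqU : C.F.q z ∈ U := hUsub ⟨_, hzS, C.F.q_dropS _ z⟩
  have hΩ : IsOpen (C.F.tailS α (β.cofJ α) T ∩ C.F.q ⁻¹' U) :=
    (C.F.isOpen_tailS α _ T).inter (hU.preimage C.F.q.continuous)
  have hπ := hp α hα z hqU hzt
  have hπz : C.F.dropS (β.cofJ α) z ∈ C.P.E β := hπ.1.1 hz
  -- `e j` is tangent
  have hΦ : HasFDerivAt (fun s : ℝ => z + s • C.F.e j) ((ContinuousLinearMap.id ℝ ℝ).smulRight (C.F.e j)) 0 :=
    ((hasFDerivAt_id (0 : ℝ)).smul_const (C.F.e j)).const_add z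
  have hcont : ContinuousAt (fun s : ℝ => z + s • C.F.e j) 0 := hΦ.continuousAt
  have hmem : ∀ᶠ s : ℝ in 𝓝 0, z + s • C.F.e j ∈ C.P.E α := by
    have h0 : (fun s : ℝ => z + s • C.F.e j) 0 ∈ C.F.tailS α (β.cofJ α) T ∩ C.F.q ⁻¹' U := by
      simpa using (⟨hzt, hqU⟩ : z ∈ C.F.tailS α (β.cofJ α) T ∩ C.F.q ⁻¹' U)
    filter_upwards [hcont.preimage_mem_nhds (hΩ.mem_nhds h0)] with s hs
    refine (hp α hα _ hs.2 hs.1).1.2 ?_
    rw [C.F.dropS_add_smul hj]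
    exact hπz
  have he := tanAt_of_map (hC.inv.diag.mfd α) hΦ.differentiableAt hmem (1 : ℝ)
  rw [hΦ.fderiv] at he
  simp only [zero_smul, add_zero, ContinuousLinearMap.smulRight_apply, ContinuousLinearMap.coe_id', id_eq,
    one_smul] at he
  have hcs := he.cs (hC.inv.met.met α) hw
  have hn := hC.inv.met.normal β _ hπz j (Stat.mem_cofJ.1 hj).1
  rw [(hπ.2 hz).1, (hn w).1, (hn (C.F.e j)).1, C.F.t_e, one_mul] at hcs
  rw [(hπ.2 hz).1]
  exact hcs

/-- the normal coordinates have slope `≤ 1` in the tail. -/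
theorem sh_slope_t (hC : C.Ok) (hT : ShThr C β S0 T) (hα : β.IsCof α) {z : W} (hz : z ∈ C.P.E α)
    (hzt : z ∈ C.F.tailS α (β.cofJ α) T) (hzS : C.F.dropS (β.cofJ α) z ∈ S0) {j : ι} (hj : j ∈ β.cofJ α) :
    SlopeLE (C.P.E α) C.P.h (fun y => (α j : ℝ) * C.F.t j y) z 1 := by
  have hfd : HasFDerivAt (fun y => (α j : ℝ) * C.F.t j y) ((α j : ℝ) • C.F.t j) z :=
    (C.F.t j).hasFDerivAt.const_mul _
  have hsm : ContDiff ℝ ∞ (fun y => (α j : ℝ) * C.F.t j y) := contDiff_const.mul (C.F.t j).contDiff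
  refine sh_slope_of_gradSq (hC.inv.diag.mfd α) (hC.inv.met.met α) (if_smoothAlong_of_contDiff hsm) hz zero_le_one ?_
  rw [one_pow]
  refine pk_gradSq_le (hC.inv.diag.mfd α) (hC.inv.met.met α) (if_smoothAlong_of_contDiff hsm) hz
    hfd.differentiableAt zero_le_one fun w hw => ?_
  rw [hfd.fderiv, one_mul]
  have h1 := sh_t_sq_le hC hT hα hz hzt hzS hj hw
  have h2 : ((α j : ℝ)) ^ 2 ≤ 1 := by
    rcases h : α j with _ | _ | _ <;> simp
  have h3 : (((α j : ℝ) • C.F.t j) w) ^ 2 = (α j : ℝ) ^ 2 * C.F.t j w ^ 2 := by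
    simp [mul_pow]
  rw [h3]
  nlinarith [sq_nonneg (C.F.t j w)]

end Claimed.Agent.R315
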