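import Claimed.Agent.R315.Sh.GeoA
import Claimed.Agent.R315.Gs.Calc
import Claimed.Agent.R315.Pack003

/-!
# Row 315, package SH-GEO, part B: product lifts to the tails are smooth; their gradient
-/

set_option autoImplicit false
open scoped ContDiff ENNReal Topology
open MeasureTheory Claims.C0499 Set

namespace Claimed.Agent.R315

/-- Cauchy-Schwarz for two blocks. -/
theorem sh_cs_two {x y G H S R : ℝ} (hG : 0 ≤ G) (hH : 0 ≤ H) (hS : 0 ≤ S) (hR : 0 ≤ R) (hx : x ^ 2 ≤ G * H)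
    (hy : y ^ 2 ≤ S * R) : (x + y) ^ 2 ≤ (G + S) * (H + R) := by
  have h1 : (2 * x * y) ^ 2 ≤ (G * R + S * H) ^ 2 := by
    have h2 : x ^ 2 * y ^ 2 ≤ (G * H) * (S * R) := mul_le_mul hx hy (sq_nonneg _) (mul_nonneg hG hH)
    nlinarith [sq_nonneg (G * R - S * H)]
  have h3 : |2 * x * y| ≤ G * R + S * H :=
    abs_le_of_sq_le_sq h1 (add_nonneg (mul_nonneg hG hR) (mul_nonneg hS hH))
  have h4 := (abs_le.1 h3).2
  nlinarith

variable {V W : Type} [NormedAddCommGroup V] [NormedSpace ℝ V] [NormedAddCommGroup W] [NormedSpace ℝ W] {ι : Type}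

/-- `gradSq` is nonnegative everywhere (it is `0` off the manifold). -/
theorem sh_gradSq_nonneg [FiniteDimensional ℝ W] {d : ℕ} {M : Set W} {h : Ten W} {f : W → ℝ} (hM : IsMfd d M)
    (hh : IsMetricOn d M h) (hf : SmoothAlong d M f) (x : W) : 0 ≤ gradSq d M h f x := by
  by_cases hx : x ∈ M
  · exact gs_sq_nonneg hM hh hf hx
  · have : {r | ∃ (ψ : E d → W) (U : Set (E d)) (u : E d),
        IsParam M ψ U ∧ u ∈ U ∧ ψ u = x ∧ r = gradSqC (cm h ψ) (f ∘ ψ) u} = ∅ := by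
      ext r
      simp only [mem_setOf_eq, mem_empty_iff_false, iff_false]
      rintro ⟨ψ, U, u, hp, hu, rfl, -⟩
      exact hx (if_mem hp hu)
    unfold gradSq pv
    rw [this, Real.sSup_empty]

variable [FiniteDimensional ℝ V] [FiniteDimensional ℝ W] [Fintype ι] [MeasurableSpace W] [BorelSpace W]
  {C : ShCtx V W ι} {β α : Stat ι} {S0 : Set W} {T : ℝ}

/-- the closed set which carries a product lift. -/
def shCl (C : ShCtx V W ι) (β α : Stat ι) (S0 : Set W) (T' : ℝ) : Set W :=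
  {z | C.F.dropS (β.cofJ α) z ∈ S0 ∧ ∀ j ∈ β.cofJ α, T' ≤ (α j : ℝ) * C.F.t j z}

omit [FiniteDimensional ℝ V] [FiniteDimensional ℝ W] [MeasurableSpace W] [BorelSpace W] in
theorem sh_isClosed_cl (hS0 : IsCompact S0) (T' : ℝ) : IsClosed (shCl C β α S0 T') :=
  (hS0.isClosed.preimage (C.F.continuous_dropS _)).inter (C.F.isClosed_tailC α _ T')

omit [FiniteDimensional ℝ V] [FiniteDimensional ℝ W] [MeasurableSpace W] [BorelSpace W] in
theorem sh_lift_zero_off {a : W → ℝ} (ha0 : ∀ z, z ∉ S0 → a z = 0) {b : ℝ → ℝ} {T' : ℝ} (hb0 : ∀ s ≤ T', b s = 0)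
    {z : W} (hz : z ∉ shCl C β α S0 T') :
    a (C.F.dropS (β.cofJ α) z) * ∏ j ∈ β.cofJ α, b ((α j : ℝ) * C.F.t j z) = 0 := by
  by_cases h1 : C.F.dropS (β.cofJ α) z ∈ S0
  · have h2 : ∃ j ∈ β.cofJ α, (α j : ℝ) * C.F.t j z < T' := by
      by_contra hcon
      push Not at hcon
      exact hz ⟨h1, hcon⟩
    obtain ⟨j, hj, hlt⟩ := h2
    rw [Finset.prod_eq_zero hj (hb0 _ hlt.le), mul_zero]
  · rw [ha0 _ h1, zero_mul]

/-- product lifts are smooth along the coface. -/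
theorem sh_smooth_lift (hC : C.Ok) (hS0 : IsCompact S0) (hT : ShThr C β S0 T) (hα : β.IsCof α) {a : W → ℝ}
    (ha : SmoothAlong (C.m β) (C.P.E β) a) (ha0 : ∀ z, z ∉ S0 → a z = 0) {b : ℝ → ℝ} (hb : ContDiff ℝ ∞ b) {T' : ℝ}
    (hTT : T < T') (hb0 : ∀ s ≤ T', b s = 0) :
    SmoothAlong (C.m α) (C.P.E α)
      (fun z => a (C.F.dropS (β.cofJ α) z) * ∏ j ∈ β.cofJ α, b ((α j : ℝ) * C.F.t j z)) := by
  classical
  obtain ⟨U, hU, hUsub, hp⟩ := hT.prod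
  have hΩ : IsOpen (C.F.tailS α (β.cofJ α) T ∩ C.F.q ⁻¹' U) :=
    (C.F.isOpen_tailS α _ T).inter (hU.preimage C.F.q.continuous)
  obtain ⟨a', ha', hae⟩ := if_exists_extension_closed (hC.inv.diag.mfd β) (hC.inv.diag.closed β) ha
  have hsub : shCl C β α S0 T' ⊆ C.F.tailS α (β.cofJ α) T ∩ C.F.q ⁻¹' U := fun z hz =>
    ⟨fun j hj => lt_of_lt_of_le hTT (hz.2 j hj), hUsub ⟨_, hz.1, C.F.q_dropS _ z⟩⟩
  have hf' : ContDiff ℝ ∞ (fun z => a' (C.F.dropSL (β.cofJ α) z) * ∏ j ∈ β.cofJ α, b ((α j : ℝ) * C.F.t j z)) :=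
    (ha'.comp (C.F.dropSL _).contDiff).mul
      (contDiff_prod fun j _ => hb.comp (contDiff_const.mul (C.F.t j).contDiff))
  refine if_smoothAlong_of_zero_off hΩ (sh_isClosed_cl hS0 T') hsub ?_ fun z _ hz => sh_lift_zero_off ha0 hb0 hz
  refine if_smoothAlong_congr (if_smoothAlong_of_contDiff hf') fun z hz => ?_
  rw [C.F.dropSL_apply, hae ((hp α hα z hz.2.2 hz.2.1).1.1 hz.1)]

/-- a differentiable function which vanishes on `(-∞, T']` has zero derivative there. -/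
theorem sh_deriv_zero {b : ℝ → ℝ} (hb : ContDiff ℝ ∞ b) {T' : ℝ} (hb0 : ∀ s ≤ T', b s = 0) {s : ℝ} (hs : s ≤ T') :
    deriv b s = 0 := by
  have hd : HasDerivAt b (deriv b s) s := (hb.differentiable (by simp) s).hasDerivAt
  have h1 : HasDerivWithinAt b (deriv b s) (Iic s) s := hd.hasDerivWithinAt
  have h2 : HasDerivWithinAt b 0 (Iic s) s :=
    (hasDerivWithinAt_const s (Iic s) (0 : ℝ)).congr (fun y hy => hb0 y (le_trans hy hs)) (hb0 s hs)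
  exact (uniqueDiffOn_Iic s s (mem_Iic.2 le_rfl)).eq_deriv _ h1 h2

/-- in the product region the projection of a tangent vector is tangent to the face. -/
theorem sh_tan_drop (hC : C.Ok) (hT : ShThr C β S0 T) (hα : β.IsCof α) {z : W}
    (hzt : z ∈ C.F.tailS α (β.cofJ α) T) (hzS : C.F.dropS (β.cofJ α) z ∈ S0) {w : W}
    (hw : TanAt (C.B.n - hits α) (C.P.E α) z w) :
    TanAt (C.B.n - hits β) (C.P.E β) (C.F.dropS (β.cofJ α) z) (C.F.dropS (β.cofJ α) w) := by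
  obtain ⟨U, hU, hUsub, hp⟩ := hT.prod
  have hqU : C.F.q z ∈ U := hUsub ⟨_, hzS, C.F.q_dropS _ z⟩
  have hΩ : IsOpen (C.F.tailS α (β.cofJ α) T ∩ C.F.q ⁻¹' U) :=
    (C.F.isOpen_tailS α _ T).inter (hU.preimage C.F.q.continuous)
  obtain ⟨ψ, U', u, a, hpar, hu, rfl, rfl⟩ := hw
  have hψ := if_differentiableAt hpar hu
  have hΦ : HasFDerivAt (fun b => C.F.dropSL (β.cofJ α) (ψ b)) ((C.F.dropSL (β.cofJ α)).comp (fderiv ℝ ψ u)) u :=
    (C.F.dropSL (β.cofJ α)).hasFDerivAt.comp u hψ.hasFDerivAt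
  have hmem : ∀ᶠ b in 𝓝 u, C.F.dropSL (β.cofJ α) (ψ b) ∈ C.P.E β := by
    filter_upwards [hψ.continuousAt.preimage_mem_nhds (hΩ.mem_nhds ⟨hzt, hqU⟩), (if_open hpar).mem_nhds hu]
      with b hb hbU
    rw [C.F.dropSL_apply]
    exact (hp α hα _ hb.2 hb.1).1.1 (if_mem hpar hbU)
  have := tanAt_of_map (hC.inv.diag.mfd β) hΦ.differentiableAt hmem a
  rw [hΦ.fderiv] at this
  simpa only [ContinuousLinearMap.comp_apply, C.F.dropSL_apply] using this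

/-- gradient of a product lift. -/
theorem sh_grad_lift (hC : C.Ok) (hS0 : IsCompact S0) (hT : ShThr C β S0 T) (hα : β.IsCof α) {a : W → ℝ}
    (ha : SmoothAlong (C.m β) (C.P.E β) a) (ha0 : ∀ z, z ∉ S0 → a z = 0) (ha1 : ∀ z, |a z| ≤ 1) {b : ℝ → ℝ}
    (hb : ContDiff ℝ ∞ b) {T' : ℝ} (hTT : T < T') (hb0 : ∀ s ≤ T', b s = 0) (hb1 : ∀ s, |b s| ≤ 1) {z : W}
    (hz : z ∈ C.P.E α) :
    gradSq (C.m α) (C.P.E α) C.P.h
        (fun z => a (C.F.dropS (β.cofJ α) z) * ∏ j ∈ β.cofJ α, b ((α j : ℝ) * C.F.t j z)) z ≤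
      (C.F.tailS α (β.cofJ α) T').indicator (fun z =>
        gradSq (C.m β) (C.P.E β) C.P.h a (C.F.dropS (β.cofJ α) z) +
          ∑ j ∈ β.cofJ α, deriv b ((α j : ℝ) * C.F.t j z) ^ 2) z := by
  classical
  have hZ : IsMfd (C.m α) (C.P.E α) := hC.inv.diag.mfd α
  have hk : IsMetricOn (C.m α) (C.P.E α) C.P.h := hC.inv.met.met α
  have hX : IsMfd (C.m β) (C.P.E β) := hC.inv.diag.mfd β
  have hkX : IsMetricOn (C.m β) (C.P.E β) C.P.h := hC.inv.met.met β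
  have hind0 : 0 ≤ (C.F.tailS α (β.cofJ α) T').indicator (fun z =>
        gradSq (C.m β) (C.P.E β) C.P.h a (C.F.dropS (β.cofJ α) z) +
          ∑ j ∈ β.cofJ α, deriv b ((α j : ℝ) * C.F.t j z) ^ 2) z :=
    indicator_nonneg (fun y _ => add_nonneg (sh_gradSq_nonneg hX hkX ha _)
      (Finset.sum_nonneg fun j _ => sq_nonneg _)) z
  by_cases hzCl : z ∈ shCl C β α S0 T'
  swap
  · -- locally zero
    have h1 : gradSq (C.m α) (C.P.E α) C.P.h
        (fun z => a (C.F.dropS (β.cofJ α) z) * ∏ j ∈ β.cofJ α, b ((α j : ℝ) * C.F.t j z)) z =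
        gradSq (C.m α) (C.P.E α) C.P.h (fun _ => (0 : ℝ)) z :=
      gs_sq_congr_near ((sh_isClosed_cl hS0 T').isOpen_compl.mem_nhds hzCl)
        fun y hy => sh_lift_zero_off ha0 hb0 hy.2
    rw [h1, gs_sq_const hZ hk 0 hz]
    exact hind0
  obtain ⟨U, hU, hUsub, hp⟩ := hT.prod
  have hΩ : IsOpen (C.F.tailS α (β.cofJ α) T ∩ C.F.q ⁻¹' U) :=
    (C.F.isOpen_tailS α _ T).inter (hU.preimage C.F.q.continuous)
  obtain ⟨a', ha', hae⟩ := if_exists_extension_closed hX (hC.inv.diag.closed β) ha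
  have hzt : z ∈ C.F.tailS α (β.cofJ α) T := fun j hj => lt_of_lt_of_le hTT (hzCl.2 j hj)
  have hqU : C.F.q z ∈ U := hUsub ⟨_, hzCl.1, C.F.q_dropS _ z⟩
  have hπ := hp α hα z hqU hzt
  have hπz : C.F.dropS (β.cofJ α) z ∈ C.P.E β := hπ.1.1 hz
  have hf' : ContDiff ℝ ∞ (fun z => a' (C.F.dropSL (β.cofJ α) z) * ∏ j ∈ β.cofJ α, b ((α j : ℝ) * C.F.t j z)) :=
    (ha'.comp (C.F.dropSL _).contDiff).mul
      (contDiff_prod fun j _ => hb.comp (contDiff_const.mul (C.F.t j).contDiff))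
  have h1 : gradSq (C.m α) (C.P.E α) C.P.h
      (fun z => a (C.F.dropS (β.cofJ α) z) * ∏ j ∈ β.cofJ α, b ((α j : ℝ) * C.F.t j z)) z =
      gradSq (C.m α) (C.P.E α) C.P.h
        (fun z => a' (C.F.dropSL (β.cofJ α) z) * ∏ j ∈ β.cofJ α, b ((α j : ℝ) * C.F.t j z)) z :=
    gs_sq_congr_near (hΩ.mem_nhds ⟨hzt, hqU⟩) fun y hy => by
      rw [C.F.dropSL_apply, hae ((hp α hα y hy.2.2 hy.2.1).1.1 hy.1)]
  rw [h1]
  -- the derivative
  have hda : HasFDerivAt (fun y => a' (C.F.dropSL (β.cofJ α) y))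
      ((fderiv ℝ a' (C.F.dropSL (β.cofJ α) z)).comp (C.F.dropSL (β.cofJ α))) z :=
    ((ha'.differentiable (by simp) _).hasFDerivAt).comp z (C.F.dropSL (β.cofJ α)).hasFDerivAt
  have hdb : ∀ j ∈ β.cofJ α, HasFDerivAt (fun y => b ((α j : ℝ) * C.F.t j y))
      (deriv b ((α j : ℝ) * C.F.t j z) • ((α j : ℝ) • C.F.t j)) z := fun j _ =>
    ((hb.differentiable (by simp) _).hasDerivAt).comp_hasFDerivAt z ((C.F.t j).hasFDerivAt.const_mul _)
  have hdP := HasFDerivAt.finset_prod hdb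
  have hdf : HasFDerivAt (fun z => a' (C.F.dropSL (β.cofJ α) z) * ∏ j ∈ β.cofJ α, b ((α j : ℝ) * C.F.t j z)) _ z :=
    hda.mul hdP
  refine pk_gradSq_le hZ hk (if_smoothAlong_of_contDiff hf') hz hdf.differentiableAt hind0 fun w hw => ?_
  rw [hdf.fderiv]
  simp only [ContinuousLinearMap.add_apply, ContinuousLinearMap.smul_apply, ContinuousLinearMap.comp_apply,
    ContinuousLinearMap.sum_apply, smul_eq_mul, C.F.dropSL_apply]
  by_cases hzT : z ∈ C.F.tailS α (β.cofJ α) T'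
  swap
  · -- some factor vanishes to first order
    rw [indicator_of_notMem hzT, zero_mul]
    have h2 : ∃ j ∈ β.cofJ α, (α j : ℝ) * C.F.t j z ≤ T' := by
      by_contra hcon
      push Not at hcon
      exact hzT hcon
    obtain ⟨j, hj, hle⟩ := h2
    have h3 : ∏ j ∈ β.cofJ α, b ((α j : ℝ) * C.F.t j z) = 0 := Finset.prod_eq_zero hj (hb0 _ hle)
    have h4 : ∀ x ∈ β.cofJ α, (∏ j ∈ (β.cofJ α).erase x, b ((α j : ℝ) * C.F.t j z)) *
        (deriv b ((α x : ℝ) * C.F.t x z) * ((α x : ℝ) * C.F.t x w)) = 0 := by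
      intro x hx
      by_cases hxj : x = j
      · subst hxj
        rw [sh_deriv_zero hb hb0 hle, zero_mul, mul_zero]
      · rw [Finset.prod_eq_zero (Finset.mem_erase.2 ⟨fun h => hxj h.symm, hj⟩) (hb0 _ hle), zero_mul]
    rw [h3, Finset.sum_eq_zero h4]
    simp
  rw [indicator_of_mem hzT, add_comm (a' _ * _)]
  have hw' : TanAt (C.m β) (C.P.E β) (C.F.dropS (β.cofJ α) z) (C.F.dropS (β.cofJ α) w) :=
    sh_tan_drop hC hT hα hzt hzCl.1 hw
  have hsm' : SmoothAlong (C.m β) (C.P.E β) a' := if_smoothAlong_of_contDiff ha'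
  have hA := pk_tan_sq_le hkX hsm' (ha'.differentiable (by simp) _) hw'
  have hGe : gradSq (C.m β) (C.P.E β) C.P.h a' (C.F.dropS (β.cofJ α) z) =
      gradSq (C.m β) (C.P.E β) C.P.h a (C.F.dropS (β.cofJ α) z) := gs_sq_congr fun y hy => hae hy
  rw [hGe] at hA
  have hsplit := sh_metric_split C hC β (β.cofJ α) (fun j hj => (Stat.mem_cofJ.1 hj).1) hπz w
  rw [(hπ.2 hz).1, hsplit]
  have hP : ∀ S : Finset ι, |∏ j ∈ S, b ((α j : ℝ) * C.F.t j z)| ≤ 1 := fun S => by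
    rw [Finset.abs_prod]
    exact Finset.prod_le_one (fun _ _ => abs_nonneg _) fun _ _ => hb1 _
  have hsq : ∀ {x : ℝ}, |x| ≤ 1 → x ^ 2 ≤ 1 := fun {x} hx => by
    rw [← sq_abs]
    exact pow_le_one₀ (abs_nonneg _) hx
  refine sh_cs_two (gs_sq_nonneg hX hkX ha hπz) (hw'.met_nonneg hkX) (Finset.sum_nonneg fun j _ => sq_nonneg _)
    (Finset.sum_nonneg fun j _ => sq_nonneg _) ?_ ?_
  · rw [mul_pow]
    calc _ ≤ 1 * (fderiv ℝ a' (C.F.dropS (β.cofJ α) z) (C.F.dropS (β.cofJ α) w)) ^ 2 :=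
          mul_le_mul_of_nonneg_right (hsq (hP _)) (sq_nonneg _)
      _ ≤ _ := by rw [one_mul]; exact hA
  · rw [mul_pow]
    have h5 : (∑ x ∈ β.cofJ α, (∏ j ∈ (β.cofJ α).erase x, b ((α j : ℝ) * C.F.t j z)) *
        (deriv b ((α x : ℝ) * C.F.t x z) * ((α x : ℝ) * C.F.t x w))) ^ 2 ≤
        (∑ x ∈ β.cofJ α, ((∏ j ∈ (β.cofJ α).erase x, b ((α j : ℝ) * C.F.t j z)) *
          deriv b ((α x : ℝ) * C.F.t x z) * (α x : ℝ)) ^ 2) * ∑ x ∈ β.cofJ α, C.F.t x w ^ 2 := by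
      rw [Finset.sum_congr rfl fun x _ => (by ring :
        (∏ j ∈ (β.cofJ α).erase x, b ((α j : ℝ) * C.F.t j z)) *
          (deriv b ((α x : ℝ) * C.F.t x z) * ((α x : ℝ) * C.F.t x w)) =
        ((∏ j ∈ (β.cofJ α).erase x, b ((α j : ℝ) * C.F.t j z)) *
          deriv b ((α x : ℝ) * C.F.t x z) * (α x : ℝ)) * C.F.t x w)]
      exact Finset.sum_mul_sq_le_sq_mul_sq _ _ _
    have h6 : ∑ x ∈ β.cofJ α, ((∏ j ∈ (β.cofJ α).erase x, b ((α j : ℝ) * C.F.t j z)) *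
          deriv b ((α x : ℝ) * C.F.t x z) * (α x : ℝ)) ^ 2 ≤ ∑ x ∈ β.cofJ α, deriv b ((α x : ℝ) * C.F.t x z) ^ 2 := by
      refine Finset.sum_le_sum fun x _ => ?_
      have h7 : ((α x : ℝ)) ^ 2 ≤ 1 := by
        rcases h : α x with _ | _ | _ <;> simp
      have h8 := hsq (hP ((β.cofJ α).erase x))
      rw [mul_pow, mul_pow]
      have h9 : 0 ≤ deriv b ((α x : ℝ) * C.F.t x z) ^ 2 := sq_nonneg _
      calc _ ≤ 1 * deriv b ((α x : ℝ) * C.F.t x z) ^ 2 * 1 :=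
            mul_le_mul (mul_le_mul_of_nonneg_right h8 h9) h7 (sq_nonneg _) (by rw [one_mul]; exact h9)
        _ = _ := by ring
    have h10 : a' (C.F.dropS (β.cofJ α) z) ^ 2 ≤ 1 := by
      rw [hae hπz]
      exact hsq (ha1 _)
    calc _ ≤ 1 * ((∑ x ∈ β.cofJ α, deriv b ((α x : ℝ) * C.F.t x z) ^ 2) * ∑ x ∈ β.cofJ α, C.F.t x w ^ 2) :=
          mul_le_mul h10 (h5.trans (mul_le_mul_of_nonneg_right h6 (Finset.sum_nonneg fun j _ => sq_nonneg _)))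
            (sq_nonneg _) zero_le_one
      _ = _ := one_mul _

end Claimed.Agent.R315
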