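import Claimed.Agent.R315.Sh.Force

/-!
# Row 315, package SH-GLOB, part 1: limit of a locally eventually constant sequence of states (`sh_limit`)

All fields of `ShState` are local over `V`: `sh_local_cont`, `sh_local_compat`, `sh_local_smooth`, `sh_label_local`.
The limit `shLim`: `mu`, `pot` at `z` are those of `Pn (N (q z))`, `N x` = an index beyond which `x ∉ Un n`; the cores are the unions.
-/

set_option autoImplicit false
open scoped ContDiff ENNReal Topology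
open MeasureTheory Claims.C0499 Filter

namespace Claimed.Agent.R315

variable {V W : Type} [NormedAddCommGroup V] [NormedSpace ℝ V] [NormedAddCommGroup W] [NormedSpace ℝ W] {ι : Type}

/-- stage data with the geometry of `C` and one and the same entry for all labels. -/
def shMk (C : ShCtx V W ι) (μ : W → EReal) (Q : W → ℝ) (Up Un : Set W) : PData W ι C.B.J :=
  ⟨C.P.E, C.P.h, C.P.dr, fun _ => μ, fun _ => Q, fun _ => Up, fun _ => Un⟩

theorem sh_nhd_q (C : ShCtx V W ι) (z : W) : C.F.q ⁻¹' Metric.closedBall (C.F.q z) 1 ∈ 𝓝 z :=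
  C.F.q.continuous.continuousAt.preimage_mem_nhds (Metric.closedBall_mem_nhds _ one_pos)

variable [FiniteDimensional ℝ V] {C : ShCtx V W ι}

theorem sh_local_cont {X : Type} [TopologicalSpace X] {φ' : W → X} {M : Set W}
    (H : ∀ K : Set V, IsCompact K → ∃ φ : W → X, ContinuousOn φ M ∧ ∀ z, C.F.q z ∈ K → φ' z = φ z) :
    ContinuousOn φ' M := by
  intro z hz
  obtain ⟨φ, hφ, he⟩ := H _ (isCompact_closedBall (C.F.q z) 1)
  refine (hφ z hz).congr_of_eventuallyEq ?_ (he z (Metric.mem_closedBall_self zero_le_one))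
  filter_upwards [mem_nhdsWithin_of_mem_nhds (sh_nhd_q C z)] with y hy
  exact he y hy

omit [FiniteDimensional ℝ V] in
theorem sh_local_compat {X : Type} {φ' : W → X}
    (H : ∀ K : Set V, IsCompact K → ∃ φ : W → X, Compat C.F C.P.E φ ∧ ∀ z, C.F.q z ∈ K → φ' z = φ z) :
    Compat C.F C.P.E φ' := by
  intro i K hK
  obtain ⟨φ, hφ, he⟩ := H K hK
  obtain ⟨R, hR⟩ := hφ i K hK
  refine ⟨R, fun z hz hq hlt => ?_⟩
  rw [he z hq, he _ (by rw [C.F.q_drop]; exact hq)]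
  exact hR z hz hq hlt

theorem sh_local_smooth {d : ℕ} {M : Set W} {φ' : W → ℝ}
    (H : ∀ K : Set V, IsCompact K → ∃ φ : W → ℝ, SmoothAlong d M φ ∧ ∀ z, C.F.q z ∈ K → φ' z = φ z) :
    SmoothAlong d M φ' := by
  intro ψ U hψ u hu
  obtain ⟨φ, hφ, he⟩ := H _ (isCompact_closedBall (C.F.q (ψ u)) 1)
  refine (hφ ψ U hψ u hu).congr_of_eventuallyEq ?_ (he _ (Metric.mem_closedBall_self zero_le_one))
  have hc : ContinuousWithinAt ψ U u := (if_continuousOn hψ) u hu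
  filter_upwards [hc.eventually (show ∀ᶠ y in 𝓝 (ψ u), C.F.q y ∈ Metric.closedBall (C.F.q (ψ u)) 1 from
    sh_nhd_q C (ψ u))] with y hy
  exact he _ hy

variable [Fintype ι]

/-- `LabelOk` is local over `V`. -/
theorem sh_label_local {j : C.B.J} {μ' : W → EReal} {Q' : W → ℝ} {Up' Un' : Set W}
    (H : ∀ K : Set V, IsCompact K → ∃ (μ : W → EReal) (Q : W → ℝ) (Up Un : Set W),
      LabelOk C.B C.F (shMk C μ Q Up Un) C.a j ∧ ∀ z, C.F.q z ∈ K →
        μ' z = μ z ∧ Q' z = Q z ∧ (z ∈ Up' ↔ z ∈ Up) ∧ (z ∈ Un' ↔ z ∈ Un)) :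
    LabelOk C.B C.F (shMk C μ' Q' Up' Un') C.a j := by
  have hself : ∀ z : W, C.F.q z ∈ Metric.closedBall (C.F.q z) 1 := fun z =>
    Metric.mem_closedBall_self zero_le_one
  have hop : ∀ z : W, C.F.q ⁻¹' Metric.ball (C.F.q z) 1 ∈ 𝓝 z := fun z =>
    C.F.q.continuous.continuousAt.preimage_mem_nhds (Metric.ball_mem_nhds _ one_pos)
  have hopen : ∀ z : W, IsOpen (C.F.q ⁻¹' Metric.ball (C.F.q z) 1) := fun z =>
    Metric.isOpen_ball.preimage C.F.q.continuous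
  constructor
  · show CC C.F C.P.E μ'
    refine ⟨fun α => sh_local_cont (C := C) fun K hK => ?_, sh_local_compat fun K hK => ?_⟩
    · obtain ⟨μ, Q, Up, Un, L, hag⟩ := H K hK
      exact ⟨μ, L.mu_cc.1 α, fun z hz => (hag z hz).1⟩
    · obtain ⟨μ, Q, Up, Un, L, hag⟩ := H K hK
      exact ⟨μ, L.mu_cc.2, fun z hz => (hag z hz).1⟩
  · show ∀ α, ∀ z ∈ C.P.E α, μ' z ≠ ⊤ → μ' z ≠ ⊥ →
      SlopeLE (C.P.E α) C.P.h (fun y => (μ' y).toReal) z ((C.a * (μ' z).toReal ^ 2 + Q' z) / 2)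
    intro α z hz h1 h2
    obtain ⟨μ, Q, Up, Un, L, hag⟩ := H _ (isCompact_closedBall (C.F.q z) 1)
    obtain ⟨e1, e2, _, _⟩ := hag z (hself z)
    rw [e1] at h1 h2
    have hs : SlopeLE (C.P.E α) C.P.h (fun y => (μ y).toReal) z ((C.a * (μ z).toReal ^ 2 + Q z) / 2) :=
      L.slope α z hz h1 h2
    rw [e1, e2]
    refine sh_slope_congr hs ⟨_, sh_nhd_q C z, fun y hy => ?_⟩
    show (μ y).toReal = (μ' y).toReal
    rw [(hag y hy.1).1]
  · show SC C.B.n C.F C.P.E Q'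
    refine ⟨fun α => sh_local_smooth (C := C) fun K hK => ?_, sh_local_compat fun K hK => ?_⟩
    · obtain ⟨μ, Q, Up, Un, L, hag⟩ := H K hK
      exact ⟨Q, L.pot_sc.1 α, fun z hz => (hag z hz).2.1⟩
    · obtain ⟨μ, Q, Up, Un, L, hag⟩ := H K hK
      exact ⟨Q, L.pot_sc.2, fun z hz => (hag z hz).2.1⟩
  · show ∀ z ∈ tot C.P.E, C.B.pst j ≤ Q' z
    intro z hz
    obtain ⟨μ, Q, Up, Un, L, hag⟩ := H _ (isCompact_closedBall (C.F.q z) 1)
    rw [(hag z (hself z)).2.1]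
    exact L.pot_ge z hz
  · show RelOpen C.P.E Up'
    rintro α z ⟨hzU, hz⟩
    obtain ⟨μ, Q, Up, Un, L, hag⟩ := H _ (isCompact_closedBall (C.F.q z) 1)
    obtain ⟨N, hN, hsub⟩ := L.up_open α z ⟨(hag z (hself z)).2.2.1.1 hzU, hz⟩
    exact ⟨N ∩ _, Filter.inter_mem hN (sh_nhd_q C z), fun y hy => (hag y hy.1.2).2.2.1.2 (hsub ⟨hy.1.1, hy.2⟩)⟩
  · show RelOpen C.P.E Un'
    rintro α z ⟨hzU, hz⟩
    obtain ⟨μ, Q, Up, Un, L, hag⟩ := H _ (isCompact_closedBall (C.F.q z) 1)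
    obtain ⟨N, hN, hsub⟩ := L.un_open α z ⟨(hag z (hself z)).2.2.2.1 hzU, hz⟩
    exact ⟨N ∩ _, Filter.inter_mem hN (sh_nhd_q C z), fun y hy => (hag y hy.1.2).2.2.2.2 (hsub ⟨hy.1.1, hy.2⟩)⟩
  · show Compat C.F C.P.E (fun z => z ∈ Up')
    refine sh_local_compat fun K hK => ?_
    obtain ⟨μ, Q, Up, Un, L, hag⟩ := H K hK
    exact ⟨fun z => z ∈ Up, L.up_compat, fun z hz => propext (hag z hz).2.2.1⟩
  · show Compat C.F C.P.E (fun z => z ∈ Un')
    refine sh_local_compat fun K hK => ?_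
    obtain ⟨μ, Q, Up, Un, L, hag⟩ := H K hK
    exact ⟨fun z => z ∈ Un, L.un_compat, fun z hz => propext (hag z hz).2.2.2⟩
  · show ∀ α, ∀ z ∈ C.P.E α, z ∈ closure (Up' ∩ C.P.E α) → ∃ N ∈ 𝓝 z, ∀ y ∈ N ∩ C.P.E α, μ' y = ⊤
    intro α z hz hcl
    obtain ⟨μ, Q, Up, Un, L, hag⟩ := H _ (isCompact_closedBall (C.F.q z) 1)
    have h1 : z ∈ closure (C.F.q ⁻¹' Metric.ball (C.F.q z) 1 ∩ (Up' ∩ C.P.E α)) :=
      (hopen z).inter_closure (Set.mem_inter (mem_of_mem_nhds (hop z)) hcl)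
    have h2 : z ∈ closure (Up ∩ C.P.E α) :=
      closure_mono (fun y hy => Set.mem_inter ((hag y (Metric.ball_subset_closedBall hy.1)).2.2.1.1 hy.2.1) hy.2.2) h1
    obtain ⟨N, hN, hN'⟩ := L.up_pole α z hz h2
    refine ⟨N ∩ _, Filter.inter_mem hN (sh_nhd_q C z), fun y hy => ?_⟩
    rw [(hag y hy.1.2).1]
    exact hN' y ⟨hy.1.1, hy.2⟩
  · show ∀ α, ∀ z ∈ C.P.E α, z ∈ closure (Un' ∩ C.P.E α) → ∃ N ∈ 𝓝 z, ∀ y ∈ N ∩ C.P.E α, μ' y = ⊥
    intro α z hz hcl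
    obtain ⟨μ, Q, Up, Un, L, hag⟩ := H _ (isCompact_closedBall (C.F.q z) 1)
    have h1 : z ∈ closure (C.F.q ⁻¹' Metric.ball (C.F.q z) 1 ∩ (Un' ∩ C.P.E α)) :=
      (hopen z).inter_closure (Set.mem_inter (mem_of_mem_nhds (hop z)) hcl)
    have h2 : z ∈ closure (Un ∩ C.P.E α) :=
      closure_mono (fun y hy => Set.mem_inter ((hag y (Metric.ball_subset_closedBall hy.1)).2.2.2.1 hy.2.1) hy.2.2) h1
    obtain ⟨N, hN, hN'⟩ := L.un_pole α z hz h2
    refine ⟨N ∩ _, Filter.inter_mem hN (sh_nhd_q C z), fun y hy => ?_⟩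
    rw [(hag y hy.1.2).1]
    exact hN' y ⟨hy.1.1, hy.2⟩
  · show ∀ z ∈ tot C.P.E, C.F.q z ∈ C.B.inn j → z ∈ Up'
    intro z hz hq
    obtain ⟨μ, Q, Up, Un, L, hag⟩ := H _ (isCompact_closedBall (C.F.q z) 1)
    exact (hag z (hself z)).2.2.1.2 (L.forced_up z hz hq)
  · show ∀ z ∈ tot C.P.E, C.F.q z ∈ C.B.out j → z ∈ Un'
    intro z hz hq
    obtain ⟨μ, Q, Up, Un, L, hag⟩ := H _ (isCompact_closedBall (C.F.q z) 1)
    exact (hag z (hself z)).2.2.2.2 (L.forced_un z hz hq)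

/-! ### the limit -/

section lim

variable {Pn : ℕ → PData W ι C.B.J} {Un : ℕ → Set V}

omit [FiniteDimensional ℝ V] [Fintype ι] in
/-- stability: beyond an index after which `q z ∉ Un n` nothing changes at `z`. -/
theorem sh_ext_stab (hE : ∀ n, ShExt C (Pn n) (Pn (n + 1)) (Un n)) {z : W} {n₀ : ℕ}
    (h : ∀ n, n₀ ≤ n → C.F.q z ∉ Un n) (n : ℕ) (hn : n₀ ≤ n) (j : C.B.J) :
    (Pn n).mu j z = (Pn n₀).mu j z ∧ (Pn n).pot j z = (Pn n₀).pot j z ∧
      (z ∈ (Pn n).Up j ↔ z ∈ (Pn n₀).Up j) ∧ (z ∈ (Pn n).Un j ↔ z ∈ (Pn n₀).Un j) := by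
  induction n, hn using Nat.le_induction with
  | base => exact ⟨rfl, rfl, Iff.rfl, Iff.rfl⟩
  | succ n hn ih =>
    obtain ⟨a1, a2, a3, a4⟩ := (hE n).off z (h n hn) j
    obtain ⟨b1, b2, b3, b4⟩ := ih
    exact ⟨a1.trans b1, a2.trans b2, a3.trans b3, a4.trans b4⟩

/-- the limit of a locally eventually constant sequence. -/
noncomputable def shLim (C : ShCtx V W ι) (Pn : ℕ → PData W ι C.B.J) (N : V → ℕ) : PData W ι C.B.J :=
  ⟨C.P.E, C.P.h, C.P.dr, fun j z => (Pn (N (C.F.q z))).mu j z, fun j z => (Pn (N (C.F.q z))).pot j z,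
    fun j => ⋃ n, (Pn n).Up j, fun j => ⋃ n, (Pn n).Un j⟩

omit [FiniteDimensional ℝ V] [Fintype ι] in
theorem sh_lim_agree (hE : ∀ n, ShExt C (Pn n) (Pn (n + 1)) (Un n)) {N : V → ℕ}
    (hN : ∀ x n, N x ≤ n → x ∉ Un n) {z : W} {n : ℕ} (h : ∀ k, n ≤ k → C.F.q z ∉ Un k) (j : C.B.J) :
    (shLim C Pn N).mu j z = (Pn n).mu j z ∧ (shLim C Pn N).pot j z = (Pn n).pot j z ∧
      (z ∈ (shLim C Pn N).Up j ↔ z ∈ (Pn n).Up j) ∧ (z ∈ (shLim C Pn N).Un j ↔ z ∈ (Pn n).Un j) := by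
  have A := sh_ext_stab hE h (max n (N (C.F.q z))) (le_max_left _ _) j
  have B := sh_ext_stab hE (hN (C.F.q z)) (max n (N (C.F.q z))) (le_max_right _ _) j
  have hup : Monotone fun n => (Pn n).Up j := monotone_nat_of_le_succ fun n => (hE n).up j
  have hun : Monotone fun n => (Pn n).Un j := monotone_nat_of_le_succ fun n => (hE n).un j
  refine ⟨B.1.symm.trans A.1, B.2.1.symm.trans A.2.1, ⟨fun hz => ?_, fun hz => Set.mem_iUnion.2 ⟨n, hz⟩⟩,
    ⟨fun hz => ?_, fun hz => Set.mem_iUnion.2 ⟨n, hz⟩⟩⟩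
  · obtain ⟨k, hk⟩ := Set.mem_iUnion.1 hz
    exact (sh_ext_stab hE h (max k n) (le_max_right _ _) j).2.2.1.1 (hup (le_max_left k n) hk)
  · obtain ⟨k, hk⟩ := Set.mem_iUnion.1 hz
    exact (sh_ext_stab hE h (max k n) (le_max_right _ _) j).2.2.2.1 (hun (le_max_left k n) hk)

end lim

variable [FiniteDimensional ℝ W] [MeasurableSpace W] [BorelSpace W] {hh : C.B.J → W → ℝ} {tt : C.B.J → ℝ}

/-- **limit of a locally eventually constant sequence of states.** -/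
theorem sh_limit (hC : C.Ok) {θ : ℝ} (Pn : ℕ → PData W ι C.B.J) (Un : ℕ → Set V)
    (hS : ∀ n, ShState C hh tt θ (Pn n)) (hE : ∀ n, ShExt C (Pn n) (Pn (n + 1)) (Un n))
    (hloc : ∀ K : Set V, IsCompact K → ∀ᶠ n in atTop, Disjoint K (Un n)) :
    ∃ P', ShState C hh tt θ P' ∧ ∀ n, ShExt C (Pn n) P' Set.univ := by
  have hN0 : ∀ x : V, ∃ n₀, ∀ n, n₀ ≤ n → x ∉ Un n := by
    intro x
    obtain ⟨n₀, h⟩ := eventually_atTop.1 (hloc {x} isCompact_singleton)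
    exact ⟨n₀, fun n hn hx => Set.disjoint_left.1 (h n hn) rfl hx⟩
  choose N hN using hN0
  have hK : ∀ K : Set V, IsCompact K → ∃ n, ∀ z, C.F.q z ∈ K → ∀ k, n ≤ k → C.F.q z ∉ Un k := by
    intro K hK
    obtain ⟨n₀, h⟩ := eventually_atTop.1 (hloc K hK)
    exact ⟨n₀, fun z hz k hk hx => Set.disjoint_left.1 (h k hk) hz hx⟩
  refine ⟨shLim C Pn N, ⟨rfl, rfl, rfl, ?label, ?upm, ?unm, ?potm, ?upa, ?una, ?pas, ?bud⟩,
    fun n => ⟨fun j => Set.subset_iUnion (fun n => (Pn n).Up j) n,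
      fun j => Set.subset_iUnion (fun n => (Pn n).Un j) n, fun z hz => absurd (Set.mem_univ _) hz⟩⟩
  case label =>
    intro j hj
    refine LabelOk.congr (P := shMk C ((shLim C Pn N).mu j) ((shLim C Pn N).pot j) ((shLim C Pn N).Up j)
      ((shLim C Pn N).Un j)) ?_ rfl rfl rfl rfl rfl rfl
    refine sh_label_local fun K hK' => ?_
    obtain ⟨n, hn⟩ := hK K hK'
    refine ⟨(Pn n).mu j, (Pn n).pot j, (Pn n).Up j, (Pn n).Un j, ?_, fun z hz => sh_lim_agree hE hN (hn z hz) j⟩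
    exact ((hS n).label j hj).congr (hS n).E_eq.symm (hS n).h_eq.symm rfl rfl rfl rfl
  case upm =>
    exact fun j hj => ((hS 0).up_mono j hj).trans (Set.subset_iUnion (fun n => (Pn n).Up j) 0)
  case unm =>
    exact fun j hj => ((hS 0).un_mono j hj).trans (Set.subset_iUnion (fun n => (Pn n).Un j) 0)
  case potm =>
    exact fun j hj z => (hS _).pot_mono j hj z
  case upa =>
    intro j hj z hz hzU
    obtain ⟨n, hn⟩ := Set.mem_iUnion.1 hzU
    exact (hS n).up_anchor j hj z hz hn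
  case una =>
    intro j hj z hz hzU
    obtain ⟨n, hn⟩ := Set.mem_iUnion.1 hzU
    exact (hS n).un_anchor j hj z hz hn
  case pas =>
    intro K hK'
    obtain ⟨n, hn⟩ := hK K hK'
    refine ((hS n).passive K hK').subset ?_
    rintro j ⟨hj, z, hz, hq, hnp⟩
    refine ⟨hj, z, hz, hq, fun hp => hnp ?_⟩
    obtain ⟨a1, a2, a3, a4⟩ := sh_lim_agree hE hN (hn z hq) j
    exact ⟨a1.trans hp.1, a4.2 hp.2.1, fun h => hp.2.2.1 (a3.1 h), a2.trans hp.2.2.2⟩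
  case bud =>
    intro α
    rcases (C.P.E α).eq_empty_or_nonempty with he | hne
    · unfold ShCtx.Bud
      rw [he]
      exact sh_bud_of_empty _ _ _ _ _ _ _ _
    refine sh_three_gen hC α hne (fun 𝔉 => ∀ n, 𝔉.Bud (fun z => 1.16 * C.add (Pn n) z) θ C.e0 0)
      (fun 𝔉 => 𝔉.Bud (fun z => 1.16 * C.add (shLim C Pn N) z) θ C.e0 0) (fun 𝔉 hOk _ hn => ?_)
      (fun n => ((hS n).budget α).1) (fun n => ((hS n).budget α).2.1) (fun n => ((hS n).budget α).2.2)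
    refine ShForm.bud_of_local hOk fun K' hK' _ => ?_
    obtain ⟨n, hn'⟩ := hK (C.F.q '' K') (hK'.image C.F.q.continuous)
    refine ⟨_, hn n, fun x hx => ?_⟩
    have : C.add (shLim C Pn N) x = C.add (Pn n) x := by
      unfold ShCtx.add
      refine tsum_congr fun j => ?_
      by_cases hj : j ∈ C.R
      · rw [Set.indicator_of_mem hj, Set.indicator_of_mem hj,
          (sh_lim_agree hE hN (hn' x ⟨x, hx, rfl⟩) j).2.1]
      · rw [Set.indicator_of_notMem hj, Set.indicator_of_notMem hj]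
    rw [this]

end Claimed.Agent.R315
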