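import Claimed.Agent.R315.Sh.Block
import Claimed.Agent.R315.Sh.Lim

/-!
# Row 315, package SH-GLOB: exhaustion of `V`, limit of locally eventually constant states, induction on the statuses: `sh_shield` (P Proposition D.6)

* `sh_limit`: `Pn` states with the same bound `θ`, `Pn (n+1)` extends `Pn n` over `Un n`, and every compact `K ⊆ V` misses `Un n` for `n` large.  Define `P∞` pointwise:
  `mu j z = (Pn (N z)).mu j z`, `pot` likewise, `Up j = ⋃ n, (Pn n).Up j`, `Un` likewise, `E, h, dr` of `C.P`, where `N z` = an index beyond which `q z ∉ Un n` (`Classical.choose` for `K = {q z}`).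
  KEY: for every compact `K` there is `n₀` with: all data of `P∞` at points over `K` are the data of `Pn n`, `n ≥ n₀` (`ShExt.off` + induction).  Apply it to compact NEIGHBOURHOODS (closed balls of `V`; `q` continuous).
  All fields of `ShState` are local over `V`:  continuity, slope, `RelOpen`, poles: use a ball around `q z`;  `Compat`, `passive`: are quantified over compact `K`;  `SmoothAlong`: chartwise, `ContDiffOn` is local (cover `U` by `(q ∘ ψ)⁻¹ (ball)`);
  pointwise fields: `K = {q z}`;  `budget`: `ShForm.bud_of_local` (`sh_fw_ok`, `sh_fs_ok`) with `D' = 1.16 * C.add (Pn n)`, `n ≥ n₀(q(K'))`, `K'` the compact carrier.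
* `sh_stage`: `K_i = closedBall 0 i`, `U_i = (closedBall 0 (i - 1))ᶜ`.  Recursion with `sh_block` (allowance `γ/2^{i+1}`): `P^{(i)}` has `ShDone β K_i`; the risky points of `P^{(i)}` over `K_{i+1}` lie over `K_iᶜ ⊆ U_i`; `hface` persists (`ShDone.ext`).  Then `sh_limit`,
  `ShDone` of the limit over every `K_i` by `ShDone.ext`, and `⋃ K_i = V`.
* `sh_induct`: for a face-closed finset `𝒟` of statuses there is a state with bound `.78 + γ |𝒟|` which is done on `𝒟`.  Induction on `|𝒟|`: remove `β ∈ 𝒟` with MINIMAL `hits` (a proper face has more hits: `hits (β.faceS J) = hits β + |J|`), so `𝒟 \ {β}` is face-closed and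
  contains all proper faces of `β`; induction hypothesis, then `sh_stage`, `ShDone.ext` for the old ones.
* `sh_shield`: `sh_need_anchor`, `sh_state_init`, `sh_induct` with `𝒟 = univ`, `γ = .1/card (Stat ι)`, `ShState.shieldOK`.
-/

set_option autoImplicit false
open scoped ContDiff ENNReal Topology
open MeasureTheory Claims.C0499 Filter

namespace Claimed.Agent.R315

variable {V W : Type} [NormedAddCommGroup V] [NormedSpace ℝ V] [NormedAddCommGroup W] [NormedSpace ℝ W] {ι : Type}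
  [FiniteDimensional ℝ V] [FiniteDimensional ℝ W] [Fintype ι] [MeasurableSpace W] [BorelSpace W]
  {C : ShCtx V W ι} {hh : C.B.J → W → ℝ} {tt : C.B.J → ℝ}

/-- **one status.** -/
theorem sh_stage (hC : C.Ok) (hA : ShAnchor C hh tt) {θ γ : ℝ} {P1 : PData W ι C.B.J} (hS : ShState C hh tt θ P1)
    (hθ : 0.78 ≤ θ) (hθγ : θ + γ ≤ 1) (hγ : 0 < γ) (β : Stat ι)
    (hface : ∀ J : Finset ι, J.Nonempty → (∀ j ∈ J, β j ≠ 0) → ShDone C P1 (β.faceS J) Set.univ) :
    ∃ P2, ShState C hh tt (θ + γ) P2 ∧ ShExt C P1 P2 Set.univ ∧ ShDone C P2 β Set.univ := by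
  let th : ℕ → ℝ := shTh θ γ
  have hth_le : ∀ n, th n ≤ θ + γ := shTh_le hγ
  have hth_ge : ∀ n, θ ≤ th n := shTh_ge hγ
  have hth_succ : ∀ n, th n + γ * (1 / 2) ^ (n + 1) = th (n + 1) := shTh_succ θ γ
  let A : ℕ → PData W ι C.B.J → Prop := fun n P =>
    ShState C hh tt (th n) P ∧ ShDone C P β (Metric.closedBall (0 : V) ((n : ℝ) - 1)) ∧
      ∀ J : Finset ι, J.Nonempty → (∀ j ∈ J, β j ≠ 0) → ShDone C P (β.faceS J) Set.univ
  let U : ℕ → Set V := fun n => (Metric.closedBall (0 : V) ((n : ℝ) - 2))ᶜ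
  have h0 : A 0 P1 := by
    refine ⟨by simpa [th, shTh_zero] using hS, ?_, hface⟩
    intro z _ hq
    have : Metric.closedBall (0 : V) (((0 : ℕ) : ℝ) - 1) = ∅ := Metric.closedBall_eq_empty.2 (by norm_num)
    rw [this] at hq
    exact hq.elim
  have hstep : ∀ n P, A n P → ∃ P', A (n + 1) P' ∧ ShExt C P P' (U n) := by
    rintro n P ⟨hP, hd, hf⟩
    have hg : 0 < γ * (1 / 2) ^ (n + 1) := by positivity
    obtain ⟨P', h1, h2, h3⟩ := sh_block hC hA hP (hθ.trans (hth_ge n))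
      (by rw [hth_succ]; exact (hth_le _).trans hθγ) hg β hf
      (isCompact_closedBall (0 : V) (n : ℝ)) (U := U n) Metric.isClosed_closedBall.isOpen_compl
      (by
        intro z hz _ hc hmem
        exact hd z hz (Metric.closedBall_subset_closedBall (by linarith) hmem) hc)
    refine ⟨P', ⟨by rw [← hth_succ]; exact h1, ?_, fun J hJ hJ' => (hf J hJ hJ').ext h2⟩, h2⟩
    have : ((n + 1 : ℕ) : ℝ) - 1 = n := by push_cast; ring
    rw [this]; exact h3
  obtain ⟨Pn, hP0, hPA, hPR⟩ := sh_depChoice A (fun n P P' => ShExt C P P' (U n)) P1 h0 hstep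
  obtain ⟨P', hS', hE'⟩ := sh_limit hC Pn U (fun n => (hPA n).1.mono hC (hth_le n)) hPR (by
    intro K hK
    obtain ⟨r, hr⟩ := hK.isBounded.subset_closedBall (0 : V)
    obtain ⟨N, hN⟩ := exists_nat_ge (r + 2)
    filter_upwards [eventually_ge_atTop N] with n hn
    refine Set.disjoint_left.2 fun x hx hxU => hxU ?_
    have : (N : ℝ) ≤ n := by exact_mod_cast hn
    exact Metric.closedBall_subset_closedBall (by linarith) (hr hx))
  refine ⟨P', hS', by rw [← hP0]; exact hE' 0, ?_⟩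
  intro z hz _ hc
  obtain ⟨N, hN⟩ := exists_nat_ge (‖C.F.q z‖ + 1)
  refine ((hPA N).2.1.ext (hE' N)) z hz ?_ hc
  rw [mem_closedBall_zero_iff]; linarith

theorem sh_induct_aux (hC : C.Ok) (hA : ShAnchor C hh tt) {γ : ℝ} (hγ : 0 < γ) (n : ℕ) :
    ∀ 𝒟 : Finset (Stat ι), 𝒟.card = n →
    (∀ β ∈ 𝒟, ∀ J : Finset ι, (∀ j ∈ J, β j ≠ 0) → β.faceS J ∈ 𝒟) → 0.78 + γ * n ≤ 1 →
    ∃ P1, ShState C hh tt (0.78 + γ * n) P1 ∧ ∀ β ∈ 𝒟, ShDone C P1 β Set.univ := by
  classical
  induction n with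
  | zero =>
    intro 𝒟 hn _ _
    have h𝒟 : 𝒟 = ∅ := Finset.card_eq_zero.1 hn
    subst h𝒟
    exact ⟨C.P, by simpa using sh_state_init hC hA, by simp⟩
  | succ n ih =>
    intro 𝒟 hn hcl hb
    have hne : 𝒟.Nonempty := Finset.card_pos.1 (by omega)
    obtain ⟨β, hβ, hmin⟩ := Finset.exists_min_image 𝒟 hits hne
    have hne' : ∀ β' ∈ 𝒟, ∀ J : Finset ι, J.Nonempty → (∀ j ∈ J, β' j ≠ 0) → β'.faceS J ≠ β := by
      intro β' h1 J hJ0 hJ heq
      have h2 := sh_hits_faceS β' J hJ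
      rw [heq] at h2
      have h3 := hmin β' h1
      have : 0 < J.card := Finset.card_pos.2 hJ0
      omega
    have hcl' : ∀ β' ∈ 𝒟.erase β, ∀ J : Finset ι, (∀ j ∈ J, β' j ≠ 0) → β'.faceS J ∈ 𝒟.erase β := by
      intro β' hβ' J hJ
      have h1 := Finset.mem_of_mem_erase hβ'
      refine Finset.mem_erase.2 ⟨?_, hcl β' h1 J hJ⟩
      rcases J.eq_empty_or_nonempty with rfl | hJ0
      · have : β'.faceS ∅ = β' := by funext i; simp [Stat.faceS]
        rw [this]; exact (Finset.mem_erase.1 hβ').1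
      · exact hne' β' h1 J hJ0 hJ
    have hcard : (𝒟.erase β).card = n := by rw [Finset.card_erase_of_mem hβ, hn]; rfl
    have hγn : (0.78 : ℝ) + γ * n + γ = 0.78 + γ * (n + 1 : ℕ) := by push_cast; ring
    obtain ⟨P1, hS1, hd1⟩ := ih (𝒟.erase β) hcard hcl' (by rw [← hγn] at hb; linarith)
    obtain ⟨P2, hS2, hE, hd2⟩ := sh_stage hC hA hS1 (by nlinarith [hγ, (Nat.cast_nonneg n : (0 : ℝ) ≤ n)])
      (by rw [hγn]; exact hb) hγ β (fun J hJ0 hJ =>
        hd1 _ (Finset.mem_erase.2 ⟨hne' β hβ J hJ0 hJ, hcl β hβ J hJ⟩))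
    refine ⟨P2, by rw [← hγn]; exact hS2, fun β' hβ' => ?_⟩
    by_cases h : β' = β
    · rw [h]; exact hd2
    · exact (hd1 β' (Finset.mem_erase.2 ⟨h, hβ'⟩)).ext hE

/-- **induction on face-closed sets of statuses.** -/
theorem sh_induct (hC : C.Ok) (hA : ShAnchor C hh tt) {γ : ℝ} (hγ : 0 < γ) (𝒟 : Finset (Stat ι))
    (hcl : ∀ β ∈ 𝒟, ∀ J : Finset ι, (∀ j ∈ J, β j ≠ 0) → β.faceS J ∈ 𝒟) (hb : 0.78 + γ * 𝒟.card ≤ 1) :
    ∃ P1, ShState C hh tt (0.78 + γ * 𝒟.card) P1 ∧ ∀ β ∈ 𝒟, ShDone C P1 β Set.univ :=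
  sh_induct_aux hC hA hγ 𝒟.card 𝒟 rfl hcl hb

/-- **THE GLOBAL SHIELDING OUTPUT** (P Proposition D.6). -/
theorem sh_shield (C : ShCtx V W ι) (hC : C.Ok) : ∃ P1, ShieldOK C P1 := by
  classical
  obtain ⟨hh, tt, hA⟩ := sh_need_anchor C hC
  have hcard : (0 : ℝ) < (Finset.univ : Finset (Stat ι)).card := by
    have : (Finset.univ : Finset (Stat ι)).Nonempty := ⟨fun _ => 0, Finset.mem_univ _⟩
    exact_mod_cast this.card_pos
  have hγ : (0 : ℝ) < 0.1 / (Finset.univ : Finset (Stat ι)).card := by positivity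
  have he : (0.78 : ℝ) + 0.1 / (Finset.univ : Finset (Stat ι)).card * (Finset.univ : Finset (Stat ι)).card = 0.88 := by
    rw [div_mul_cancel₀ _ hcard.ne']; norm_num
  obtain ⟨P1, hS, hd⟩ := sh_induct hC hA hγ Finset.univ (fun _ _ _ _ => Finset.mem_univ _) (by rw [he]; norm_num)
  exact ⟨P1, hS.shieldOK hC (by rw [he]) fun α => hd α (Finset.mem_univ _)⟩

end Claimed.Agent.R315
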