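import Claimed.Agent.R315.Sh.Form
import Claimed.Agent.R315.Sh.ImsY

/-!
# Row 315, package SH-IMS-A: the concrete forms `shFW`, `shFS` are admissible (`ShForm.Ok`)

Setting: `(d, M, h, t)` = `CtGeo`, `M` closed, `2 ≤ d`, `p` smooth, `A` = `CtLAM`.  Definitions `ShTW`, `ShTS`, `shNW`, `shNS`, `shMW`, `shMS`, `shFW`, `shFS`, `ShForm.Ok/Ims/Bud`: `Sh/Defs.lean`.
Tools: `Ct/Reg.lean` (`ct_wall_geo`, `ct_wall_smooth`, `ct_wall_open`, `CtLAM.sing_closed`, `CtLAM.wper_sing`, `CtLAM.wper_eq`, `ct_def_near`, `ct_bd_diff`), `Ct/Var.lean` (`ct_rm_level_gradSq`), `CtLF.fin` (perimeter finite on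
compact sets), `Gs/Calc.lean` (`gs_sm_*` algebra of `SmoothAlong`, `gs_sq_mul`, `gs_sq_comp`, `gs_ip_*`: pointwise calculus of `gradSq`, `gradIp`), `Ct/Bv.lean` (`wvol` finite on compact subsets of `M`).   Write `d = d' + 1` first.

* `sh_fw_ok`, `sh_fs_ok`: `N ≥ 0` (integrals of `gradSq ≥ 0`: `gs_sq_nonneg` on the wall, `sh`-free: `integral_nonneg`; off the wall `gradSq = 0` by the default value of `pv`), finite mass and compact carrier (`v = 0` off a compact `K ⊆ M`; `wper`, `wvol` vanish off `M`).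
* `sh_bud_of_empty`: on the empty manifold all measures vanish.
* `sh_aemeasurable`: `f` restricted to the closed (measurable) set `M` is measurable (`ContinuousOn.measurable_piecewise` / `ContinuousOn.aemeasurable`), the measure is carried by `M`.
-/

set_option autoImplicit false
open scoped ContDiff ENNReal Topology
open MeasureTheory Claims.C0499

namespace Claimed.Agent.R315

variable {V : Type} [NormedAddCommGroup V] [NormedSpace ℝ V] [FiniteDimensional ℝ V] [MeasurableSpace V] [BorelSpace V]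
variable {d : ℕ} {M : Set V} {h : Ten V} {t p : V → ℝ} {A : Set V}

/-- a density which vanishes on `M` off `K` gives no mass to `Kᶜ`. -/
theorem sh_dens_compl (hG : CtGeo d M h t) {ρ : V → ℝ≥0∞} {K : Set V} (hK : IsCompact K)
    (h0 : ∀ x ∈ M, x ∉ K → ρ x = 0) (B : Set V) : (((wvol d M h t).restrict B).withDensity ρ) Kᶜ = 0 := by
  rw [withDensity_apply _ hK.measurableSet.compl]
  have h1 : ∀ᵐ x ∂(((wvol d M h t).restrict B).restrict Kᶜ), ρ x = 0 := by
    refine (ae_restrict_iff' hK.measurableSet.compl).2 (ae_restrict_of_ae ?_)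
    filter_upwards [sh_ae_mem hG] with x hx hxK
    exact h0 x hx hxK
  rw [lintegral_congr_ae h1, lintegral_zero]

theorem sh_fw_ok (hG : CtGeo d M h t) (hM : IsClosed M) (hd : 2 ≤ d) (hp : SmoothAlong d M p)
    (hA : CtLAM d M h t p A) : (shFW d M h t A).Ok M := by
  obtain ⟨d', rfl⟩ : ∃ d', d = d' + 1 := ⟨d - 1, by omega⟩
  have hS : CtGeo d' (ctWall (d' + 1) M A) h t := ct_wall_geo hG A
  have hP : wper (d' + 1) M h t A = wvol d' (ctWall (d' + 1) M A) h t := hA.wper_eq hG hp (by omega)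
  have hSM : ctWall (d' + 1) M A ⊆ M := (ct_wall_subset_bd A).trans (ct_bd_subset A)
  refine ⟨?_, ?_, ?_⟩
  · rintro ⟨v, hv⟩
    have hvS : SmoothAlong d' (ctWall (d' + 1) M A) v := ct_wall_smooth hG A hv.smooth
    show 0 ≤ shNW _ _ _ _ _ _
    unfold shNW
    simp only [Nat.add_sub_cancel]
    rw [hP]
    refine mul_nonneg (by norm_num) (integral_nonneg_of_ae ?_)
    filter_upwards [sh_ae_mem hS] with x hx
    exact gs_sq_nonneg hS.mfd hS.met hvS hx
  · rintro ⟨v, hv⟩
    obtain ⟨K, hK, hKM, hKS, hK0⟩ := hv.cs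
    have hvS : SmoothAlong d' (ctWall (d' + 1) M A) v := ct_wall_smooth hG A hv.smooth
    have hK' : IsCompact (K ∩ ctWall (d' + 1) M A) := sh_wall_cpt hG.mfd A hK hKM hKS
    have hint : Integrable (fun x => v x ^ 2) (wvol d' (ctWall (d' + 1) M A) h t) :=
      sh_integrable_cs hS ((if_smoothAlong_continuousOn hS.mfd hvS).pow 2) hK' Set.inter_subset_right
        fun x hx hxK => by
          rw [hK0 x (hSM hx) fun hxK' => hxK ⟨hxK', hx⟩]
          simp
    show shMW _ _ _ _ _ _ Set.univ ≠ ⊤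
    unfold shMW
    rw [hP, withDensity_apply _ MeasurableSet.univ, Measure.restrict_univ]
    exact hint.lintegral_lt_top.ne
  · rintro ⟨v, hv⟩
    obtain ⟨K, hK, hKM, hKS, hK0⟩ := hv.cs
    refine ⟨K, hK, hKM, ?_⟩
    have := sh_dens_compl hS (ρ := fun x => ENNReal.ofReal (v x ^ 2)) hK
      (fun x hx hxK => by rw [hK0 x (hSM hx) hxK]; simp) Set.univ
    rw [Measure.restrict_univ] at this
    show shMW _ _ _ _ _ _ Kᶜ = 0
    unfold shMW
    rw [hP]
    exact this

theorem sh_fs_ok (hG : CtGeo d M h t) (hM : IsClosed M) (hd : 2 ≤ d) (hp : SmoothAlong d M p)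
    (hA : CtLAM d M h t p A) : (shFS d M h t A).Ok M := by
  obtain ⟨d', rfl⟩ : ∃ d', d = d' + 1 := ⟨d - 1, by omega⟩
  have hS : CtGeo d' (ctWall (d' + 1) M A) h t := ct_wall_geo hG A
  have hP : wper (d' + 1) M h t A = wvol d' (ctWall (d' + 1) M A) h t := hA.wper_eq hG hp (by omega)
  have hSM : ctWall (d' + 1) M A ⊆ M := (ct_wall_subset_bd A).trans (ct_bd_subset A)
  refine ⟨?_, ?_, ?_⟩
  · rintro ⟨⟨vb, vc⟩, hv⟩
    replace hv : ShTS (d' + 1) M A vb vc := hv
    have hwS := sh_cyl_sub (k := d') hG.mfd hSM hv.c_smooth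
    show 0 ≤ shNS _ _ _ _ _ _ _
    unfold shNS
    simp only [Nat.add_sub_cancel]
    rw [hP]
    refine add_nonneg (mul_nonneg (by norm_num) (integral_nonneg_of_ae (ae_restrict_of_ae ?_)))
      (mul_nonneg (by norm_num) (integral_nonneg fun s => integral_nonneg_of_ae ?_))
    · filter_upwards [sh_ae_mem hG] with x hx
      exact gs_sq_nonneg hG.mfd hG.met hv.b_smooth hx
    · filter_upwards [sh_ae_mem hS] with x hx
      exact add_nonneg (gs_sq_nonneg hS.mfd hS.met (sh_cyl_slice hS.mfd hwS s) hx) (sq_nonneg _)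
  · rintro ⟨⟨vb, vc⟩, hv⟩
    replace hv : ShTS (d' + 1) M A vb vc := hv
    obtain ⟨K, L, hK, hKM, hKS, hK0, hL⟩ := hv.cs
    have hwS := sh_cyl_sub (k := d') hG.mfd hSM hv.c_smooth
    have hK' : IsCompact (K ∩ ctWall (d' + 1) M A) := sh_wall_cpt hG.mfd A hK hKM hKS
    have hci : ShCI (ctWall (d' + 1) M A) (K ∩ ctWall (d' + 1) M A) L vc :=
      sh_ci_self hS.mfd hwS (fun x hx hxK => (hK0 x (hSM hx) fun hxK' => hxK ⟨hxK', hx⟩).2) hL
    have hint : Integrable (fun x => vb x ^ 2) (wvol (d' + 1) M h t) :=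
      sh_integrable_cs hG ((if_smoothAlong_continuousOn hG.mfd hv.b_smooth).pow 2) hK hKM
        fun x hx hxK => by
          rw [(hK0 x hx hxK).1]
          simp
    show shMS _ _ _ _ _ _ _ Set.univ ≠ ⊤
    unfold shMS
    rw [hP, Measure.add_apply, withDensity_apply _ MeasurableSet.univ, withDensity_apply _ MeasurableSet.univ,
      Measure.restrict_univ, Measure.restrict_univ,
      ← hci.sq.ofReal_iter hS hK' Set.inter_subset_right (fun _ _ _ => sq_nonneg _)]
    exact ENNReal.add_ne_top.2 ⟨hint.integrableOn.lintegral_lt_top.ne, ENNReal.ofReal_ne_top⟩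
  · rintro ⟨⟨vb, vc⟩, hv⟩
    replace hv : ShTS (d' + 1) M A vb vc := hv
    obtain ⟨K, L, hK, hKM, hKS, hK0, hL⟩ := hv.cs
    refine ⟨K, hK, hKM, ?_⟩
    have h1 := sh_dens_compl hG (ρ := fun x => ENNReal.ofReal (vb x ^ 2)) hK
      (fun x hx hxK => by rw [(hK0 x hx hxK).1]; simp) A
    have h2 := sh_dens_compl hS (ρ := fun x => ∫⁻ s in Set.Ioi (0 : ℝ), ENNReal.ofReal (vc x s ^ 2)) hK
      (fun x hx hxK => by simp [(hK0 x (hSM hx) hxK).2]) Set.univ
    rw [Measure.restrict_univ] at h2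
    show shMS _ _ _ _ _ _ _ Kᶜ = 0
    unfold shMS
    rw [hP, Measure.add_apply, h1, h2, add_zero]

/-- on the empty manifold all measures vanish (`wper`, `wvol` are carried by `M`), so every budget holds. -/
theorem sh_bud_of_empty (d : ℕ) (h : Ten V) (t : V → ℝ) (A : Set V) (D : V → ℝ) (θ e0 Cm : ℝ) :
    ShBud d (∅ : Set V) h t A D θ e0 Cm := by
  have hP : ∀ B : Set V, wper d (∅ : Set V) h t B = 0 := by
    intro B
    unfold wper
    split_ifs with H
    · have := H.choose_spec.1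
      rw [Set.compl_empty] at this
      exact Measure.measure_univ_eq_zero.1 this
    · rfl
  have hμ : wvol d (∅ : Set V) h t = 0 := by
    unfold wvol
    rw [Set.indicator_empty]
    exact withDensity_zero
  refine ⟨fun v => ?_, fun v => ?_, fun v => ?_⟩
  · have : (shFW d (∅ : Set V) h t A).m v = 0 := by
      show shMW _ _ _ _ _ _ = 0
      unfold shMW
      rw [hP, withDensity_zero_left]
    rw [this, lintegral_zero_measure]
    exact zero_le
  · have : (shFS d (∅ : Set V) h t A).m v = 0 := by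
      show shMS _ _ _ _ _ _ _ = 0
      unfold shMS
      rw [hP, hμ, Measure.restrict_zero, withDensity_zero_left, withDensity_zero_left, add_zero]
    rw [this, lintegral_zero_measure]
    exact zero_le
  · have : (shFS d (∅ : Set V) h t (∅ \ A)).m v = 0 := by
      show shMS _ _ _ _ _ _ _ = 0
      unfold shMS
      rw [hP, hμ, Measure.restrict_zero, withDensity_zero_left, withDensity_zero_left, add_zero]
    rw [this, lintegral_zero_measure]
    exact zero_le

/-- functions which are continuous on `M` are a.e. measurable for measures carried by the closed set `M`. -/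
theorem sh_aemeasurable {𝔉 : ShForm V} (hOk : 𝔉.Ok M) (hM : IsClosed M) {f : V → ℝ} (hf : ContinuousOn f M)
    (v : 𝔉.T) : AEMeasurable f (𝔉.m v) := by
  obtain ⟨K, _, hKM, hK0⟩ := hOk.cs v
  have h1 : 𝔉.m v Mᶜ = 0 := measure_mono_null (Set.compl_subset_compl.2 hKM) hK0
  have h2 : (𝔉.m v).restrict M = 𝔉.m v := Measure.restrict_eq_self_of_ae_mem (by rw [ae_iff]; exact h1)
  rw [← h2]
  exact hf.aemeasurable hM.measurableSet

end Claimed.Agent.R315
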