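import Claimed.Agent.R315.Sh.ImsA
import Claimed.Agent.R315.Rm.Glob

/-!
# Row 315, package SH-IMS-B: tangential gradient `≤` full gradient at wall points

Setting: `(d, M, h, t)` = `CtGeo`, `M` closed, `2 ≤ d`, `p` smooth, `A` = `CtLAM`.  Definitions `ShTW`, `ShTS`, `shNW`, `shNS`, `shMW`, `shMS`, `shFW`, `shFS`, `ShForm.Ok/Ims/Bud`: `Sh/Defs.lean`.
Tools: `Ct/Reg.lean` (`ct_wall_geo`, `ct_wall_smooth`, `ct_wall_open`, `CtLAM.sing_closed`, `CtLAM.wper_sing`, `CtLAM.wper_eq`, `ct_def_near`, `ct_bd_diff`), `Ct/Var.lean` (`ct_rm_level_gradSq`), `CtLF.fin` (perimeter finite on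
compact sets), `Gs/Calc.lean` (`gs_sm_*` algebra of `SmoothAlong`, `gs_sq_mul`, `gs_sq_comp`, `gs_ip_*`: pointwise calculus of `gradSq`, `gradIp`), `Ct/Bv.lean` (`wvol` finite on compact subsets of `M`).   Write `d = d' + 1` first.

* `sh_tan_le`: local defining function with `|dφ| = 1` (`ct_def_near` with `K = {x}`), locality of `gradSq` (`if_gradSq_inter`), `CtDef.sets` (wall = level set), `ct_rm_level_gradSq` / `rm_level_gradSq` (`Rm/Glob.lean`).
-/

set_option autoImplicit false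
open scoped ContDiff ENNReal Topology
open MeasureTheory Claims.C0499

namespace Claimed.Agent.R315

variable {V : Type} [NormedAddCommGroup V] [NormedSpace ℝ V] [FiniteDimensional ℝ V] [MeasurableSpace V] [BorelSpace V]
variable {d : ℕ} {M : Set V} {h : Ten V} {t p : V → ℝ} {A : Set V}

/-- tangential gradient `≤` full gradient. -/
theorem sh_tan_le (hG : CtGeo d M h t) (hd : 2 ≤ d) (hA : MeasurableSet A) {f : V → ℝ}
    (hf : SmoothAlong d M f) {x : V} (hx : x ∈ ctWall d M A) :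
    gradSq (d - 1) (ctWall d M A) h f x ≤ gradSq d M h f x := by
  obtain ⟨d', rfl⟩ : ∃ d', d = d' + 1 := ⟨d - 1, by omega⟩
  rw [Nat.add_sub_cancel]
  obtain ⟨O, φ, hO, hKO, hφ, hn⟩ :=
    ct_def_near hG hA (K := {x}) isCompact_singleton (Set.singleton_subset_iff.2 hx)
  have hxO : x ∈ O := hKO rfl
  have hW := (ct_wall_inter_def hG hO hφ).1
  have hxW : x ∈ ctWall (d' + 1) M A ∩ O := ⟨hx, hxO⟩
  have hxL : x ∈ {y | y ∈ M ∩ O ∧ φ y = 0} := hW ▸ hxW
  have hGW : CtGeo d' (ctWall (d' + 1) M A) h t := ct_wall_geo hG A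
  have hGO : CtGeo (d' + 1) (M ∩ O) h t := hG.inter hO
  have h1 : gradSq d' (ctWall (d' + 1) M A ∩ O) h f x = gradSq d' (ctWall (d' + 1) M A) h f x :=
    if_gradSq_inter hGW.mfd hGW.met hO (ct_wall_smooth hG A hf) hxW
  have h2 : gradSq (d' + 1) (M ∩ O) h f x = gradSq (d' + 1) M h f x :=
    if_gradSq_inter hG.mfd hG.met hO hf hxL.1
  have h3 := rm_level_gradSq hGO hφ.smooth (if_smoothAlong_inter hf hO) hxL.1 hxL.2
    (hn x hxL.1 hxL.2)
  rw [← h1, hW, h3, h2]
  nlinarith [sq_nonneg (gradIp (d' + 1) (M ∩ O) h f φ x)]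

end Claimed.Agent.R315
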