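import Claimed.Agent.R315.Sh.ImsB
import Claimed.Agent.R315.Sh.ImsT

/-!
# Row 315, package SH-IMS-C: the IMS localisation formula on the wall

Setting: `(d, M, h, t)` = `CtGeo`, `M` closed, `2 ≤ d`, `p` smooth, `A` = `CtLAM`.  Definitions `ShTW`, `ShTS`, `shNW`, `shNS`, `shMW`, `shMS`, `shFW`, `shFS`, `ShForm.Ok/Ims/Bud`: `Sh/Defs.lean`.
Tools: `Ct/Reg.lean` (`ct_wall_geo`, `ct_wall_smooth`, `ct_wall_open`, `CtLAM.sing_closed`, `CtLAM.wper_sing`, `CtLAM.wper_eq`, `ct_def_near`, `ct_bd_diff`), `Ct/Var.lean` (`ct_rm_level_gradSq`), `CtLF.fin` (perimeter finite on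
compact sets), `Gs/Calc.lean` (`gs_sm_*` algebra of `SmoothAlong`, `gs_sq_mul`, `gs_sq_comp`, `gs_ip_*`: pointwise calculus of `gradSq`, `gradIp`), `Ct/Bv.lean` (`wvol` finite on compact subsets of `M`).   Write `d = d' + 1` first.

* `sh_ims_wall`: `vs = sin ϑ · v`, `vc = cos ϑ · v` (tests: `gs_sm_mul`, `gs_sm_comp`).  POINTWISE on the wall `S` (dimension `d - 1`):
  `|∇(sv)|² + |∇(cv)|² = |∇v|² + v² |∇ϑ|²`  (`gs_sq_mul`: `|∇(fg)|² = f²|∇g|² + 2fg⟨∇f,∇g⟩ + g²|∇f|²`; `gs_sq_comp`, `gs_ip_comp_left`: `∇ sin ϑ = cos ϑ ∇ϑ`;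
  the mixed terms cancel, `s² + c² = 1`).  Integrate against `wper` (all integrands are continuous on `S` and vanish off the compact set
  `K ∩ ctBd`, which lies in `S` because `K` misses `Σ`), then `1.7 |∇_S ϑ|² ≤ 1.7 |∇ϑ|² ≤ G` (`sh_tan_le`), and `∫ G v² dP = ∫ G d(shMW v)`
  (`lintegral_withDensity_eq_lintegral_mul_non_measurable` or the a.e.-measurable version).
-/

set_option autoImplicit false
open scoped ContDiff ENNReal Topology
open MeasureTheory Claims.C0499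

namespace Claimed.Agent.R315

variable {V : Type} [NormedAddCommGroup V] [NormedSpace ℝ V] [FiniteDimensional ℝ V] [MeasurableSpace V] [BorelSpace V]
variable {d : ℕ} {M : Set V} {h : Ten V} {t p : V → ℝ} {A : Set V}

/-- **IMS on the wall.** -/
theorem sh_ims_wall (hG : CtGeo d M h t) (hM : IsClosed M) (hd : 2 ≤ d) (hp : SmoothAlong d M p)
    (hA : CtLAM d M h t p A) {ϑ G : V → ℝ} (hϑ : SmoothAlong d M ϑ)
    (hGG : ∀ x ∈ M, 1.7 * gradSq d M h ϑ x ≤ G x) : (shFW d M h t A).Ims ϑ G := by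
  obtain ⟨d', rfl⟩ : ∃ d', d = d' + 1 := ⟨d - 1, by omega⟩
  have hS : CtGeo d' (ctWall (d' + 1) M A) h t := ct_wall_geo hG A
  have hP : wper (d' + 1) M h t A = wvol d' (ctWall (d' + 1) M A) h t := hA.wper_eq hG hp (by omega)
  have hSM : ctWall (d' + 1) M A ⊆ M := (ct_wall_subset_bd A).trans (ct_bd_subset A)
  have hϑS : SmoothAlong d' (ctWall (d' + 1) M A) ϑ := ct_wall_smooth hG A hϑ
  rintro ⟨v, hv⟩
  obtain ⟨K, hK, hKM, hKS, hK0⟩ := hv.cs
  have hvS : SmoothAlong d' (ctWall (d' + 1) M A) v := ct_wall_smooth hG A hv.smooth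
  have hK' : IsCompact (K ∩ ctWall (d' + 1) M A) := sh_wall_cpt hG.mfd A hK hKM hKS
  have hK'0 : ∀ x ∈ ctWall (d' + 1) M A, x ∉ K ∩ ctWall (d' + 1) M A → v x = 0 := fun x hx hxK =>
    hK0 x (hSM hx) fun hxK' => hxK ⟨hxK', hx⟩
  have hs : ShTW (d' + 1) M A fun x => Real.sin (ϑ x) * v x :=
    ⟨gs_sm_mul (sh_sm_sin hϑ) hv.smooth, K, hK, hKM, hKS, fun x hx hxK => by rw [hK0 x hx hxK, mul_zero]⟩
  have hc : ShTW (d' + 1) M A fun x => Real.cos (ϑ x) * v x :=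
    ⟨gs_sm_mul (sh_sm_cos hϑ) hv.smooth, K, hK, hKM, hKS, fun x hx hxK => by rw [hK0 x hx hxK, mul_zero]⟩
  have hvc := if_smoothAlong_continuousOn hS.mfd hvS
  refine ⟨⟨_, hs⟩, ⟨_, hc⟩, ?_, ?_, ?_⟩
  · have := sh_dens_mul hS (if_smoothAlong_continuousOn hS.mfd (sh_sm_sin hϑS)) hvc Set.univ
    rw [Measure.restrict_univ] at this
    show shMW _ _ _ _ _ _ = (shMW _ _ _ _ _ _).withDensity _
    unfold shMW
    rw [hP]
    exact this
  · have := sh_dens_mul hS (if_smoothAlong_continuousOn hS.mfd (sh_sm_cos hϑS)) hvc Set.univ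
    rw [Measure.restrict_univ] at this
    show shMW _ _ _ _ _ _ = (shMW _ _ _ _ _ _).withDensity _
    unfold shMW
    rw [hP]
    exact this
  · have h1 := sh_ims_int hS hϑS hvS hK' Set.inter_subset_right hK'0 Set.univ
    have h2 := sh_err_le hS hϑS hvS hK' Set.inter_subset_right hK'0 (c := 1.7) (by norm_num) (Gf := G)
      (fun x hx => (mul_le_mul_of_nonneg_left (sh_tan_le hG hd hA.lf.meas hϑ hx) (by norm_num)).trans
        (hGG x (hSM hx))) Set.univ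
    simp only [Measure.restrict_univ] at h1 h2
    show ENNReal.ofReal (shNW _ _ _ _ _ _ + shNW _ _ _ _ _ _) ≤ ENNReal.ofReal (shNW _ _ _ _ _ _) +
      ∫⁻ x, ENNReal.ofReal (G x) ∂(shMW _ _ _ _ _ _)
    unfold shNW shMW
    simp only [Nat.add_sub_cancel]
    rw [hP, ← mul_add, h1, mul_add]
    exact ENNReal.ofReal_add_le.trans (add_le_add le_rfl h2)

end Claimed.Agent.R315
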