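import Claimed.Agent.R315.Sh.ImsB
import Claimed.Agent.R315.Sh.ImsY

/-!
# Row 315, package SH-IMS-D: the IMS localisation formula on a joined side

Setting: `(d, M, h, t)` = `CtGeo`, `M` closed, `2 ≤ d`, `p` smooth, `A` = `CtLAM`.  Definitions `ShTW`, `ShTS`, `shNW`, `shNS`, `shMW`, `shMS`, `shFW`, `shFS`, `ShForm.Ok/Ims/Bud`: `Sh/Defs.lean`.
Tools: `Ct/Reg.lean` (`ct_wall_geo`, `ct_wall_smooth`, `ct_wall_open`, `CtLAM.sing_closed`, `CtLAM.wper_sing`, `CtLAM.wper_eq`, `ct_def_near`, `ct_bd_diff`), `Ct/Var.lean` (`ct_rm_level_gradSq`), `CtLF.fin` (perimeter finite on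
compact sets), `Gs/Calc.lean` (`gs_sm_*` algebra of `SmoothAlong`, `gs_sq_mul`, `gs_sq_comp`, `gs_ip_*`: pointwise calculus of `gradSq`, `gradIp`), `Ct/Bv.lean` (`wvol` finite on compact subsets of `M`).   Write `d = d' + 1` first.

* `sh_ims_side`: as on the wall (`Sh/ImsC.lean`) with `(sin ϑ · vb, (x,s) ↦ sin ϑ x · vc x s)`: bulk coefficient `.8 ≤ 1.7`, cylinder: `ϑ` does not depend on `s`, so
  `∂_s` gives `(s² + c²)(∂_s vc)²`; Fubini only in the form `∫_s ∫_x`, exactly as in the definition of `shNS` (no exchange of the order is needed, except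
  for `∫ G d(shMS)`: `lintegral_lintegral_swap` / Tonelli for the nonnegative measurable integrand `G(x) vc(x,s)²`).
  POINTWISE identity: `|∇(sv)|² + |∇(cv)|² = |∇v|² + v² |∇ϑ|²` (`gs_sq_mul`, `gs_sq_comp`, `gs_ip_comp_left`).
-/

set_option autoImplicit false
open scoped ContDiff ENNReal Topology
open MeasureTheory Claims.C0499

namespace Claimed.Agent.R315

variable {V : Type} [NormedAddCommGroup V] [NormedSpace ℝ V] [FiniteDimensional ℝ V] [MeasurableSpace V] [BorelSpace V]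
variable {d : ℕ} {M : Set V} {h : Ten V} {t p : V → ℝ} {A : Set V}

/-- tests may be multiplied by smooth functions of the base. -/
theorem ShTS.mul {vb : V → ℝ} {vc : V → ℝ → ℝ} (hv : ShTS d M A vb vc) (hMf : IsMfd d M) {a : V → ℝ}
    (ha : SmoothAlong d M a) : ShTS d M A (fun x => a x * vb x) fun x s => a x * vc x s := by
  obtain ⟨K, L, hK, hKM, hKS, hK0, hL⟩ := hv.cs
  refine ⟨gs_sm_mul ha hv.b_smooth,
    gs_sm_mul (pk_smoothAlong_fst hMf (fun z hz => hz.1) ha) hv.c_smooth, ⟨K, L, hK, hKM, hKS, fun x hx hxK => ?_,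
      fun x s hs => ?_⟩, fun x hx => ?_⟩
  · exact ⟨by rw [(hK0 x hx hxK).1, mul_zero], fun s => by rw [(hK0 x hx hxK).2, mul_zero]⟩
  · rw [hL x s hs, mul_zero]
  · rw [hv.seam x hx]

/-- the measure of a multiplied test. -/
theorem sh_ms_mul (hG : CtGeo (d + 1) M h t) (hS : CtGeo d (ctWall (d + 1) M A) h t)
    (hP : wper (d + 1) M h t A = wvol d (ctWall (d + 1) M A) h t) (hSM : ctWall (d + 1) M A ⊆ M) {vb : V → ℝ}
    {vc : V → ℝ → ℝ} {K' : Set V} {L : ℝ} (hb : ContinuousOn vb M) (hci : ShCI (ctWall (d + 1) M A) K' L vc)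
    {a : V → ℝ} (ha : ContinuousOn a M) :
    shMS (d + 1) M h t A (fun x => a x * vb x) (fun x s => a x * vc x s) =
      (shMS (d + 1) M h t A vb vc).withDensity fun x => ENNReal.ofReal (a x ^ 2) := by
  unfold shMS
  rw [hP, withDensity_add_measure, sh_dens_mul hG ha hb A, hci.dens_mul hS (ha.mono hSM)]

/-- **IMS on a joined side.** -/
theorem sh_ims_side (hG : CtGeo d M h t) (hM : IsClosed M) (hd : 2 ≤ d) (hp : SmoothAlong d M p)
    (hA : CtLAM d M h t p A) {ϑ G : V → ℝ} (hϑ : SmoothAlong d M ϑ)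
    (hGG : ∀ x ∈ M, 1.7 * gradSq d M h ϑ x ≤ G x) : (shFS d M h t A).Ims ϑ G := by
  obtain ⟨d', rfl⟩ : ∃ d', d = d' + 1 := ⟨d - 1, by omega⟩
  have hS : CtGeo d' (ctWall (d' + 1) M A) h t := ct_wall_geo hG A
  have hP : wper (d' + 1) M h t A = wvol d' (ctWall (d' + 1) M A) h t := hA.wper_eq hG hp (by omega)
  have hSM : ctWall (d' + 1) M A ⊆ M := (ct_wall_subset_bd A).trans (ct_bd_subset A)
  have hϑS : SmoothAlong d' (ctWall (d' + 1) M A) ϑ := ct_wall_smooth hG A hϑ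
  rintro ⟨⟨vb, vc⟩, hv⟩
  replace hv : ShTS (d' + 1) M A vb vc := hv
  obtain ⟨K, L, hK, hKM, hKS, hK0, hL⟩ := hv.cs
  have hK' : IsCompact (K ∩ ctWall (d' + 1) M A) := sh_wall_cpt hG.mfd A hK hKM hKS
  have hKX : K ∩ ctWall (d' + 1) M A ⊆ ctWall (d' + 1) M A := Set.inter_subset_right
  have hzx : ∀ x ∈ ctWall (d' + 1) M A, x ∉ K ∩ ctWall (d' + 1) M A → ∀ s, vc x s = 0 := fun x hx hxK =>
    (hK0 x (hSM hx) fun hxK' => hxK ⟨hxK', hx⟩).2
  have hwS := sh_cyl_sub (k := d') hG.mfd hSM hv.c_smooth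
  have hci : ShCI (ctWall (d' + 1) M A) (K ∩ ctWall (d' + 1) M A) L vc := sh_ci_self hS.mfd hwS hzx hL
  have hs := hv.mul hG.mfd (sh_sm_sin hϑ)
  have hc := hv.mul hG.mfd (sh_sm_cos hϑ)
  have hbc := if_smoothAlong_continuousOn hG.mfd hv.b_smooth
  refine ⟨⟨(_, _), hs⟩, ⟨(_, _), hc⟩,
    sh_ms_mul hG hS hP hSM hbc hci (if_smoothAlong_continuousOn hG.mfd (sh_sm_sin hϑ)),
    sh_ms_mul hG hS hP hSM hbc hci (if_smoothAlong_continuousOn hG.mfd (sh_sm_cos hϑ)), ?_⟩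
  -- the bulk
  have hB := sh_ims_int hG hϑ hv.b_smooth hK hKM (fun x hx hxK => (hK0 x hx hxK).1) A
  have hBe := sh_err_le hG hϑ hv.b_smooth hK hKM (fun x hx hxK => (hK0 x hx hxK).1) (c := 0.8) (by norm_num)
    (Gf := G) (fun x hx => (mul_le_mul_of_nonneg_right (by norm_num) (gs_sq_nonneg hG.mfd hG.met hϑ hx)).trans
      (hGG x hx)) A
  -- the cylinder
  have hΦ := sh_ci_phi hS hwS hK'.isClosed hzx hL
  have hΦs := sh_ci_phi (w := fun x s => Real.sin (ϑ x) * vc x s) hS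
    (sh_cyl_sub (k := d') (w := fun x s => Real.sin (ϑ x) * vc x s) hG.mfd hSM hs.c_smooth) hK'.isClosed
    (fun x hx hxK s => by rw [hzx x hx hxK, mul_zero]) (L := L) (fun x s hs' => by rw [hL x s hs', mul_zero])
  have hΦc := sh_ci_phi (w := fun x s => Real.cos (ϑ x) * vc x s) hS
    (sh_cyl_sub (k := d') (w := fun x s => Real.cos (ϑ x) * vc x s) hG.mfd hSM hc.c_smooth) hK'.isClosed
    (fun x hx hxK s => by rw [hzx x hx hxK, mul_zero]) (L := L) (fun x s hs' => by rw [hL x s hs', mul_zero])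
  have hgc := sh_gradSq_continuousOn hS hϑS
  have hΨ := hci.sq.mul_left hgc
  have hC : (∫ s in Set.Ioi (0 : ℝ), ∫ x, (gradSq d' (ctWall (d' + 1) M A) h (fun y => Real.sin (ϑ y) * vc y s) x +
        deriv (fun σ => Real.sin (ϑ x) * vc x σ) s ^ 2) ∂(wvol d' (ctWall (d' + 1) M A) h t)) +
      (∫ s in Set.Ioi (0 : ℝ), ∫ x, (gradSq d' (ctWall (d' + 1) M A) h (fun y => Real.cos (ϑ y) * vc y s) x +
        deriv (fun σ => Real.cos (ϑ x) * vc x σ) s ^ 2) ∂(wvol d' (ctWall (d' + 1) M A) h t)) =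
      (∫ s in Set.Ioi (0 : ℝ), ∫ x, (gradSq d' (ctWall (d' + 1) M A) h (fun y => vc y s) x +
        deriv (fun σ => vc x σ) s ^ 2) ∂(wvol d' (ctWall (d' + 1) M A) h t)) +
      ∫ s in Set.Ioi (0 : ℝ), ∫ x, gradSq d' (ctWall (d' + 1) M A) h ϑ x * vc x s ^ 2
        ∂(wvol d' (ctWall (d' + 1) M A) h t) := by
    rw [← hΦs.integral_add hΦc hS hK' hKX, ← hΦ.integral_add hΨ hS hK' hKX]
    refine sh_iter_congr hS (fun x hx s => ?_) _
    have h1 := sh_ims_pt hS hϑS (sh_cyl_slice hS.mfd hwS s) hx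
    rw [deriv_const_mul_field, deriv_const_mul_field]
    have h2 := Real.sin_sq_add_cos_sq (ϑ x)
    have h3 : (Real.sin (ϑ x) * deriv (fun σ => vc x σ) s) ^ 2 + (Real.cos (ϑ x) * deriv (fun σ => vc x σ) s) ^ 2 =
        deriv (fun σ => vc x σ) s ^ 2 := by
      rw [mul_pow, mul_pow, ← add_mul, h2, one_mul]
    linarith
  have hCe := hci.err_le hS hK' hKX hgc (fun x hx => gs_sq_nonneg hS.mfd hS.met hϑS hx) (c := 1.7) (by norm_num)
    (Gf := G) (fun x hx => (mul_le_mul_of_nonneg_left (sh_tan_le hG hd hA.lf.meas hϑ hx) (by norm_num)).trans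
      (hGG x (hSM hx))) (Set.Ioi (0 : ℝ))
  show ENNReal.ofReal (shNS _ _ _ _ _ _ _ + shNS _ _ _ _ _ _ _) ≤ ENNReal.ofReal (shNS _ _ _ _ _ _ _) +
    ∫⁻ x, ENNReal.ofReal (G x) ∂(shMS _ _ _ _ _ _ _)
  unfold shNS shMS
  simp only [Nat.add_sub_cancel]
  rw [hP, lintegral_add_measure]
  refine le_trans (ENNReal.ofReal_le_ofReal (le_of_eq ?_))
    (ENNReal.ofReal_add_le.trans (add_le_add le_rfl (ENNReal.ofReal_add_le.trans (add_le_add hBe hCe))))
  linear_combination 0.8 * hB + 1.7 * hC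

end Claimed.Agent.R315
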