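import Claimed.Agent.R315.Sh.Geo
import Claimed.Agent.R315.Sh.Prof
import Claimed.Agent.R315.Gs.Calc

/-!
# Row 315, package SH-LIFT: extension of data on `E β` to all cofaces (P Lemma D.5, formula (D.9)): real functions and sets

All data of a stage are ONE ambient object on `W`; the status spaces are pairwise disjoint (`IsDiag.disj`), so an object is defined status by status: `shGlue`.
For a coface `α` of `β`, `J = β.cofJ α`, `π = dropS J`:
  `liftD a b = a (π z) · ∏_{j ∈ J} b (α_j t_j z)` on `E α`, `0` on the other status spaces   (`a` = shell potential or cut-off on `E β`, `b` = front cut-off);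
  `liftK K0 T = {z ∈ E α | π z ∈ K0, α_j t_j z > T (j ∈ J)}`                                     (cores, supports).
The SAME `b`, `T` for all normal coordinates and all cofaces.

## Compatibility (`Compat F E φ : ∀ i K, ∃ R, ∀ z ∈ tot E, q z ∈ K → R < |t_i z| → φ (drop i z) = φ z`).  PLAN for `sh_liftD_compat` (the others are the same):
let `z ∈ E α`, `|t_i z| > R`, `R ≥` the tail threshold of `IsDiag.tail_induction` over `K` (so `α i ≠ 0` and `drop i z ∈ E (α.face i)`), `R ≥ T''`, `R ≥ T` (`ShThr.bdd`).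
 (1) `α` not a coface: `α.face i` is not a coface (`Stat.not_isCof_face'`): both sides `0`.
 (2) `α` a coface, `β i = 0`: `i ∈ J`, `α.face i` is a coface with `cofJ = J.erase i`; `b (α_i t_i z) = 1` since `α_i t_i z = |t_i z| > T''` (`IsDiag.sign_mul`);
     `dropS (J.erase i) (drop i z) = dropS J z`, `t_k (drop i z) = t_k z` (`k ≠ i`), `(α.face i) k = α k`.
 (3) `α` a coface, `β i ≠ 0`: `α.face i` is not a coface (`Stat.not_isCof_face`): right side... the value at `drop i z` is `0`; and `a (π z) = 0` because `t_i (π z) = t_i z`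
     (`i ∉ J`) has modulus `> T ≥ sup_{S0} |t_i|`, so `π z ∉ S0`.
-/

set_option autoImplicit false
open scoped ContDiff ENNReal Topology
open MeasureTheory Claims.C0499

namespace Claimed.Agent.R315

variable {V W : Type} [NormedAddCommGroup V] [NormedSpace ℝ V] [NormedAddCommGroup W] [NormedSpace ℝ W] {ι : Type}

open Classical in
/-- definition status by status. -/
noncomputable def shGlue {X : Type} (E : Stat ι → Set W) (f : Stat ι → W → X) (x0 : X) (z : W) : X :=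
  if h : ∃ α, z ∈ E α then f h.choose z else x0

theorem shGlue_eq {X : Type} {E : Stat ι → Set W} (hd : ∀ α β, α ≠ β → Disjoint (E α) (E β)) (f : Stat ι → W → X)
    (x0 : X) {α : Stat ι} {z : W} (hz : z ∈ E α) : shGlue E f x0 z = f α z := by
  classical
  have h : ∃ α, z ∈ E α := ⟨α, hz⟩
  have h1 : h.choose = α := by
    by_contra hne
    exact Set.disjoint_left.1 (hd _ _ hne) h.choose_spec hz
  simp only [shGlue, dif_pos h, h1]

theorem shGlue_of_not {X : Type} {E : Stat ι → Set W} (f : Stat ι → W → X) (x0 : X) {z : W} (hz : z ∉ tot E) :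
    shGlue E f x0 z = x0 := by
  classical
  have h : ¬ ∃ α, z ∈ E α := fun ⟨α, hα⟩ => hz (Set.mem_iUnion.2 ⟨α, hα⟩)
  simp only [shGlue, dif_neg h]

/-! ### tails and faces -/

theorem Stat.notMem_cofJ_face [Fintype ι] (β α : Stat ι) (i : ι) : i ∉ β.cofJ (α.face i) :=
  fun h => (Stat.mem_cofJ.1 h).2 (α.face_self i)

theorem Stat.cofJ_face [Fintype ι] [DecidableEq ι] {β α : Stat ι} {i : ι} (hb : β i = 0) (ha : α i ≠ 0) :
    β.cofJ α = insert i (β.cofJ (α.face i)) := by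
  ext k
  simp only [Stat.mem_cofJ, Finset.mem_insert]
  by_cases hk : k = i
  · subst hk
    simp [hb, ha]
  · simp [hk, Stat.face_ne α hk]

/-- the data of the face `α.face i` at `drop i z` are the data of `α` at `z` without the entry `i`. -/
theorem sh_face_data [Fintype ι] (F : Frame V W ι) {β α : Stat ι} {i : ι} (hb : β i = 0) (ha : α i ≠ 0) (z : W) :
    F.dropS (β.cofJ (α.face i)) (F.drop i z) = F.dropS (β.cofJ α) z ∧
      ∀ j ∈ β.cofJ (α.face i), ((α.face i j : SignType) : ℝ) * F.t j (F.drop i z) = (α j : ℝ) * F.t j z := by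
  classical
  refine ⟨?_, fun j hj => ?_⟩
  · rw [Stat.cofJ_face hb ha, F.dropS_insert (Stat.notMem_cofJ_face β α i)]
  · have hji : j ≠ i := fun e => Stat.notMem_cofJ_face β α i (e ▸ hj)
    rw [Stat.face_ne α hji, F.t_drop_ne hji]

variable [Fintype ι]

open Classical in
/-- lift of a real function. -/
noncomputable def ShCtx.liftD (C : ShCtx V W ι) (β : Stat ι) (a : W → ℝ) (b : ℝ → ℝ) : W → ℝ :=
  shGlue C.P.E (fun α z => if β.IsCof α then
    a (C.F.dropS (β.cofJ α) z) * ∏ j ∈ β.cofJ α, b ((α j : ℝ) * C.F.t j z) else 0) 0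

/-- lift of a set. -/
def ShCtx.liftK (C : ShCtx V W ι) (β : Stat ι) (K0 : Set W) (T : ℝ) : Set W :=
  {z | ∃ α, z ∈ C.P.E α ∧ β.IsCof α ∧ C.F.dropS (β.cofJ α) z ∈ K0 ∧ z ∈ C.F.tailS α (β.cofJ α) T}

/-- closed version (`T ≤ α_j t_j z`). -/
def ShCtx.liftS (C : ShCtx V W ι) (β : Stat ι) (K0 : Set W) (T : ℝ) : Set W :=
  {z | ∃ α, z ∈ C.P.E α ∧ β.IsCof α ∧ C.F.dropS (β.cofJ α) z ∈ K0 ∧ ∀ j ∈ β.cofJ α, T ≤ (α j : ℝ) * C.F.t j z}

variable [FiniteDimensional ℝ V] [FiniteDimensional ℝ W] [MeasurableSpace W] [BorelSpace W]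
  {C : ShCtx V W ι} {β : Stat ι} {S0 : Set W} {T : ℝ}

/-- **compatibility of an object which is defined status by status on the cofaces of `β`** (the three cases of the header). -/
theorem sh_glue_compat (hC : C.Ok) {X : Type} (x0 : X) (g : Stat ι → W → X) {φ : W → X} (R0 : ℝ)
    (hφ1 : ∀ α, β.IsCof α → ∀ z ∈ C.P.E α, φ z = g α z)
    (hφ0 : ∀ α, ¬ β.IsCof α → ∀ z ∈ C.P.E α, φ z = x0)
    (h2 : ∀ α, β.IsCof α → ∀ i, β i = 0 → α i ≠ 0 → ∀ z ∈ C.P.E α, R0 < (α i : ℝ) * C.F.t i z →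
      g (α.face i) (C.F.drop i z) = g α z)
    (h3 : ∀ α, β.IsCof α → ∀ i, β i ≠ 0 → ∀ z ∈ C.P.E α, R0 < |C.F.t i z| → g α z = x0) :
    Compat C.F C.P.E φ := by
  intro i K hK
  obtain ⟨R, hR0, hRpos, hdrop, _⟩ := hC.inv.diag.tail_induction hK R0
  refine ⟨R, fun z hz hq hlt => ?_⟩
  obtain ⟨α, hα⟩ := mem_tot.1 hz
  have hd := hdrop α z hα hq i hlt
  have hne : C.F.t i z ≠ 0 := by
    intro h0
    rw [h0, abs_zero] at hlt
    linarith
  have hαi := hC.inv.diag.ne_zero_of_t_ne hα hne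
  by_cases hcof : β.IsCof α
  · by_cases hb : β i = 0
    · rw [hφ1 _ (hcof.face hb) _ hd, hφ1 α hcof z hα]
      exact h2 α hcof i hb hαi z hα (by rw [hC.inv.diag.sign_mul hα i]; linarith)
    · rw [hφ0 _ (Stat.not_isCof_face hb) _ hd, hφ1 α hcof z hα, h3 α hcof i hb z hα (by linarith)]
  · rw [hφ0 _ (Stat.not_isCof_face' hcof i) _ hd, hφ0 α hcof z hα]

/-- beyond the bound of `S0` in a retained direction of `β` the projection misses `S0`. -/
theorem ShThr.notMem (hT : ShThr C β S0 T) {α : Stat ι} {i : ι} (hb : β i ≠ 0) {z : W} (hlt : T < |C.F.t i z|) :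
    C.F.dropS (β.cofJ α) z ∉ S0 := by
  intro h
  have h1 := hT.bdd _ h i
  rw [C.F.t_dropS_notMem (fun hi => hb (Stat.mem_cofJ.1 hi).1)] at h1
  linarith

theorem sh_mem_liftK (hC : C.Ok) {K0 : Set W} {T' : ℝ} {α : Stat ι} {z : W} (hz : z ∈ C.P.E α) :
    z ∈ C.liftK β K0 T' ↔ β.IsCof α ∧ C.F.dropS (β.cofJ α) z ∈ K0 ∧ z ∈ C.F.tailS α (β.cofJ α) T' := by
  constructor
  · rintro ⟨α', h1, h2, h3, h4⟩
    have : α' = α := by
      by_contra hne
      exact Set.disjoint_left.1 (hC.inv.diag.disj _ _ hne) h1 hz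
    subst this
    exact ⟨h2, h3, h4⟩
  · rintro ⟨h2, h3, h4⟩
    exact ⟨α, hz, h2, h3, h4⟩

theorem sh_mem_liftS (hC : C.Ok) {K0 : Set W} {T' : ℝ} {α : Stat ι} {z : W} (hz : z ∈ C.P.E α) :
    z ∈ C.liftS β K0 T' ↔ β.IsCof α ∧ C.F.dropS (β.cofJ α) z ∈ K0 ∧
      ∀ j ∈ β.cofJ α, T' ≤ (α j : ℝ) * C.F.t j z := by
  constructor
  · rintro ⟨α', h1, h2, h3, h4⟩
    have : α' = α := by
      by_contra hne
      exact Set.disjoint_left.1 (hC.inv.diag.disj _ _ hne) h1 hz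
    subst this
    exact ⟨h2, h3, h4⟩
  · rintro ⟨h2, h3, h4⟩
    exact ⟨α, hz, h2, h3, h4⟩

theorem sh_liftD_cof (hC : C.Ok) (a : W → ℝ) (b : ℝ → ℝ) {α : Stat ι} (hα : β.IsCof α) {z : W} (hz : z ∈ C.P.E α) :
    C.liftD β a b z = a (C.F.dropS (β.cofJ α) z) * ∏ j ∈ β.cofJ α, b ((α j : ℝ) * C.F.t j z) := by
  classical
  unfold ShCtx.liftD
  rw [shGlue_eq hC.inv.diag.disj _ _ hz, if_pos hα]

theorem sh_liftD_not (hC : C.Ok) (a : W → ℝ) (b : ℝ → ℝ) {α : Stat ι} (hα : ¬ β.IsCof α) {z : W} (hz : z ∈ C.P.E α) :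
    C.liftD β a b z = 0 := by
  classical
  unfold ShCtx.liftD
  rw [shGlue_eq hC.inv.diag.disj _ _ hz, if_neg hα]

omit [FiniteDimensional ℝ V] [FiniteDimensional ℝ W] [MeasurableSpace W] [BorelSpace W] in
theorem sh_liftD_nonneg (C : ShCtx V W ι) (β : Stat ι) {a : W → ℝ} {b : ℝ → ℝ} (ha : ∀ z, 0 ≤ a z) (hb : ∀ s, 0 ≤ b s)
    (z : W) : 0 ≤ C.liftD β a b z := by
  classical
  unfold ShCtx.liftD shGlue
  split_ifs with h
  · show 0 ≤ if β.IsCof h.choose then _ else _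
    split_ifs
    · exact mul_nonneg (ha _) (Finset.prod_nonneg fun j _ => hb _)
    · exact le_rfl
  · exact le_rfl

omit [FiniteDimensional ℝ V] [FiniteDimensional ℝ W] [MeasurableSpace W] [BorelSpace W] in
theorem sh_liftD_off (C : ShCtx V W ι) (β : Stat ι) (a : W → ℝ) (b : ℝ → ℝ) {z : W} (hz : z ∉ tot C.P.E) :
    C.liftD β a b z = 0 := shGlue_of_not _ _ hz

/-- on `E β` itself the lift is the function. -/
theorem sh_liftD_self (hC : C.Ok) (a : W → ℝ) (b : ℝ → ℝ) {z : W} (hz : z ∈ C.P.E β) : C.liftD β a b z = a z := by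
  rw [sh_liftD_cof hC a b (Stat.isCof_refl β) hz, Stat.cofJ_self, Frame.dropS_empty]
  simp

/-- the lift vanishes off the closed support set. -/
theorem sh_liftD_supp (hC : C.Ok) {a : W → ℝ} (ha0 : ∀ z, z ∉ S0 → a z = 0) {b : ℝ → ℝ} {T' : ℝ}
    (hb0 : ∀ s ≤ T', b s = 0) {z : W} (hz : C.liftD β a b z ≠ 0) : z ∈ C.liftK β S0 T' := by
  by_cases hzt : z ∈ tot C.P.E
  · obtain ⟨α, hα⟩ := mem_tot.1 hzt
    by_cases hcof : β.IsCof α
    · rw [sh_liftD_cof hC a b hcof hα] at hz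
      refine ⟨α, hα, hcof, ?_, fun j hj => ?_⟩
      · by_contra h
        exact hz (by rw [ha0 _ h, zero_mul])
      · by_contra h
        exact hz (by rw [Finset.prod_eq_zero hj (hb0 _ (not_lt.1 h)), mul_zero])
    · exact absurd (sh_liftD_not hC a b hcof hα) hz
  · exact absurd (sh_liftD_off C β a b hzt) hz

/-- beyond the fronts the lift is the pull back. -/
theorem sh_liftD_one (hC : C.Ok) (a : W → ℝ) {b : ℝ → ℝ} {T'' : ℝ} (hb1 : ∀ s, T'' ≤ s → b s = 1) {α : Stat ι}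
    (hα : β.IsCof α) {z : W} (hz : z ∈ C.P.E α) (hzt : ∀ j ∈ β.cofJ α, T'' ≤ (α j : ℝ) * C.F.t j z) :
    C.liftD β a b z = a (C.F.dropS (β.cofJ α) z) := by
  rw [sh_liftD_cof hC a b hα hz, Finset.prod_eq_one fun j hj => hb1 _ (hzt j hj), mul_one]

theorem sh_liftD_smooth (hC : C.Ok) (hS0 : IsCompact S0) (hT : ShThr C β S0 T) {a : W → ℝ}
    (ha : SmoothAlong (C.m β) (C.P.E β) a) (ha0 : ∀ z, z ∉ S0 → a z = 0) {b : ℝ → ℝ} (hb : ContDiff ℝ ∞ b) {T' : ℝ}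
    (hTT : T < T') (hb0 : ∀ s ≤ T', b s = 0) (α : Stat ι) : SmoothAlong (C.m α) (C.P.E α) (C.liftD β a b) := by
  by_cases hα : β.IsCof α
  · exact pk_smoothAlong_congr (sh_smooth_lift hC hS0 hT hα ha ha0 hb hTT hb0) fun z hz => sh_liftD_cof hC a b hα hz
  · exact pk_smoothAlong_congr (f' := fun _ => (0 : ℝ)) (fun ψ U _ => contDiffOn_const)
      fun z hz => sh_liftD_not hC a b hα hz

theorem sh_liftD_compat (hC : C.Ok) (hS0 : IsCompact S0) (hT : ShThr C β S0 T) {a : W → ℝ}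
    (ha0 : ∀ z, z ∉ S0 → a z = 0) {b : ℝ → ℝ} {T'' : ℝ} (hb1 : ∀ s, T'' ≤ s → b s = 1) :
    Compat C.F C.P.E (C.liftD β a b) := by
  classical
  refine sh_glue_compat hC 0
    (fun α z => a (C.F.dropS (β.cofJ α) z) * ∏ j ∈ β.cofJ α, b ((α j : ℝ) * C.F.t j z)) (max T'' T)
    (fun α hα z hz => sh_liftD_cof hC a b hα hz) (fun α hα z hz => sh_liftD_not hC a b hα hz) ?_ ?_
  · intro α hα i hb ha z hz hlt
    obtain ⟨e1, e2⟩ := sh_face_data C.F hb ha z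
    have e3 : ∏ j ∈ β.cofJ (α.face i), b (((α.face i j : SignType) : ℝ) * C.F.t j (C.F.drop i z)) =
        ∏ j ∈ β.cofJ (α.face i), b ((α j : ℝ) * C.F.t j z) :=
      Finset.prod_congr rfl fun j hj => by rw [e2 j hj]
    have e4 : ∏ j ∈ β.cofJ α, b ((α j : ℝ) * C.F.t j z) = ∏ j ∈ β.cofJ (α.face i), b ((α j : ℝ) * C.F.t j z) := by
      rw [Stat.cofJ_face hb ha, Finset.prod_insert (Stat.notMem_cofJ_face β α i),
        hb1 _ ((le_max_left _ _).trans hlt.le), one_mul]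
    show a _ * _ = a _ * _
    rw [e1, e3, e4]
  · intro α hα i hb z hz hlt
    show a _ * _ = 0
    rw [ha0 _ (hT.notMem hb (lt_of_le_of_lt (le_max_right _ _) hlt)), zero_mul]

/-- gradient bound (from `sh_grad_lift`). -/
theorem sh_liftD_grad (hC : C.Ok) (hS0 : IsCompact S0) (hT : ShThr C β S0 T) {a : W → ℝ}
    (ha : SmoothAlong (C.m β) (C.P.E β) a) (ha0 : ∀ z, z ∉ S0 → a z = 0) (ha1 : ∀ z, |a z| ≤ 1) {b : ℝ → ℝ}
    (hb : ContDiff ℝ ∞ b) {T' : ℝ} (hTT : T < T') (hb0 : ∀ s ≤ T', b s = 0) (hb1 : ∀ s, |b s| ≤ 1) {α : Stat ι}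
    (hα : β.IsCof α) {z : W} (hz : z ∈ C.P.E α) :
    gradSq (C.m α) (C.P.E α) C.P.h (C.liftD β a b) z ≤
      (C.F.tailS α (β.cofJ α) T').indicator (fun z =>
        gradSq (C.m β) (C.P.E β) C.P.h a (C.F.dropS (β.cofJ α) z) +
          ∑ j ∈ β.cofJ α, deriv b ((α j : ℝ) * C.F.t j z) ^ 2) z := by
  rw [gs_sq_congr (fun y hy => sh_liftD_cof hC a b hα hy)]
  exact sh_grad_lift hC hS0 hT hα ha ha0 ha1 hb hTT hb0 hb1 hz

/-! ### sets -/

theorem sh_liftK_self (hC : C.Ok) {K0 : Set W} (hK : K0 ⊆ C.P.E β) (T' : ℝ) : K0 ⊆ C.liftK β K0 T' := by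
  intro z hz
  refine ⟨β, hK hz, Stat.isCof_refl β, ?_, ?_⟩
  · rw [Stat.cofJ_self, Frame.dropS_empty]; exact hz
  · intro j hj
    rw [Stat.cofJ_self] at hj
    exact absurd hj (Finset.notMem_empty j)

/-- `q` of a lifted set. -/
theorem sh_liftS_q {K0 : Set W} {T' : ℝ} {z : W} (hz : z ∈ C.liftS β K0 T') : C.F.q z ∈ C.F.q '' K0 := by
  obtain ⟨α, _, _, h3, _⟩ := hz
  exact ⟨_, h3, C.F.q_dropS _ z⟩

theorem sh_liftK_subset_liftS {K0 K1 : Set W} (hK : K0 ⊆ K1) {T' T'' : ℝ} (hT' : T'' ≤ T') :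
    C.liftK β K0 T' ⊆ C.liftS β K1 T'' := by
  rintro z ⟨α, h1, h2, h3, h4⟩
  exact ⟨α, h1, h2, hK h3, fun j hj => hT'.trans (h4 j hj).le⟩

theorem sh_liftS_mono {K0 K1 : Set W} (hK : K0 ⊆ K1) {T' T'' : ℝ} (hT' : T'' ≤ T') :
    C.liftS β K0 T' ⊆ C.liftS β K1 T'' := by
  rintro z ⟨α, h1, h2, h3, h4⟩
  exact ⟨α, h1, h2, hK h3, fun j hj => hT'.trans (h4 j hj)⟩

theorem sh_liftS_subset_liftK {K0 K1 : Set W} (hK : K0 ⊆ K1) {T' T'' : ℝ} (hT' : T'' < T') :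
    C.liftS β K0 T' ⊆ C.liftK β K1 T'' := by
  rintro z ⟨α, h1, h2, h3, h4⟩
  exact ⟨α, h1, h2, hK h3, fun j hj => hT'.trans_le (h4 j hj)⟩

theorem sh_liftK_subset_tot (K0 : Set W) (T' : ℝ) : C.liftK β K0 T' ⊆ tot C.P.E := by
  rintro z ⟨α, h1, _⟩
  exact Set.mem_iUnion.2 ⟨α, h1⟩

theorem sh_liftK_relOpen (hC : C.Ok) (hT : ShThr C β S0 T) {K0 : Set W} (hK : K0 ⊆ S0)
    (hKo : ∀ z ∈ K0, ∃ N ∈ 𝓝 z, N ∩ C.P.E β ⊆ K0) {T' : ℝ} (hTT : T ≤ T') : RelOpen C.P.E (C.liftK β K0 T') := by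
  rintro α z ⟨hzK, hz⟩
  obtain ⟨hα, h3, h4⟩ := (sh_mem_liftK hC hz).1 hzK
  obtain ⟨N0, hN0, hsub⟩ := hKo _ h3
  obtain ⟨U, hU, hUsub, hp⟩ := hT.prod
  have hqU : C.F.q z ∈ U := hUsub ⟨_, hK h3, C.F.q_dropS _ z⟩
  refine ⟨(C.F.dropS (β.cofJ α) ⁻¹' N0 ∩ C.F.tailS α (β.cofJ α) T') ∩ C.F.q ⁻¹' U,
    Filter.inter_mem (Filter.inter_mem ((C.F.continuous_dropS _).continuousAt.preimage_mem_nhds hN0)
      ((C.F.isOpen_tailS α _ T').mem_nhds h4)) ((hU.preimage C.F.q.continuous).mem_nhds hqU), ?_⟩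
  rintro y ⟨⟨⟨hy1, hy2⟩, hy3⟩, hyE⟩
  have hyβ := (hp α hα y hy3 (fun j hj => lt_of_le_of_lt hTT (hy2 j hj))).1.1 hyE
  exact (sh_mem_liftK hC hyE).2 ⟨hα, hsub ⟨hy1, hyβ⟩, hy2⟩

theorem sh_liftK_compat (hC : C.Ok) (hS0 : IsCompact S0) (hT : ShThr C β S0 T) {K0 : Set W} (hK : K0 ⊆ S0) (T' : ℝ) :
    Compat C.F C.P.E (fun z => z ∈ C.liftK β K0 T') := by
  classical
  refine sh_glue_compat hC False
    (fun α z => C.F.dropS (β.cofJ α) z ∈ K0 ∧ z ∈ C.F.tailS α (β.cofJ α) T') (max T' T)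
    (fun α hα z hz => propext ((sh_mem_liftK hC hz).trans (and_iff_right hα)))
    (fun α hα z hz => propext ⟨fun h => hα ((sh_mem_liftK hC hz).1 h).1, False.elim⟩) ?_ ?_
  · intro α hα i hb ha z hz hlt
    obtain ⟨e1, e2⟩ := sh_face_data C.F hb ha z
    refine propext (and_congr (by rw [e1]) ⟨fun h j hj => ?_, fun h j hj => ?_⟩)
    · rw [Stat.cofJ_face hb ha, Finset.mem_insert] at hj
      rcases hj with rfl | hj
      · exact lt_of_le_of_lt (le_max_left _ _) hlt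
      · rw [← e2 j hj]
        exact h j hj
    · rw [e2 j hj]
      exact h j (by rw [Stat.cofJ_face hb ha]; exact Finset.mem_insert_of_mem hj)
  · intro α hα i hb z hz hlt
    exact propext ⟨fun h => hT.notMem hb (lt_of_le_of_lt (le_max_right _ _) hlt) (hK h.1), False.elim⟩

/-- the closed lift is relatively closed: its complement in `E α` is relatively open. -/
theorem sh_liftS_closed (hC : C.Ok) (hT : ShThr C β S0 T) {K0 : Set W} (hK : K0 ⊆ S0) (hKc : IsClosed K0) {T' : ℝ}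
    (hTT : T < T') {α : Stat ι} {z : W} (hz : z ∈ C.P.E α) (hzS : z ∉ C.liftS β K0 T') :
    ∃ N ∈ 𝓝 z, ∀ y ∈ N ∩ C.P.E α, y ∉ C.liftS β K0 T' := by
  by_cases hα : β.IsCof α
  · have hcl : IsClosed (C.F.dropS (β.cofJ α) ⁻¹' K0 ∩ {y | ∀ j ∈ β.cofJ α, T' ≤ (α j : ℝ) * C.F.t j y}) :=
      (hKc.preimage (C.F.continuous_dropS _)).inter (C.F.isClosed_tailC α _ T')
    have hzn : z ∉ C.F.dropS (β.cofJ α) ⁻¹' K0 ∩ {y | ∀ j ∈ β.cofJ α, T' ≤ (α j : ℝ) * C.F.t j y} :=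
      fun h => hzS ((sh_mem_liftS hC hz).2 ⟨hα, h.1, h.2⟩)
    refine ⟨_, hcl.isOpen_compl.mem_nhds hzn, fun y hy hyS => ?_⟩
    obtain ⟨_, h3, h4⟩ := (sh_mem_liftS hC hy.2).1 hyS
    exact hy.1 ⟨h3, h4⟩
  · exact ⟨Set.univ, Filter.univ_mem, fun y hy hyS => hα ((sh_mem_liftS hC hy.2).1 hyS).1⟩

/-- closure confinement. -/
theorem sh_liftK_closure (hC : C.Ok) (hT : ShThr C β S0 T) {K0 K1 : Set W} (hK : K0 ⊆ K1) (hK1 : K1 ⊆ S0)
    (hKc : IsClosed K1) {T' : ℝ} (hTT : T < T') {α : Stat ι} {z : W} (hz : z ∈ C.P.E α)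
    (hzc : z ∈ closure (C.liftK β K0 T' ∩ C.P.E α)) : z ∈ C.liftS β K1 T' := by
  by_cases hα : β.IsCof α
  · have hcl : IsClosed (C.F.dropS (β.cofJ α) ⁻¹' K1 ∩ {y | ∀ j ∈ β.cofJ α, T' ≤ (α j : ℝ) * C.F.t j y}) :=
      (hKc.preimage (C.F.continuous_dropS _)).inter (C.F.isClosed_tailC α _ T')
    have hsub : C.liftK β K0 T' ∩ C.P.E α ⊆
        C.F.dropS (β.cofJ α) ⁻¹' K1 ∩ {y | ∀ j ∈ β.cofJ α, T' ≤ (α j : ℝ) * C.F.t j y} := by
      rintro y ⟨hyK, hyE⟩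
      obtain ⟨_, h3, h4⟩ := (sh_mem_liftK hC hyE).1 hyK
      exact ⟨hK h3, fun j hj => (h4 j hj).le⟩
    have := closure_minimal hsub hcl hzc
    exact (sh_mem_liftS hC hz).2 ⟨hα, this.1, this.2⟩
  · have hemp : C.liftK β K0 T' ∩ C.P.E α = ∅ := by
      ext y
      simp only [Set.mem_inter_iff, Set.mem_empty_iff_false, iff_false, not_and]
      exact fun hyK hyE => hα ((sh_mem_liftK hC hyE).1 hyK).1
    rw [hemp, closure_empty] at hzc
    exact hzc.elim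

/-- compatible predicates pass from `S0` to the lifted set beyond a threshold (anchor regions). -/
theorem sh_liftS_region (hC : C.Ok) (hS0 : IsCompact S0) (hsub : S0 ⊆ C.P.E β) {Rg : W → Prop}
    (hRg : Compat C.F C.P.E Rg) (h0 : ∀ z ∈ S0, Rg z) : ∃ T1, ∀ T' ≥ T1, ∀ z ∈ C.liftS β S0 T', Rg z := by
  obtain ⟨T, hT⟩ := sh_thr_compat C hC β hS0 hsub hRg
  refine ⟨T + 1, fun T' hT' z hz => ?_⟩
  obtain ⟨α, h1, h2, h3, h4⟩ := hz
  rw [hT α h2 z h1 h3 fun j hj => by linarith [h4 j hj]]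
  exact h0 _ h3

end Claimed.Agent.R315
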