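import Claimed.Agent.R315.Sc.Exp

/-!
# Row 315, package Sh: THE TWO STATEMENTS CONSUMED FROM Sc (P Appendix C; owner helper257)

These two theorems are NOT leaves of Sh.  Sc imports `Sh/Defs.lean` and proves `sc_anchor`, `sc_pieces` (`Sc/Exp.lean`) with exactly these statements;
this file only redirects (integration done 12:50Z).

* `sh_need_anchor` = P Lemma C.1 (compatible smoothing of the clipped profiles + `H^{m-7}(Σ) = 0` + a countable product of null sets).
  Passive labels: `μ_j = ⊥` over `q ⁻¹' K` for all but finitely many `j`; there any `hh j ≤ -.9`, e.g. the constant `-1`.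
* `sh_need_pieces` = P Lemmas C.2 (countably many compact flat pieces), C.3 (only the distance function and its cut-offs; the shell
  profile and the shell potential are built in `Sh/Prof.lean`), C.4 + C.5 in the form (HY) (memo 9551: multi-scale squared partition + plane
  potentials; the partition error `ξ² δ⁻²` is absorbed by the inequality itself, which is legitimate because the weight is truncated).
  If `Σ_β ∩ O = ∅` (e.g. `m β ≤ 7`) take the trivial gauge `Fp = ∅`, `δ = 2`, `d = 1`.
-/

set_option autoImplicit false
open scoped ContDiff ENNReal Topology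
open MeasureTheory Claims.C0499

namespace Claimed.Agent.R315

variable {V W : Type} [NormedAddCommGroup V] [NormedSpace ℝ V] [NormedAddCommGroup W] [NormedSpace ℝ W] {ι : Type}
  [FiniteDimensional ℝ V] [FiniteDimensional ℝ W] [Fintype ι] [MeasurableSpace W] [BorelSpace W]

/-- **anchors** (owner: Sc). -/
theorem sh_need_anchor (C : ShCtx V W ι) (hC : C.Ok) : ∃ hh tt, ShAnchor C hh tt :=
  sc_anchor C hC

/-- **pieces with gauges** (owner: Sc): `Σ_β ∩ O` is covered by countably many compact pieces with gauges supported in `O`. -/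
theorem sh_need_pieces (C : ShCtx V W ι) (hC : C.Ok) (β : Stat ι) (O : Set W) (hO : IsOpen O) :
    ∃ (Fp : ℕ → Set W) (δ : ℕ → W → ℝ) (d Cc CF T : ℕ → ℝ),
      (∀ n, ShGauge C β (Fp n) (δ n) (d n) (Cc n) (CF n) (T n)) ∧ (∀ n z, δ n z ≤ d n → z ∈ O) ∧
      C.Sig β ∩ O ⊆ ⋃ n, Fp n :=
  sc_pieces C hC β O hO

end Claimed.Agent.R315
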