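import Claimed.Agent.R315.Sh.Defs

/-!
# Row 315, package SH-PROF-A: one-dimensional profiles with values in `EReal` (P Lemmas C.3, D.5: the explicit part).  No paper needed.

* cap (`sh_cap_exists`): `k = √(.58 p)/2`, `ℓ = π/(2k)`, `w s = √(p/.58) · tan (k (s - T - ℓ))` on `(T, T + 2ℓ)`, `⊥` before, `⊤` after, `T' = T + 2ℓ`.
  `w' = √(p/.58) k (1 + tan²) = (p + .58 w²)/2`.  Continuity into `EReal`: `Real.tendsto_tan_pi_div_two`, `Real.tendsto_tan_neg_pi_div_two`, `EReal.tendsto_coe_nhds_top_iff`...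
* shell (`sh_shell_exists`): `y σ = (1 + .4 tan (.2 σ - π/2))/.58` solves `y' = .29 y² - y + 1` on `(0, 5π)`; `U s = y (log (R/s))/s`, `R = e^{5π} ε`;
  `dU/ds = -(y' + y)/s² = -(.29 y² + 1)/s² = -(.29 U² + s⁻²)`.
* cut-offs (`sh_cutoff_exists`): `b s = Real.smoothTransition ((s - T)/L)`; `C0 = sup |smoothTransition'|` (continuous, vanishes off `[0,1]`).
ADVICE: prove ONE lemma `sh_ereal_glue`: `f : ℝ → ℝ` continuous on `(a, b)`, `f → -∞` at `a+`, `f → +∞` at `b-` ⇒ `s ↦ if s ≤ a then ⊥ else if b ≤ s then ⊤ else f s` is continuous `ℝ → EReal`; the shell is its mirror image.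
-/

set_option autoImplicit false
open scoped ContDiff ENNReal Topology
open MeasureTheory Claims.C0499

namespace Claimed.Agent.R315

/-! ### 1-D profiles -/

/-- gluing a real function on `(a,b)` with its limits in `EReal`. -/
theorem sh_ereal_glue {a b : ℝ} (hab : a < b) (f : ℝ → ℝ) (c₁ c₂ : EReal)
    (hf : ContinuousOn f (Set.Ioo a b))
    (h1 : Filter.Tendsto (fun s => (f s : EReal)) (𝓝[>] a) (𝓝 c₁))
    (h2 : Filter.Tendsto (fun s => (f s : EReal)) (𝓝[<] b) (𝓝 c₂)) :
    Continuous fun s : ℝ => if s ≤ a then c₁ else if b ≤ s then c₂ else (f s : EReal) := by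
  set g : ℝ → EReal := fun s => if s ≤ a then c₁ else if b ≤ s then c₂ else (f s : EReal) with hg
  have gl : ∀ s, s ≤ a → g s = c₁ := fun s hs => if_pos hs
  have gr : ∀ s, b ≤ s → g s = c₂ := fun s hs => by
    simp only [hg]
    rw [if_neg (not_le.2 (lt_of_lt_of_le hab hs)), if_pos hs]
  have gm : ∀ s, a < s → s < b → g s = f s := fun s hs hs' => by
    simp only [hg]
    rw [if_neg (not_le.2 hs), if_neg (not_le.2 hs')]
  rw [continuous_iff_continuousAt]
  intro s
  rcases lt_trichotomy s a with hs | hs | hs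
  · have h : g =ᶠ[𝓝 s] fun _ => c₁ := by
      filter_upwards [Iio_mem_nhds hs] with x hx using gl x (le_of_lt hx)
    exact continuousAt_const.congr h.symm
  · subst hs
    unfold ContinuousAt
    rw [gl s le_rfl, ← nhdsLE_sup_nhdsGT s]
    refine Filter.Tendsto.sup ?_ ?_
    · refine tendsto_const_nhds.congr' ?_
      filter_upwards [self_mem_nhdsWithin] with x hx using (gl x hx).symm
    · refine h1.congr' ?_
      filter_upwards [Ioo_mem_nhdsGT hab] with x hx using (gm x hx.1 hx.2).symm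
  · rcases lt_trichotomy s b with hs' | hs' | hs'
    · have h : g =ᶠ[𝓝 s] fun x => (f x : EReal) := by
        filter_upwards [Ioo_mem_nhds hs hs'] with x hx using gm x hx.1 hx.2
      have h3 : ContinuousAt (fun x => (f x : EReal)) s :=
        continuous_coe_real_ereal.continuousAt.comp (hf.continuousAt (Ioo_mem_nhds hs hs'))
      exact h3.congr h.symm
    · subst hs'
      unfold ContinuousAt
      rw [gr s le_rfl, ← nhdsLT_sup_nhdsGE s]
      refine Filter.Tendsto.sup ?_ ?_
      · refine h2.congr' ?_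
        filter_upwards [Ioo_mem_nhdsLT hab] with x hx using (gm x hx.1 hx.2).symm
      · refine tendsto_const_nhds.congr' ?_
        filter_upwards [self_mem_nhdsWithin] with x hx using (gr x hx).symm
    · have h : g =ᶠ[𝓝 s] fun _ => c₂ := by
        filter_upwards [Ioi_mem_nhds hs'] with x hx using gr x (le_of_lt hx)
      exact continuousAt_const.congr h.symm

theorem sh_tan_deriv {x : ℝ} (hx : Real.cos x ≠ 0) :
    HasDerivAt Real.tan (1 + Real.tan x ^ 2) x := by
  have h := Real.hasDerivAt_tan hx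
  have h2 : 1 / Real.cos x ^ 2 = 1 + Real.tan x ^ 2 := by
    rw [Real.tan_eq_sin_div_cos]
    field_simp
    linarith [Real.sin_sq_add_cos_sq x]
  rwa [h2] at h

/-- **cap**: crosses from `⊥` to `⊤` on `(T, T')` with `2 w' = .58 w² + p`. -/
theorem sh_cap_exists {p : ℝ} (hp : 0 < p) (T : ℝ) :
    ∃ (w : ℝ → EReal) (T' : ℝ), T < T' ∧ Continuous w ∧ (∀ s ≤ T, w s = ⊥) ∧ (∀ s, T' ≤ s → w s = ⊤) ∧
      ∀ s, T < s → s < T' → w s ≠ ⊥ ∧ w s ≠ ⊤ ∧
        HasDerivAt (fun σ => (w σ).toReal) ((0.58 * (w s).toReal ^ 2 + p) / 2) s := by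
  set c : ℝ := Real.sqrt (p / 0.58) with hc
  have hc0 : 0 < c := Real.sqrt_pos.2 (by positivity)
  have hc2 : c ^ 2 = p / 0.58 := Real.sq_sqrt (by positivity)
  set k : ℝ := 0.29 * c with hk
  have hk0 : 0 < k := by positivity
  set l : ℝ := Real.pi / (2 * k) with hl
  have hl0 : 0 < l := by positivity
  have hkl : k * l = Real.pi / 2 := by
    rw [hl]
    field_simp
  set f : ℝ → ℝ := fun s => c * Real.tan (k * (s - T - l)) with hf
  have harg : ∀ s, T < s → s < T + 2 * l →
      k * (s - T - l) ∈ Set.Ioo (-(Real.pi / 2)) (Real.pi / 2) := by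
    intro s h1 h2
    constructor
    · have h3 : k * (-l) < k * (s - T - l) := mul_lt_mul_of_pos_left (by linarith) hk0
      rw [mul_neg, hkl] at h3
      exact h3
    · have h3 : k * (s - T - l) < k * l := mul_lt_mul_of_pos_left (by linarith) hk0
      rw [hkl] at h3
      exact h3
  have hcos : ∀ s, T < s → s < T + 2 * l → Real.cos (k * (s - T - l)) ≠ 0 :=
    fun s h1 h2 => (Real.cos_pos_of_mem_Ioo (harg s h1 h2)).ne'
  have hder : ∀ s, T < s → s < T + 2 * l → HasDerivAt f ((0.58 * f s ^ 2 + p) / 2) s := by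
    intro s h1 h2
    have h3 : HasDerivAt (fun s => k * (s - T - l)) k s := by
      simpa using (((hasDerivAt_id s).sub_const T).sub_const l).const_mul k
    have h4' : HasDerivAt (fun s => Real.tan (k * (s - T - l)))
        ((1 + Real.tan (k * (s - T - l)) ^ 2) * k) s := by
      have h7 := (sh_tan_deriv (hcos s h1 h2)).comp s h3
      exact h7
    have h4 : HasDerivAt f (c * ((1 + Real.tan (k * (s - T - l)) ^ 2) * k)) s :=
      h4'.const_mul c
    have h6 : (0.58 * f s ^ 2 + p) / 2 = c * ((1 + Real.tan (k * (s - T - l)) ^ 2) * k) := by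
      show (0.58 * (c * Real.tan (k * (s - T - l))) ^ 2 + p) / 2
        = c * ((1 + Real.tan (k * (s - T - l)) ^ 2) * k)
      have h5 : 0.58 * c ^ 2 = p := by
        rw [hc2]
        field_simp
      rw [hk]
      linear_combination (-(1 / 2) : ℝ) * h5
    rw [h6]
    exact h4
  have hTT : T < T + 2 * l := by linarith
  have hcont : Continuous fun s => k * (s - T - l) := by fun_prop
  have hlim1 : Filter.Tendsto (fun s => (f s : EReal)) (𝓝[>] T) (𝓝 ⊥) := by
    rw [EReal.tendsto_coe_nhds_bot_iff]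
    refine Filter.Tendsto.const_mul_atBot hc0 ?_
    refine Real.tendsto_tan_neg_pi_div_two.comp ?_
    refine tendsto_nhdsWithin_iff.2 ⟨?_, ?_⟩
    · have h1 := hcont.tendsto T
      have e : k * (T - T - l) = -(Real.pi / 2) := by rw [sub_self, zero_sub, mul_neg, hkl]
      rw [e] at h1
      exact h1.mono_left nhdsWithin_le_nhds
    · filter_upwards [Ioo_mem_nhdsGT hTT] with s hs using (harg s hs.1 hs.2).1
  have hlim2 : Filter.Tendsto (fun s => (f s : EReal)) (𝓝[<] (T + 2 * l)) (𝓝 ⊤) := by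
    rw [EReal.tendsto_coe_nhds_top_iff]
    refine Filter.Tendsto.const_mul_atTop hc0 ?_
    refine Real.tendsto_tan_pi_div_two.comp ?_
    refine tendsto_nhdsWithin_iff.2 ⟨?_, ?_⟩
    · have h1 := hcont.tendsto (T + 2 * l)
      have e : k * (T + 2 * l - T - l) = Real.pi / 2 := by
        rw [← hkl]
        ring
      rw [e] at h1
      exact h1.mono_left nhdsWithin_le_nhds
    · filter_upwards [Ioo_mem_nhdsLT hTT] with s hs using (harg s hs.1 hs.2).2
  have hfc : ContinuousOn f (Set.Ioo T (T + 2 * l)) := fun s hs =>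
    (hder s hs.1 hs.2).continuousAt.continuousWithinAt
  refine ⟨fun s => if s ≤ T then ⊥ else if T + 2 * l ≤ s then ⊤ else (f s : EReal), T + 2 * l,
    hTT, sh_ereal_glue hTT f ⊥ ⊤ hfc hlim1 hlim2, fun s hs => if_pos hs, fun s hs => ?_,
    fun s h1 h2 => ?_⟩
  · simp only
    rw [if_neg (not_le.2 (lt_of_lt_of_le hTT hs)), if_pos hs]
  · have hw : ∀ x, T < x → x < T + 2 * l →
        (if x ≤ T then ⊥ else if T + 2 * l ≤ x then ⊤ else (f x : EReal)) = (f x : EReal) := by
      intro x hx1 hx2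
      rw [if_neg (not_le.2 hx1), if_neg (not_le.2 hx2)]
    simp only
    rw [hw s h1 h2]
    refine ⟨EReal.coe_ne_bot _, EReal.coe_ne_top _, ?_⟩
    rw [EReal.toReal_coe]
    refine (hder s h1 h2).congr_of_eventuallyEq ?_
    filter_upwards [Ioo_mem_nhds h1 h2] with x hx
    rw [hw x hx.1 hx.2, EReal.toReal_coe]

/-- **shell profile**: `⊤` for `s ≤ ε`, `⊥` for `s ≥ e^{5π} ε`, `U' = -(.29 U² + s⁻²)` between. -/
theorem sh_shell_exists {ε : ℝ} (hε : 0 < ε) :
    ∃ U : ℝ → EReal, Continuous U ∧ (∀ s ≤ ε, U s = ⊤) ∧ (∀ s, Real.exp (5 * Real.pi) * ε ≤ s → U s = ⊥) ∧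
      ∀ s, ε < s → s < Real.exp (5 * Real.pi) * ε → U s ≠ ⊥ ∧ U s ≠ ⊤ ∧
        HasDerivAt (fun σ => (U σ).toReal) (-(0.29 * (U s).toReal ^ 2 + 1 / s ^ 2)) s := by
  set R : ℝ := Real.exp (5 * Real.pi) * ε with hR
  have hR0 : 0 < R := by positivity
  have hlogR : Real.log R = 5 * Real.pi + Real.log ε := by
    rw [hR, Real.log_mul (Real.exp_pos _).ne' hε.ne', Real.log_exp]
  have hεR : ε < R := by
    have h1 : Real.log ε < Real.log R := by
      rw [hlogR]
      linarith [Real.pi_pos]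
    exact (Real.log_lt_log_iff hε hR0).1 h1
  set θ : ℝ → ℝ := fun s => 0.2 * (Real.log R - Real.log s) - Real.pi / 2 with hθ
  set Y : ℝ → ℝ := fun s => (1 + 0.4 * Real.tan (θ s)) / 0.58 with hY
  set f : ℝ → ℝ := fun s => Y s * s⁻¹ with hf
  have harg : ∀ s, ε < s → s < R → θ s ∈ Set.Ioo (-(Real.pi / 2)) (Real.pi / 2) := by
    intro s h1 h2
    have hs0 : 0 < s := hε.trans h1
    have h3 : Real.log ε < Real.log s := Real.log_lt_log hε h1
    have h4 : Real.log s < Real.log R := Real.log_lt_log hs0 h2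
    constructor
    · show -(Real.pi / 2) < 0.2 * (Real.log R - Real.log s) - Real.pi / 2
      linarith
    · show 0.2 * (Real.log R - Real.log s) - Real.pi / 2 < Real.pi / 2
      linarith
  have hθder : ∀ s, 0 < s → HasDerivAt θ (0.2 * (0 - s⁻¹)) s := by
    intro s hs
    exact (((hasDerivAt_const s (Real.log R)).sub (Real.hasDerivAt_log hs.ne')).const_mul
      0.2).sub_const _
  have hder : ∀ s, ε < s → s < R → HasDerivAt f (-(0.29 * f s ^ 2 + 1 / s ^ 2)) s := by
    intro s h1 h2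
    have hs0 : 0 < s := hε.trans h1
    have hcos : Real.cos (θ s) ≠ 0 := (Real.cos_pos_of_mem_Ioo (harg s h1 h2)).ne'
    have h3 : HasDerivAt (fun s => Real.tan (θ s))
        ((1 + Real.tan (θ s) ^ 2) * (0.2 * (0 - s⁻¹))) s := by
      have h7 := (sh_tan_deriv hcos).comp s (hθder s hs0)
      exact h7
    have h4 : HasDerivAt Y ((0.4 * ((1 + Real.tan (θ s) ^ 2) * (0.2 * (0 - s⁻¹)))) / 0.58) s :=
      ((h3.const_mul 0.4).const_add 1).div_const 0.58
    have h5 : HasDerivAt f ((0.4 * ((1 + Real.tan (θ s) ^ 2) * (0.2 * (0 - s⁻¹)))) / 0.58 * s⁻¹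
        + Y s * (-(s ^ 2)⁻¹)) s := h4.mul (hasDerivAt_inv hs0.ne')
    have h6 : -(0.29 * f s ^ 2 + 1 / s ^ 2)
        = (0.4 * ((1 + Real.tan (θ s) ^ 2) * (0.2 * (0 - s⁻¹)))) / 0.58 * s⁻¹
          + Y s * (-(s ^ 2)⁻¹) := by
      show -(0.29 * ((1 + 0.4 * Real.tan (θ s)) / 0.58 * s⁻¹) ^ 2 + 1 / s ^ 2)
        = (0.4 * ((1 + Real.tan (θ s) ^ 2) * (0.2 * (0 - s⁻¹)))) / 0.58 * s⁻¹
          + (1 + 0.4 * Real.tan (θ s)) / 0.58 * (-(s ^ 2)⁻¹)
      field_simp
      ring
    rw [h6]
    exact h5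
  have hθc : ∀ s, 0 < s → ContinuousAt θ s := fun s hs => (hθder s hs).continuousAt
  have hlim1 : Filter.Tendsto (fun s => (f s : EReal)) (𝓝[>] ε) (𝓝 ⊤) := by
    rw [EReal.tendsto_coe_nhds_top_iff]
    have h1 : Filter.Tendsto θ (𝓝[>] ε) (𝓝[<] (Real.pi / 2)) := by
      refine tendsto_nhdsWithin_iff.2 ⟨?_, ?_⟩
      · have h2 := (hθc ε hε).tendsto
        have e : θ ε = Real.pi / 2 := by
          show 0.2 * (Real.log R - Real.log ε) - Real.pi / 2 = Real.pi / 2
          rw [hlogR]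
          ring
        rw [e] at h2
        exact h2.mono_left nhdsWithin_le_nhds
      · filter_upwards [Ioo_mem_nhdsGT hεR] with s hs using (harg s hs.1 hs.2).2
    have h3 : Filter.Tendsto Y (𝓝[>] ε) Filter.atTop := by
      refine Filter.Tendsto.atTop_div_const (by norm_num) ?_
      refine Filter.tendsto_atTop_add_const_left _ _ ?_
      exact Filter.Tendsto.const_mul_atTop (by norm_num) (Real.tendsto_tan_pi_div_two.comp h1)
    have h4 : Filter.Tendsto (fun s : ℝ => s⁻¹) (𝓝[>] ε) (𝓝 ε⁻¹) :=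
      ((continuousAt_inv₀ hε.ne').tendsto).mono_left nhdsWithin_le_nhds
    exact h3.atTop_mul_pos (inv_pos.2 hε) h4
  have hlim2 : Filter.Tendsto (fun s => (f s : EReal)) (𝓝[<] R) (𝓝 ⊥) := by
    rw [EReal.tendsto_coe_nhds_bot_iff]
    have h1 : Filter.Tendsto θ (𝓝[<] R) (𝓝[>] (-(Real.pi / 2))) := by
      refine tendsto_nhdsWithin_iff.2 ⟨?_, ?_⟩
      · have h2 := (hθc R hR0).tendsto
        have e : θ R = -(Real.pi / 2) := by
          show 0.2 * (Real.log R - Real.log R) - Real.pi / 2 = -(Real.pi / 2)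
          ring
        rw [e] at h2
        exact h2.mono_left nhdsWithin_le_nhds
      · filter_upwards [Ioo_mem_nhdsLT hεR] with s hs using (harg s hs.1 hs.2).1
    have h3 : Filter.Tendsto Y (𝓝[<] R) Filter.atBot := by
      refine Filter.Tendsto.atBot_div_const (by norm_num) ?_
      refine Filter.tendsto_atBot_add_const_left _ _ ?_
      exact Filter.Tendsto.const_mul_atBot (by norm_num)
        (Real.tendsto_tan_neg_pi_div_two.comp h1)
    have h4 : Filter.Tendsto (fun s : ℝ => s⁻¹) (𝓝[<] R) (𝓝 R⁻¹) :=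
      ((continuousAt_inv₀ hR0.ne').tendsto).mono_left nhdsWithin_le_nhds
    exact h3.atBot_mul_pos (inv_pos.2 hR0) h4
  have hfc : ContinuousOn f (Set.Ioo ε R) := fun s hs =>
    (hder s hs.1 hs.2).continuousAt.continuousWithinAt
  refine ⟨fun s => if s ≤ ε then ⊤ else if R ≤ s then ⊥ else (f s : EReal),
    sh_ereal_glue hεR f ⊤ ⊥ hfc hlim1 hlim2, fun s hs => if_pos hs, fun s hs => ?_,
    fun s h1 h2 => ?_⟩
  · simp only
    rw [if_neg (not_le.2 (lt_of_lt_of_le hεR hs)), if_pos hs]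
  · have hw : ∀ x, ε < x → x < R →
        (if x ≤ ε then ⊤ else if R ≤ x then ⊥ else (f x : EReal)) = (f x : EReal) := by
      intro x hx1 hx2
      rw [if_neg (not_le.2 hx1), if_neg (not_le.2 hx2)]
    simp only
    rw [hw s h1 h2]
    refine ⟨EReal.coe_ne_bot _, EReal.coe_ne_top _, ?_⟩
    rw [EReal.toReal_coe]
    refine (hder s h1 h2).congr_of_eventuallyEq ?_
    filter_upwards [Ioo_mem_nhds h1 h2] with x hx
    rw [hw x hx.1 hx.2, EReal.toReal_coe]

/-- smooth cut-offs with derivative `≤ C0/L`. -/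
theorem sh_cutoff_exists : ∃ C0 : ℝ, 0 < C0 ∧ ∀ T L : ℝ, 0 < L → ∃ b : ℝ → ℝ, ContDiff ℝ ∞ b ∧
    (∀ s, 0 ≤ b s ∧ b s ≤ 1) ∧ (∀ s ≤ T, b s = 0) ∧ (∀ s, T + L ≤ s → b s = 1) ∧ ∀ s, |deriv b s| ≤ C0 / L := by
  have hsm : ContDiff ℝ ∞ Real.smoothTransition := Real.smoothTransition.contDiff
  have hdc : Continuous (deriv Real.smoothTransition) := hsm.continuous_deriv (by simp)
  obtain ⟨C, hC⟩ := (isCompact_Icc (a := (0 : ℝ)) (b := 1)).exists_bound_of_continuousOn
    hdc.continuousOn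
  have hall : ∀ x, |deriv Real.smoothTransition x| ≤ |C| + 1 := by
    intro x
    rcases lt_or_ge x 0 with h | h
    · have h1 : Real.smoothTransition =ᶠ[𝓝 x] fun _ => 0 := by
        filter_upwards [Iio_mem_nhds h] with y hy
          using Real.smoothTransition.zero_of_nonpos (le_of_lt hy)
      rw [h1.deriv_eq, deriv_const, abs_zero]
      positivity
    · rcases le_or_gt x 1 with h' | h'
      · have h1 := hC x ⟨h, h'⟩
        rw [Real.norm_eq_abs] at h1
        linarith [le_abs_self C]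
      · have h1 : Real.smoothTransition =ᶠ[𝓝 x] fun _ => 1 := by
          filter_upwards [Ioi_mem_nhds h'] with y hy
            using Real.smoothTransition.one_of_one_le (le_of_lt hy)
        rw [h1.deriv_eq, deriv_const, abs_zero]
        positivity
  refine ⟨|C| + 1, by positivity, fun T L hL =>
    ⟨fun s => Real.smoothTransition ((s - T) / L), ?_, ?_, ?_, ?_, ?_⟩⟩
  · exact hsm.comp ((contDiff_id.sub contDiff_const).div_const _)
  · exact fun s => ⟨Real.smoothTransition.nonneg _, Real.smoothTransition.le_one _⟩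
  · intro s hs
    exact Real.smoothTransition.zero_of_nonpos
      (div_nonpos_of_nonpos_of_nonneg (by linarith) hL.le)
  · intro s hs
    refine Real.smoothTransition.one_of_one_le ?_
    rw [le_div_iff₀ hL]
    linarith
  · intro s
    have h1 : HasDerivAt (fun s => (s - T) / L) (1 / L) s :=
      ((hasDerivAt_id s).sub_const T).div_const L
    have h2 : HasDerivAt Real.smoothTransition (deriv Real.smoothTransition ((s - T) / L))
        ((s - T) / L) := (hsm.differentiable (by simp) _).hasDerivAt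
    have h3 := h2.comp s h1
    have h4 : deriv (fun s => Real.smoothTransition ((s - T) / L)) s
        = deriv Real.smoothTransition ((s - T) / L) * (1 / L) := h3.deriv
    rw [h4, abs_mul, abs_of_pos (by positivity : 0 < 1 / L), mul_one_div]
    exact div_le_div_of_nonneg_right (hall _) hL.le

end Claimed.Agent.R315
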