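import Claimed.Agent.R315.Sh.Defs

/-!
# Row 315, package SH-PROF-B: calculus of the pointwise Lipschitz slope.  No paper needed.

`SlopeLE X h f z c : ∀ ε > 0, ∃ N ∈ 𝓝 z, ∀ y y' ∈ N ∩ X, |f y - f y'| ≤ (c + ε) rdist X h y y'`  (`Pk/Defs.lean`); `rdist ≥ 0` = `Real.sInf_nonneg` (see the definition of `rdist`, `Claimed/Prelude/Def_0499.lean`).
* `sh_slope_comp`: mean value theorem on a small interval around `f z` where `|φ'| ≤ |φ' (f z)| + ε'`.
* `sh_slope_einf`: near `z` the inactive branches stay strictly above the infimum (continuity in `EReal`), all active branches are finite near `z`, and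
  `|min_k a_k - min_k a'_k| ≤ max_k |a_k - a'_k|`.   `sh_slope_emax`, `sh_slope_emin`: the same for a binary maximum / minimum (`emin` = `einf` over `Bool`; `emax` from `emin` by `sh_slope_neg`, `EReal.toReal_neg_eq`).
-/

set_option autoImplicit false
open scoped ContDiff ENNReal Topology
open MeasureTheory Claims.C0499

namespace Claimed.Agent.R315

/-! ### slope calculus -/

section slope

variable {W : Type} [NormedAddCommGroup W] [NormedSpace ℝ W] {X : Set W} {h : Ten W} {z : W}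

theorem sh_rdist_nonneg (X : Set W) (h : Ten W) (y y' : W) : 0 ≤ rdist X h y y' := by
  exact rdist_nonneg X h y y'

theorem sh_slope_mono {f : W → ℝ} {c c' : ℝ} (hs : SlopeLE X h f z c) (hc : c ≤ c') : SlopeLE X h f z c' := by
  exact hs.mono hc

theorem sh_slope_congr {f g : W → ℝ} {c : ℝ} (hs : SlopeLE X h f z c) (hfg : ∃ N ∈ 𝓝 z, ∀ y ∈ N ∩ X, f y = g y) :
    SlopeLE X h g z c := by
  intro ε hε
  obtain ⟨N, hN, hle⟩ := hs ε hε
  obtain ⟨N', hN', he⟩ := hfg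
  refine ⟨N ∩ N', Filter.inter_mem hN hN', fun y hy y' hy' => ?_⟩
  rw [← he y ⟨hy.1.2, hy.2⟩, ← he y' ⟨hy'.1.2, hy'.2⟩]
  exact hle y ⟨hy.1.1, hy.2⟩ y' ⟨hy'.1.1, hy'.2⟩

theorem sh_slope_neg {f : W → ℝ} {c : ℝ} (hs : SlopeLE X h f z c) : SlopeLE X h (fun y => -f y) z c := by
  intro ε hε
  obtain ⟨N, hN, hle⟩ := hs ε hε
  refine ⟨N, hN, fun y hy y' hy' => ?_⟩
  have h1 := hle y hy y' hy'
  rwa [show -f y - -f y' = -(f y - f y') by ring, abs_neg]

/-- chain rule. -/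
theorem sh_slope_comp {f : W → ℝ} {c : ℝ} (hc : 0 ≤ c) (hs : SlopeLE X h f z c) (hf : ContinuousWithinAt f X z)
    {φ φ' : ℝ → ℝ} (hφ : ∀ᶠ s in 𝓝 (f z), HasDerivAt φ (φ' s) s) (hφ' : ContinuousAt φ' (f z)) :
    SlopeLE X h (fun y => φ (f y)) z (|φ' (f z)| * c) := by
  intro ε hε
  set K : ℝ := |φ' (f z)| with hK
  have hK0 : 0 ≤ K := abs_nonneg _
  have hden : 0 < K + c + 1 := by positivity
  set ε₁ : ℝ := min 1 (ε / (K + c + 1)) with hε₁
  have hε₁0 : 0 < ε₁ := lt_min one_pos (div_pos hε hden)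
  have hε₁1 : ε₁ ≤ 1 := min_le_left _ _
  have hε₁2 : ε₁ * (K + c + 1) ≤ ε := by
    have h1 : ε₁ ≤ ε / (K + c + 1) := min_le_right _ _
    rwa [le_div_iff₀ hden] at h1
  have hb : ∀ᶠ s in 𝓝 (f z), |φ' s| < K + ε₁ := by
    have h1 : Filter.Tendsto (fun s => |φ' s|) (𝓝 (f z)) (𝓝 K) := hφ'.abs
    exact h1.eventually (Iio_mem_nhds (by linarith))
  obtain ⟨δ, hδ, hball⟩ := Metric.eventually_nhds_iff_ball.1 (hφ.and hb)
  have hN1 : f ⁻¹' (Metric.ball (f z) δ) ∈ 𝓝[X] z := hf (Metric.ball_mem_nhds _ hδ)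
  obtain ⟨N₁, hN₁, hsub⟩ := mem_nhdsWithin_iff_exists_mem_nhds_inter.1 hN1
  obtain ⟨N₂, hN₂, hle⟩ := hs ε₁ hε₁0
  refine ⟨N₁ ∩ N₂, Filter.inter_mem hN₁ hN₂, fun y hy y' hy' => ?_⟩
  have hy1 : f y ∈ Metric.ball (f z) δ := hsub ⟨hy.1.1, hy.2⟩
  have hy1' : f y' ∈ Metric.ball (f z) δ := hsub ⟨hy'.1.1, hy'.2⟩
  have hlip := Convex.norm_image_sub_le_of_norm_hasDerivWithin_le (f := φ) (f' := φ')
    (C := K + ε₁) (s := Metric.ball (f z) δ)
    (fun s hs => (hball s hs).1.hasDerivWithinAt)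
    (fun s hs => by rw [Real.norm_eq_abs]; exact (hball s hs).2.le) (convex_ball _ _) hy1' hy1
  rw [Real.norm_eq_abs, Real.norm_eq_abs] at hlip
  have h2 := hle y ⟨hy.1.2, hy.2⟩ y' ⟨hy'.1.2, hy'.2⟩
  have hd := sh_rdist_nonneg X h y y'
  calc |φ (f y) - φ (f y')| ≤ (K + ε₁) * |f y - f y'| := hlip
    _ ≤ (K + ε₁) * ((c + ε₁) * rdist X h y y') := mul_le_mul_of_nonneg_left h2 (by positivity)
    _ = ((K + ε₁) * (c + ε₁)) * rdist X h y y' := by ring
    _ ≤ (K * c + ε) * rdist X h y y' := mul_le_mul_of_nonneg_right (by nlinarith) hd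

omit [NormedSpace ℝ W] in
theorem sh_finset_nhds {κ : Type} (s : Finset κ) (Q : κ → W → W → Prop)
    (hQ : ∀ k ∈ s, ∃ N ∈ 𝓝 z, ∀ y ∈ N ∩ X, ∀ y' ∈ N ∩ X, Q k y y') :
    ∃ N ∈ 𝓝 z, ∀ y ∈ N ∩ X, ∀ y' ∈ N ∩ X, ∀ k ∈ s, Q k y y' := by
  classical
  induction s using Finset.induction_on with
  | empty =>
    exact ⟨Set.univ, Filter.univ_mem, fun _ _ _ _ k hk => absurd hk (Finset.notMem_empty k)⟩
  | insert a s ha ih =>
    obtain ⟨N₁, hN₁, h1⟩ := hQ a (Finset.mem_insert_self a s)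
    obtain ⟨N₂, hN₂, h2⟩ := ih (fun k hk => hQ k (Finset.mem_insert_of_mem hk))
    refine ⟨N₁ ∩ N₂, Filter.inter_mem hN₁ hN₂, fun y hy y' hy' k hk => ?_⟩
    rcases Finset.mem_insert.1 hk with rfl | hk
    · exact h1 y ⟨hy.1.1, hy.2⟩ y' ⟨hy'.1.1, hy'.2⟩
    · exact h2 y ⟨hy.1.2, hy.2⟩ y' ⟨hy'.1.2, hy'.2⟩ k hk

/-- finite infimum of extended profiles: only the active branches count. -/
theorem sh_slope_einf {κ : Type} (s : Finset κ) (f : κ → W → EReal) (hz : z ∈ X)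
    (hcont : ∀ k ∈ s, ContinuousWithinAt (f k) X z) (h1 : (s.inf fun k => f k z) ≠ ⊤)
    (h2 : (s.inf fun k => f k z) ≠ ⊥) {c : ℝ}
    (hact : ∀ k ∈ s, f k z = (s.inf fun k => f k z) → SlopeLE X h (fun y => (f k y).toReal) z c) :
    SlopeLE X h (fun y => (s.inf fun k => f k y).toReal) z c := by
  classical
  intro ε hε
  set m₀ : EReal := s.inf fun k => f k z with hm₀
  have hne : s.Nonempty := by
    by_contra hs
    rw [Finset.not_nonempty_iff_eq_empty] at hs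
    apply h1
    rw [hm₀, hs]
    rfl
  obtain ⟨r, hr1, hr2⟩ : ∃ r : ℝ, m₀ < r ∧ ∀ k ∈ s, f k z ≠ m₀ → (r : EReal) < f k z := by
    have h3 : m₀ < (s.filter fun k => f k z ≠ m₀).inf fun k => f k z := by
      rw [Finset.lt_inf_iff (lt_top_iff_ne_top.2 h1)]
      intro k hk
      rw [Finset.mem_filter] at hk
      exact lt_of_le_of_ne (Finset.inf_le hk.1) (Ne.symm hk.2)
    obtain ⟨r, hr1, hr2⟩ := EReal.lt_iff_exists_real_btwn.1 h3
    exact ⟨r, hr1, fun k hk hne =>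
      lt_of_lt_of_le hr2 (Finset.inf_le (Finset.mem_filter.2 ⟨hk, hne⟩))⟩
  have hQ : ∀ k ∈ s, ∃ N ∈ 𝓝 z, ∀ y ∈ N ∩ X, ∀ y' ∈ N ∩ X,
      (f k z ≠ m₀ → (r : EReal) < f k y ∧ (r : EReal) < f k y') ∧
      (f k z = m₀ → (f k y < r ∧ f k y ≠ ⊥) ∧ (f k y' < r ∧ f k y' ≠ ⊥) ∧
        |(f k y).toReal - (f k y').toReal| ≤ (c + ε) * rdist X h y y') := by
    intro k hk
    by_cases hact' : f k z = m₀
    · obtain ⟨N₁, hN₁, hle⟩ := hact k hk hact' ε hε
      have hopen : Set.Ioo (⊥ : EReal) r ∈ 𝓝 (f k z) :=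
        Ioo_mem_nhds (by rw [hact']; exact bot_lt_iff_ne_bot.2 h2) (by rw [hact']; exact hr1)
      obtain ⟨N₂, hN₂, hsub⟩ := mem_nhdsWithin_iff_exists_mem_nhds_inter.1 (hcont k hk hopen)
      refine ⟨N₁ ∩ N₂, Filter.inter_mem hN₁ hN₂, fun y hy y' hy' =>
        ⟨fun hn => absurd hact' hn, fun _ => ?_⟩⟩
      have a1 : f k y ∈ Set.Ioo (⊥ : EReal) r := hsub ⟨hy.1.2, hy.2⟩
      have a2 : f k y' ∈ Set.Ioo (⊥ : EReal) r := hsub ⟨hy'.1.2, hy'.2⟩
      exact ⟨⟨a1.2, a1.1.ne'⟩, ⟨a2.2, a2.1.ne'⟩, hle y ⟨hy.1.1, hy.2⟩ y' ⟨hy'.1.1, hy'.2⟩⟩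
    · have hopen : Set.Ioi (r : EReal) ∈ 𝓝 (f k z) := Ioi_mem_nhds (hr2 k hk hact')
      obtain ⟨N₂, hN₂, hsub⟩ := mem_nhdsWithin_iff_exists_mem_nhds_inter.1 (hcont k hk hopen)
      exact ⟨N₂, hN₂, fun y hy y' hy' => ⟨fun _ => ⟨hsub hy, hsub hy'⟩, fun h => absurd h hact'⟩⟩
  obtain ⟨N, hN, hall⟩ := sh_finset_nhds s _ hQ
  refine ⟨N, hN, fun y hy y' hy' => ?_⟩
  have H := hall y hy y' hy'
  obtain ⟨k₁, hk₁, hk₁e⟩ := Finset.exists_mem_eq_inf s hne (fun k => f k z)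
  have hk₁a : f k₁ z = m₀ := hk₁e.symm
  obtain ⟨ky, hky, hkye⟩ := Finset.exists_mem_eq_inf s hne (fun k => f k y)
  obtain ⟨ky', hky', hkye'⟩ := Finset.exists_mem_eq_inf s hne (fun k => f k y')
  have hya : f ky z = m₀ := by
    by_contra hn
    have h3 := ((H ky hky).1 hn).1
    have h4 := ((H k₁ hk₁).2 hk₁a).1.1
    have h5 : f ky y ≤ f k₁ y := by
      rw [← hkye]
      exact Finset.inf_le hk₁
    exact absurd (lt_of_lt_of_le h3 h5) (not_lt.2 h4.le)
  have hya' : f ky' z = m₀ := by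
    by_contra hn
    have h3 := ((H ky' hky').1 hn).2
    have h4 := ((H k₁ hk₁).2 hk₁a).2.1.1
    have h5 : f ky' y' ≤ f k₁ y' := by
      rw [← hkye']
      exact Finset.inf_le hk₁
    exact absurd (lt_of_lt_of_le h3 h5) (not_lt.2 h4.le)
  have Hy := (H ky hky).2 hya
  have Hy' := (H ky' hky').2 hya'
  have i1 : (f ky y).toReal ≤ (f ky' y).toReal :=
    EReal.toReal_le_toReal (by rw [← hkye]; exact Finset.inf_le hky') Hy.1.2
      (ne_top_of_lt Hy'.1.1)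
  have i2 : (f ky' y').toReal ≤ (f ky y').toReal :=
    EReal.toReal_le_toReal (by rw [← hkye']; exact Finset.inf_le hky) Hy'.2.1.2
      (ne_top_of_lt Hy.2.1.1)
  simp only
  rw [hkye, hkye', abs_le]
  have j1 := abs_le.1 Hy.2.2
  have j2 := abs_le.1 Hy'.2.2
  constructor <;> linarith [j1.1, j1.2, j2.1, j2.2]

theorem sh_inf_bool (a b : EReal) :
    ({true, false} : Finset Bool).inf (fun k => if k then a else b) = min a b := by
  simp [Finset.inf_insert]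

theorem sh_slope_emin_aux {μ u : W → EReal} (hz : z ∈ X) (hμ : ContinuousWithinAt μ X z)
    (hu : ContinuousWithinAt u X z)
    (h1 : min (μ z) (u z) ≠ ⊤) (h2 : min (μ z) (u z) ≠ ⊥) {c : ℝ}
    (ha : μ z = min (μ z) (u z) → SlopeLE X h (fun y => (μ y).toReal) z c)
    (hb : u z = min (μ z) (u z) → SlopeLE X h (fun y => (u y).toReal) z c) :
    SlopeLE X h (fun y => (min (μ y) (u y)).toReal) z c := by
  have key := sh_slope_einf (X := X) (h := h) (z := z) ({true, false} : Finset Bool)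
    (fun b y => if b then μ y else u y) hz (c := c) ?_ ?_ ?_ ?_
  · simpa only [sh_inf_bool] using key
  · intro k _
    cases k
    · simpa using hu
    · simpa using hμ
  · simpa only [sh_inf_bool] using h1
  · simpa only [sh_inf_bool] using h2
  · intro k _ hk
    simp only [sh_inf_bool] at hk
    cases k
    · simpa using hb (by simpa using hk)
    · simpa using ha (by simpa using hk)

/-- binary maximum of extended profiles. -/
theorem sh_slope_emax {μ u : W → EReal} (hz : z ∈ X) (hμ : ContinuousWithinAt μ X z) (hu : ContinuousWithinAt u X z)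
    (h1 : max (μ z) (u z) ≠ ⊤) (h2 : max (μ z) (u z) ≠ ⊥) {c : ℝ}
    (ha : μ z = max (μ z) (u z) → SlopeLE X h (fun y => (μ y).toReal) z c)
    (hb : u z = max (μ z) (u z) → SlopeLE X h (fun y => (u y).toReal) z c) :
    SlopeLE X h (fun y => (max (μ y) (u y)).toReal) z c := by
  have hneg : ∀ v : W → EReal, ContinuousWithinAt v X z →
      ContinuousWithinAt (fun y => -v y) X z := fun v hv =>
    continuous_neg.continuousAt.comp_continuousWithinAt hv
  have key := sh_slope_emin_aux (X := X) (h := h) (z := z) (μ := fun y => -μ y)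
    (u := fun y => -u y) hz (hneg μ hμ) (hneg u hu) (c := c) ?_ ?_ ?_ ?_
  · have k2 := sh_slope_neg key
    simpa only [EReal.min_neg_neg, EReal.toReal_neg_eq, neg_neg] using k2
  · simp only [EReal.min_neg_neg]
    intro h3
    exact h2 (EReal.neg_eq_top_iff.1 h3)
  · simp only [EReal.min_neg_neg]
    intro h3
    exact h1 (EReal.neg_eq_bot_iff.1 h3)
  · intro h3
    simp only [EReal.min_neg_neg, neg_inj] at h3
    simpa only [EReal.toReal_neg_eq] using sh_slope_neg (ha h3)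
  · intro h3
    simp only [EReal.min_neg_neg, neg_inj] at h3
    simpa only [EReal.toReal_neg_eq] using sh_slope_neg (hb h3)

/-- binary minimum of extended profiles. -/
theorem sh_slope_emin {μ u : W → EReal} (hz : z ∈ X) (hμ : ContinuousWithinAt μ X z) (hu : ContinuousWithinAt u X z)
    (h1 : min (μ z) (u z) ≠ ⊤) (h2 : min (μ z) (u z) ≠ ⊥) {c : ℝ}
    (ha : μ z = min (μ z) (u z) → SlopeLE X h (fun y => (μ y).toReal) z c)
    (hb : u z = min (μ z) (u z) → SlopeLE X h (fun y => (u y).toReal) z c) :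
    SlopeLE X h (fun y => (min (μ y) (u y)).toReal) z c := by
  exact sh_slope_emin_aux hz hμ hu h1 h2 ha hb

end slope

end Claimed.Agent.R315
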