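import Claimed.Agent.R315.Sh.ProfB
import Claimed.Agent.R315.Gs.Calc

/-!
# Row 315, package SH-PROF-C: objects on `E β` built from a gauge (`ShGauge`, `Sh/Defs.lean`): shell potential, shell slope, dyadic angle.  No paper needed.

## shell potential `sh_shell_pot`
`exists_smooth_forall_mem_convex_of_local_const` (Mathlib, `Geometry/Manifold/PartitionOfUnity`; compare `pk_exists_majorant`, `Pk/Thr.lean`) on the manifold `W` with
`t z = univ` for `z ∉ E β`, `t z = {c | lo z ≤ c ≤ up z}` for `z ∈ E β`, `lo z = 2/δ²` on `ε ≤ δ ≤ R`, `0` otherwise; `up z = 0` for `δ ≤ ε/2` or `2R ≤ δ`, `2.12/δ²` otherwise.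
Local constants at `x ∈ E β`: `0` if `δ x < ε` or `δ x > R`; `2.06/δ(x)²` if `ε/2 < δ x < 2R` (continuity of `δ` on the CLOSED set `E β`).  Then multiply by the
indicator of `E β` (`SmoothAlong` only sees the values on `E β`: `pk_smoothAlong_congr`; an ambient smooth function is `SmoothAlong`: compose with the smooth chart).

## shell slope `sh_shell_slope`: `sh_slope_comp` with `f = δ` (`ShGauge.slope`, `c = 1`), `φ = toReal ∘ U`, `φ' = -(.29 φ² + s⁻²)`.

## dyadic angle `sh_dyadic`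
`a = (1/N) ∑_{k < N} χ_{2^k r1}` with the cut-offs of the gauge.  `χ_{2^k r1}` is locally constant on the relatively open sets `{δ < 2^k r1}`, `{δ > 2^{k+1} r1}` (`if_gradSq_eq_zero`-type
locality, `gs_sq_congr_near`, `gs_sq_const`), so at a point with `2^k r1 ≤ δ ≤ 2^{k+1} r1` at most two consecutive cut-offs contribute:
`|∇a|² ≤ (2/N²)(Cc²/(2^{k-1} r1)² + Cc²/(2^k r1)²) ≤ 10 Cc²/(N δ)²`.   Calculus of `gradSq`: `Gs/Calc.lean` (`gs_sq_add`, `gs_sq_smul`, `gs_ip_cs`).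
-/

set_option autoImplicit false
open scoped ContDiff ENNReal Topology
open MeasureTheory Claims.C0499

namespace Claimed.Agent.R315

/-! ### objects on `E β` built from a gauge -/

variable {V W : Type} [NormedAddCommGroup V] [NormedSpace ℝ V] [NormedAddCommGroup W] [NormedSpace ℝ W] {ι : Type}
  [FiniteDimensional ℝ V] [FiniteDimensional ℝ W] [Fintype ι] [MeasurableSpace W] [BorelSpace W]
  {C : ShCtx V W ι} {β : Stat ι} {Fp : Set W} {δ : W → ℝ} {d Cc CF T : ℝ}

/-- the truncated Hardy weight is a measurable function of `s`. -/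
theorem sh_measurable_shW (d ρ : ℝ) : Measurable (shW d ρ) := by
  unfold shW
  refine Measurable.ite measurableSet_Iio ?_ measurable_const
  exact measurable_const.div ((measurable_id.max measurable_const).pow_const 2)

/-- the Hardy weight of a gauge is a measurable function on `W`. -/
theorem ShGauge.measurable_w (hC : C.Ok) (hG : ShGauge C β Fp δ d Cc CF T) (ρ : ℝ) :
    Measurable fun z => shW d ρ (δ z) := by
  classical
  have hK : MeasurableSet {z | δ z ≤ d} := hG.cpt.isClosed.measurableSet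
  have hc : ContinuousOn δ {z | δ z ≤ d} := hG.cont.mono (fun z hz => hG.sub z hz)
  have hm : Measurable ({z | δ z ≤ d}.piecewise δ (fun _ => d + 1)) :=
    hc.measurable_piecewise continuousOn_const hK
  have he : (fun z => shW d ρ (δ z)) = fun z => shW d ρ (({z | δ z ≤ d}.piecewise δ (fun _ => d + 1)) z) := by
    funext z
    by_cases hz : δ z ≤ d
    · rw [Set.piecewise_eq_of_mem _ _ _ (show z ∈ {z | δ z ≤ d} from hz)]
    · rw [Set.piecewise_eq_of_notMem _ _ _ (show z ∉ {z | δ z ≤ d} from hz)]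
      have h1 : ¬ δ z < d := fun h => hz h.le
      have h2 : ¬ d + 1 < d := by linarith
      simp only [shW, if_neg h1, if_neg h2]
  rw [he]
  exact (sh_measurable_shW d ρ).comp hm

omit [FiniteDimensional ℝ V] [FiniteDimensional ℝ W] in
/-- sublevel sets of a gauge are closed. -/
theorem ShGauge.isClosed_le (hG : ShGauge C β Fp δ d Cc CF T) {r : ℝ} (hr : r ≤ d) : IsClosed {z | δ z ≤ r} := by
  have h1 : {z | δ z ≤ r} = {z | δ z ≤ d} ∩ δ ⁻¹' Set.Iic r := by
    ext z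
    exact ⟨fun h => ⟨le_trans h hr, h⟩, fun h => h.2⟩
  rw [h1]
  exact (hG.cont.mono (fun z hz => hG.sub z hz)).preimage_isClosed_of_isClosed hG.cpt.isClosed isClosed_Iic

omit [FiniteDimensional ℝ V] [FiniteDimensional ℝ W] in
/-- strict sublevel sets of a gauge are relatively open in `E β`. -/
theorem ShGauge.relOpen_lt (hG : ShGauge C β Fp δ d Cc CF T) {r : ℝ} (hr : r ≤ d) {z : W} (hz : δ z < r) :
    ∃ N ∈ 𝓝 z, N ∩ C.P.E β ⊆ {y | δ y < r} := by
  have h1 : ContinuousWithinAt δ (C.P.E β) z := hG.cont z (hG.sub z (hz.le.trans hr))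
  have h2 : {y | δ y < r} ∈ 𝓝[C.P.E β] z := h1 (Iio_mem_nhds hz)
  obtain ⟨N, hN, hsub⟩ := mem_nhdsWithin_iff_exists_mem_nhds_inter.1 h2
  exact ⟨N, hN, hsub⟩

theorem sh_shW_nonneg (d ρ s : ℝ) : 0 ≤ shW d ρ s := by
  unfold shW
  split_ifs
  · positivity
  · exact le_rfl

/-- numerics of the shell potential. -/
theorem sh_shell_num {a b : ℝ} (ha : 0 < a) (h1 : 0.99 * a < b) (h2 : b < 1.01 * a) :
    2 / b ^ 2 ≤ 2.06 / a ^ 2 ∧ 2.06 / a ^ 2 ≤ 2.12 / b ^ 2 := by
  have hb : 0 < b := lt_trans (by positivity) h1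
  constructor
  · rw [div_le_div_iff₀ (by positivity) (by positivity)]
    nlinarith [mul_pos ha ha, mul_pos hb hb, mul_pos ha hb]
  · rw [div_le_div_iff₀ (by positivity) (by positivity)]
    nlinarith [mul_pos ha ha, mul_pos hb hb, mul_pos ha hb]

/-- the shell potential, with `R` in place of `e^{5π} ε`. -/
theorem sh_shell_pot_aux (hG : ShGauge C β Fp δ d Cc CF T) {ε R : ℝ} (hε : 0 < ε) (hεR : ε < R)
    (hεd : 2 * R < d) :
    ∃ D : W → ℝ, SmoothAlong (C.m β) (C.P.E β) D ∧ (∀ z, 0 ≤ D z) ∧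
      (∀ z, ε ≤ δ z → δ z ≤ R → 2 / δ z ^ 2 ≤ D z) ∧
      (∀ z, D z ≤ 2.12 * shW d (ε / 2) (δ z)) ∧
      (∀ z, δ z ≤ ε / 2 ∨ 2 * R ≤ δ z → D z = 0) := by
  classical
  have hR0 : 0 < R := hε.trans hεR
  obtain ⟨lo, hlo⟩ : ∃ lo : W → ℝ, lo = fun z => if ε ≤ δ z ∧ δ z ≤ R then 2 / δ z ^ 2 else 0 := ⟨_, rfl⟩
  obtain ⟨up, hup⟩ : ∃ up : W → ℝ, up = fun z => if δ z ≤ ε / 2 ∨ 2 * R ≤ δ z then 0 else 2.12 / δ z ^ 2 :=
    ⟨_, rfl⟩
  obtain ⟨t, ht⟩ : ∃ t : W → Set ℝ, t = fun z => if z ∈ C.P.E β then Set.Icc (lo z) (up z) else Set.univ :=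
    ⟨_, rfl⟩
  have htE : ∀ z, z ∈ C.P.E β → t z = Set.Icc (lo z) (up z) := fun z hz => by rw [ht]; exact if_pos hz
  have htn : ∀ z, z ∉ C.P.E β → t z = Set.univ := fun z hz => by rw [ht]; exact if_neg hz
  have hlo0 : ∀ z, 0 ≤ lo z := by
    intro z
    rw [hlo]
    dsimp only
    split_ifs
    · positivity
    · exact le_rfl
  have hup0 : ∀ z, 0 ≤ up z := by
    intro z
    rw [hup]
    dsimp only
    split_ifs
    · exact le_rfl
    · positivity
  have hconv : ∀ z, Convex ℝ (t z) := by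
    intro z
    by_cases hz : z ∈ C.P.E β
    · rw [htE z hz]; exact convex_Icc _ _
    · rw [htn z hz]; exact convex_univ
  have hzero : ∀ y, (δ y < ε ∨ R < δ y) → (0 : ℝ) ∈ t y := by
    intro y hy
    by_cases hyE : y ∈ C.P.E β
    · rw [htE y hyE]
      refine ⟨le_of_eq ?_, hup0 y⟩
      rw [hlo]
      dsimp only
      rw [if_neg]
      rintro ⟨h1, h2⟩
      rcases hy with hy | hy <;> linarith
    · rw [htn y hyE]; trivial
  have hloc : ∀ x : W, ∃ c : ℝ, ∀ᶠ y in 𝓝 x, c ∈ t y := by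
    intro x
    rcases lt_or_ge R (δ x) with hx | hx
    · refine ⟨0, ?_⟩
      have hopen : IsOpen {y | δ y ≤ R}ᶜ := (hG.isClosed_le (by linarith)).isOpen_compl
      have hxm : x ∈ {y | δ y ≤ R}ᶜ := by
        simp only [Set.mem_compl_iff, Set.mem_ofPred_eq, not_le]
        exact hx
      filter_upwards [hopen.mem_nhds hxm] with y hy
      simp only [Set.mem_compl_iff, Set.mem_ofPred_eq, not_le] at hy
      exact hzero y (Or.inr hy)
    · have hxE : x ∈ C.P.E β := hG.sub x (by linarith)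
      rcases lt_or_ge (δ x) ε with hx' | hx'
      · refine ⟨0, ?_⟩
        have h3 : ∀ᶠ y in 𝓝[C.P.E β] x, δ y ∈ Set.Iio ε := (hG.cont x hxE).eventually (Iio_mem_nhds hx')
        rw [eventually_nhdsWithin_iff] at h3
        filter_upwards [h3] with y hy
        by_cases hyE : y ∈ C.P.E β
        · exact hzero y (Or.inl (hy hyE))
        · rw [htn y hyE]; trivial
      · refine ⟨2.06 / δ x ^ 2, ?_⟩
        have hx0 : 0 < δ x := hε.trans_le hx'
        have h3 : ∀ᶠ y in 𝓝[C.P.E β] x, δ y ∈ Set.Ioo (0.99 * δ x) (1.01 * δ x) :=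
          (hG.cont x hxE).eventually (Ioo_mem_nhds (by linarith) (by linarith))
        rw [eventually_nhdsWithin_iff] at h3
        filter_upwards [h3] with y hy
        by_cases hyE : y ∈ C.P.E β
        · obtain ⟨hy1, hy2⟩ := hy hyE
          obtain ⟨n1, n2⟩ := sh_shell_num hx0 hy1 hy2
          rw [htE y hyE]
          constructor
          · rw [hlo]
            dsimp only
            split_ifs
            · exact n1
            · positivity
          · rw [hup]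
            dsimp only
            rw [if_neg]
            · exact n2
            · rintro (h | h) <;> linarith
        · rw [htn y hyE]; trivial
  obtain ⟨g, hg⟩ := exists_contMDiffMap_forall_mem_convex_of_local_const (n := (⊤ : ℕ∞))
    (modelWithCornersSelf ℝ W) (t := t) hconv hloc
  have hgs : ContDiff ℝ ∞ g := g.contMDiff.contDiff
  have hgE : ∀ z, z ∈ C.P.E β → lo z ≤ g z ∧ g z ≤ up z := by
    intro z hz
    have := hg z
    rw [htE z hz] at this
    exact this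
  refine ⟨(C.P.E β).indicator g, ?_, ?_, ?_, ?_, ?_⟩
  · exact gs_sm_congr (if_smoothAlong_of_contDiff hgs) (fun x hx => Set.indicator_of_mem hx _)
  · intro z
    by_cases hz : z ∈ C.P.E β
    · rw [Set.indicator_of_mem hz]; exact (hlo0 z).trans (hgE z hz).1
    · rw [Set.indicator_of_notMem hz]
  · intro z h1 h2
    have hz : z ∈ C.P.E β := hG.sub z (by linarith)
    rw [Set.indicator_of_mem hz]
    refine le_trans (le_of_eq ?_) (hgE z hz).1
    rw [hlo]
    dsimp only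
    rw [if_pos ⟨h1, h2⟩]
  · intro z
    have hw := sh_shW_nonneg d (ε / 2) (δ z)
    by_cases hz : z ∈ C.P.E β
    · rw [Set.indicator_of_mem hz]
      refine (hgE z hz).2.trans ?_
      rw [hup]
      dsimp only
      split_ifs with h
      · positivity
      · push Not at h
        have h1 : δ z < d := by linarith
        have h2 : max (δ z) (ε / 2) = δ z := max_eq_left h.1.le
        rw [shW, if_pos h1, h2]
        apply le_of_eq
        ring
    · rw [Set.indicator_of_notMem hz]; positivity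
  · intro z h
    by_cases hz : z ∈ C.P.E β
    · rw [Set.indicator_of_mem hz]
      refine le_antisymm (le_trans (hgE z hz).2 (le_of_eq ?_)) ((hlo0 z).trans (hgE z hz).1)
      rw [hup]
      dsimp only
      rw [if_pos h]
    · rw [Set.indicator_of_notMem hz]

/-- **shell potential** (P (C.4)). -/
theorem sh_shell_pot (hC : C.Ok) (hG : ShGauge C β Fp δ d Cc CF T) {ε : ℝ} (hε : 0 < ε)
    (hεd : 2 * (Real.exp (5 * Real.pi) * ε) < d) :
    ∃ D : W → ℝ, SmoothAlong (C.m β) (C.P.E β) D ∧ (∀ z, 0 ≤ D z) ∧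
      (∀ z, ε ≤ δ z → δ z ≤ Real.exp (5 * Real.pi) * ε → 2 / δ z ^ 2 ≤ D z) ∧
      (∀ z, D z ≤ 2.12 * shW d (ε / 2) (δ z)) ∧
      (∀ z, δ z ≤ ε / 2 ∨ 2 * (Real.exp (5 * Real.pi) * ε) ≤ δ z → D z = 0) := by
  refine sh_shell_pot_aux hG hε ?_ hεd
  have h1 : 1 < Real.exp (5 * Real.pi) := Real.one_lt_exp_iff.2 (by positivity)
  nlinarith

/-- **shell forcing profile on `E β`** (P Lemma C.3): `u0 = U ∘ δ`. -/
theorem sh_shell_slope (hC : C.Ok) (hG : ShGauge C β Fp δ d Cc CF T) {ε : ℝ} (hε : 0 < ε)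
    (hεd : Real.exp (5 * Real.pi) * ε < d) {U : ℝ → EReal}
    (hU : ∀ s, ε < s → s < Real.exp (5 * Real.pi) * ε → U s ≠ ⊥ ∧ U s ≠ ⊤ ∧
        HasDerivAt (fun σ => (U σ).toReal) (-(0.29 * (U s).toReal ^ 2 + 1 / s ^ 2)) s)
    (hUc : Continuous U) {z : W} (h1 : ε < δ z) (h2 : δ z < Real.exp (5 * Real.pi) * ε) :
    SlopeLE (C.P.E β) C.P.h (fun y => (U (δ y)).toReal) z ((0.58 * (U (δ z)).toReal ^ 2 + 2 / δ z ^ 2) / 2) := by
  have hzd : δ z < d := h2.trans hεd
  have hzE : z ∈ C.P.E β := hG.sub z hzd.le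
  have hpos : 0 < δ z := hε.trans h1
  have hev : ∀ᶠ s in 𝓝 (δ z), HasDerivAt (fun σ => (U σ).toReal) ((fun s => -(0.29 * (U s).toReal ^ 2 + 1 / s ^ 2)) s) s := by
    filter_upwards [Ioo_mem_nhds h1 h2] with s hs
    exact (hU s hs.1 hs.2).2.2
  have hcU : ContinuousAt (fun σ => (U σ).toReal) (δ z) := (hU _ h1 h2).2.2.continuousAt
  have hc' : ContinuousAt (fun s => -(0.29 * (U s).toReal ^ 2 + 1 / s ^ 2)) (δ z) := by
    refine ContinuousAt.neg (ContinuousAt.add (continuousAt_const.mul (hcU.pow 2)) ?_)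
    exact continuousAt_const.div (continuousAt_id.pow 2) (by positivity)
  have h := sh_slope_comp (X := C.P.E β) (h := C.P.h) (z := z) (f := δ) (c := 1) zero_le_one (hG.slope z hzd)
    (hG.cont z hzE) hev hc'
  refine sh_slope_mono h (le_of_eq ?_)
  have hnn : 0 ≤ 0.29 * (U (δ z)).toReal ^ 2 + 1 / δ z ^ 2 := by positivity
  rw [abs_neg, abs_of_nonneg hnn]
  ring

section gs

variable {dd : ℕ} {M : Set W} {h : Ten W} {x : W}

omit [MeasurableSpace W] [BorelSpace W] in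
/-- `√gradSq` is subadditive. -/
theorem sh_gs_sqrt_add {f k : W → ℝ} (hM : IsMfd dd M) (hh : IsMetricOn dd M h)
    (hf : SmoothAlong dd M f) (hk : SmoothAlong dd M k) (hx : x ∈ M) :
    Real.sqrt (gradSq dd M h (fun y => f y + k y) x) ≤
      Real.sqrt (gradSq dd M h f x) + Real.sqrt (gradSq dd M h k x) := by
  have h1 := gs_sq_add hM hh hf hk hx
  have h2 := gs_ip_cs hM hh hf hk hx
  have hf0 := gs_sq_nonneg hM hh hf hx
  have hk0 := gs_sq_nonneg hM hh hk hx
  rw [h1]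
  refine Real.sqrt_le_iff.2 ⟨by positivity, ?_⟩
  have h3 : gradIp dd M h f k x ≤ Real.sqrt (gradSq dd M h f x) * Real.sqrt (gradSq dd M h k x) := by
    rw [← Real.sqrt_mul hf0]
    exact Real.le_sqrt_of_sq_le h2
  have e1 := Real.sq_sqrt hf0
  have e2 := Real.sq_sqrt hk0
  nlinarith

omit [MeasurableSpace W] [BorelSpace W] in
/-- `√gradSq` of a finite sum. -/
theorem sh_gs_sqrt_sum {κ : Type} (s : Finset κ) {F : κ → W → ℝ} (hM : IsMfd dd M) (hh : IsMetricOn dd M h)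
    (hF : ∀ i ∈ s, SmoothAlong dd M (F i)) (hx : x ∈ M) :
    Real.sqrt (gradSq dd M h (fun y => ∑ i ∈ s, F i y) x) ≤ ∑ i ∈ s, Real.sqrt (gradSq dd M h (F i) x) := by
  classical
  induction s using Finset.induction_on with
  | empty =>
    simp only [Finset.sum_empty]
    rw [gs_sq_const hM hh 0 hx, Real.sqrt_zero]
  | insert a s ha ih =>
    have hs : ∀ i ∈ s, SmoothAlong dd M (F i) := fun i hi => hF i (Finset.mem_insert_of_mem hi)
    simp only [Finset.sum_insert ha]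
    refine (sh_gs_sqrt_add hM hh (hF a (Finset.mem_insert_self a s)) (gs_sm_sum s hs) hx).trans ?_
    exact add_le_add le_rfl (ih hs)

end gs

/-- at most two dyadic shells contain a given radius. -/
theorem sh_dyadic_card {r1 s : ℝ} (hr1 : 0 < r1) (N : ℕ) :
    ((Finset.range N).filter (fun k : ℕ => 2 ^ k * r1 ≤ s ∧ s ≤ 2 ^ (k + 1) * r1)).card ≤ 2 := by
  classical
  obtain ⟨S, hS⟩ : ∃ S : Finset ℕ, S = (Finset.range N).filter (fun k : ℕ => 2 ^ k * r1 ≤ s ∧ s ≤ 2 ^ (k + 1) * r1) :=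
    ⟨_, rfl⟩
  rw [← hS]
  rcases S.eq_empty_or_nonempty with h0 | h0
  · rw [h0]; simp
  · have hsub : S ⊆ Finset.Icc (S.min' h0) (S.min' h0 + 1) := by
      intro k hk
      have hm := Finset.min'_mem S h0
      have hle := Finset.min'_le S k hk
      obtain ⟨m, hmdef⟩ : ∃ m, m = S.min' h0 := ⟨_, rfl⟩
      rw [← hmdef] at hm hle ⊢
      rw [hS, Finset.mem_filter] at hm hk
      rw [Finset.mem_Icc]
      refine ⟨hle, ?_⟩
      have h1 : (2:ℝ) ^ k * r1 ≤ 2 ^ (m + 1) * r1 := hk.2.1.trans hm.2.2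
      have h2 : (2:ℝ) ^ k ≤ 2 ^ (m + 1) := le_of_mul_le_mul_right h1 hr1
      exact (pow_le_pow_iff_right₀ (by norm_num : (1:ℝ) < 2)).1 h2
    calc S.card ≤ (Finset.Icc (S.min' h0) (S.min' h0 + 1)).card := Finset.card_le_card hsub
      _ = 2 := by rw [Nat.card_Icc]; omega

/-- a cut-off of the gauge has no gradient off its shell. -/
theorem sh_cut_grad_zero (hC : C.Ok) (hG : ShGauge C β Fp δ d Cc CF T) {r : ℝ} (hr : 2 * r ≤ d) (hr0 : 0 < r)
    {χ : W → ℝ} (h1 : ∀ z, δ z ≤ r → χ z = 1) (h0 : ∀ z, 2 * r ≤ δ z → χ z = 0) {z : W} (hz : z ∈ C.P.E β)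
    (hs : δ z < r ∨ 2 * r < δ z) : gradSq (C.m β) (C.P.E β) C.P.h χ z = 0 := by
  have hM : IsMfd (C.m β) (C.P.E β) := hC.inv.diag.mfd β
  have hh : IsMetricOn (C.m β) (C.P.E β) C.P.h := hC.inv.met.met β
  rcases hs with hs | hs
  · obtain ⟨Nb, hNb, hsub⟩ := hG.relOpen_lt (r := r) (by linarith) hs
    rw [gs_sq_congr_near (f' := fun _ => 1) hNb (fun y hy => h1 y (le_of_lt (hsub ⟨hy.2, hy.1⟩)))]
    exact gs_sq_const hM hh 1 hz
  · have hopen : IsOpen {y | δ y ≤ 2 * r}ᶜ := (hG.isClosed_le hr).isOpen_compl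
    have hzm : z ∈ {y | δ y ≤ 2 * r}ᶜ := by
      simp only [Set.mem_compl_iff, Set.mem_ofPred_eq, not_le]
      exact hs
    rw [gs_sq_congr_near (f' := fun _ => 0) (hopen.mem_nhds hzm) (fun y hy => h0 y (by
      have := hy.2
      simp only [Set.mem_compl_iff, Set.mem_ofPred_eq, not_le] at this
      exact this.le))]
    exact gs_sq_const hM hh 0 hz

/-- **dyadic angle**: a cut-off with logarithmically small gradient. -/
theorem sh_dyadic (hC : C.Ok) (hG : ShGauge C β Fp δ d Cc CF T) {r1 : ℝ} (hr1 : 0 < r1) {N : ℕ} (hN : 0 < N)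
    (hr : 2 ^ N * r1 < d) :
    ∃ a : W → ℝ, SmoothAlong (C.m β) (C.P.E β) a ∧ (∀ z, 0 ≤ a z ∧ a z ≤ 1) ∧ (∀ z, δ z ≤ r1 → a z = 1) ∧
      (∀ z, 2 ^ N * r1 ≤ δ z → a z = 0) ∧
      ∀ z ∈ C.P.E β, gradSq (C.m β) (C.P.E β) C.P.h a z ≤ (4 * Cc / N) ^ 2 * shW d r1 (δ z) := by
  classical
  have hM : IsMfd (C.m β) (C.P.E β) := hC.inv.diag.mfd β
  have hh : IsMetricOn (C.m β) (C.P.E β) C.P.h := hC.inv.met.met β
  have hNr : (0 : ℝ) < N := Nat.cast_pos.2 hN
  have hpw : ∀ k : ℕ, k < N → 2 * (2 ^ k * r1) ≤ 2 ^ N * r1 := by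
    intro k hk
    have h1 : (2 : ℝ) ^ (k + 1) ≤ 2 ^ N := pow_le_pow_right₀ (by norm_num) hk
    have h2 : 2 * (2 ^ k * r1) = 2 ^ (k + 1) * r1 := by ring
    rw [h2]
    exact mul_le_mul_of_nonneg_right h1 hr1.le
  have hcut : ∀ k : ℕ, k < N → ∃ χ : W → ℝ, SmoothAlong (C.m β) (C.P.E β) χ ∧ (∀ z, 0 ≤ χ z ∧ χ z ≤ 1) ∧
      (∀ z, δ z ≤ 2 ^ k * r1 → χ z = 1) ∧ (∀ z, 2 * (2 ^ k * r1) ≤ δ z → χ z = 0) ∧
      ∀ z ∈ C.P.E β, gradSq (C.m β) (C.P.E β) C.P.h χ z ≤ (Cc / (2 ^ k * r1)) ^ 2 :=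
    fun k hk => hG.cut (2 ^ k * r1) (by positivity) ((hpw k hk).trans hr.le)
  choose! χ c1 c2 c3 c4 c5 using hcut
  have hsm : SmoothAlong (C.m β) (C.P.E β) (fun z => ∑ k ∈ Finset.range N, χ k z) :=
    gs_sm_sum _ (fun k hk => c1 k (Finset.mem_range.1 hk))
  refine ⟨fun z => (1 / (N : ℝ)) * ∑ k ∈ Finset.range N, χ k z, gs_sm_smul _ hsm, ?_, ?_, ?_, ?_⟩
  · intro z
    have h0 : 0 ≤ ∑ k ∈ Finset.range N, χ k z :=
      Finset.sum_nonneg (fun k hk => (c2 k (Finset.mem_range.1 hk) z).1)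
    have h1 : ∑ k ∈ Finset.range N, χ k z ≤ N := by
      have := Finset.sum_le_card_nsmul (Finset.range N) (fun k => χ k z) 1
        (fun k hk => (c2 k (Finset.mem_range.1 hk) z).2)
      simpa using this
    refine ⟨by positivity, ?_⟩
    rw [one_div, inv_mul_le_iff₀ hNr, mul_one]
    exact h1
  · intro z hz
    have h1 : ∑ k ∈ Finset.range N, χ k z = ∑ k ∈ Finset.range N, (1 : ℝ) := by
      refine Finset.sum_congr rfl (fun k hk => c3 k (Finset.mem_range.1 hk) z (hz.trans ?_))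
      have : (1 : ℝ) ≤ 2 ^ k := one_le_pow₀ (by norm_num)
      nlinarith
    dsimp only
    rw [h1]
    simp only [Finset.sum_const, Finset.card_range, nsmul_eq_mul, mul_one]
    field_simp
  · intro z hz
    have h1 : ∑ k ∈ Finset.range N, χ k z = 0 :=
      Finset.sum_eq_zero (fun k hk => c4 k (Finset.mem_range.1 hk) z ((hpw k (Finset.mem_range.1 hk)).trans hz))
    dsimp only
    rw [h1, mul_zero]
  · intro z hz
    rw [gs_sq_smul hM hh _ hsm hz]
    have hsum := sh_gs_sqrt_sum (Finset.range N) (F := χ) hM hh (fun k hk => c1 k (Finset.mem_range.1 hk)) hz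
    obtain ⟨S, hS⟩ : ∃ S : Finset ℕ,
        S = (Finset.range N).filter (fun k : ℕ => 2 ^ k * r1 ≤ δ z ∧ δ z ≤ 2 ^ (k + 1) * r1) := ⟨_, rfl⟩
    have hcard : S.card ≤ 2 := by rw [hS]; exact sh_dyadic_card hr1 N
    have hsplit : ∑ k ∈ Finset.range N, Real.sqrt (gradSq (C.m β) (C.P.E β) C.P.h (χ k) z) =
        ∑ k ∈ S, Real.sqrt (gradSq (C.m β) (C.P.E β) C.P.h (χ k) z) := by
      rw [hS, Finset.sum_filter]
      refine Finset.sum_congr rfl (fun k hk => ?_)
      have hk' := Finset.mem_range.1 hk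
      split_ifs with hc
      · rfl
      · have hz0 : gradSq (C.m β) (C.P.E β) C.P.h (χ k) z = 0 := by
          refine sh_cut_grad_zero hC hG ((hpw k hk').trans hr.le) (by positivity) (c3 k hk') (c4 k hk') hz ?_
          by_contra hcon
          push Not at hcon
          refine hc ⟨hcon.1, hcon.2.trans (le_of_eq ?_)⟩
          ring
        rw [hz0, Real.sqrt_zero]
    have hw := sh_shW_nonneg d r1 (δ z)
    rcases S.eq_empty_or_nonempty with h0 | ⟨k0, hk0⟩
    · rw [hsplit, h0, Finset.sum_empty] at hsum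
      have h1 : gradSq (C.m β) (C.P.E β) C.P.h (fun y => ∑ k ∈ Finset.range N, χ k y) z = 0 :=
        le_antisymm (Real.sqrt_eq_zero'.1 (le_antisymm hsum (Real.sqrt_nonneg _))) (gs_sq_nonneg hM hh hsm hz)
      rw [h1, mul_zero]
      positivity
    · have hk0' := hk0
      rw [hS, Finset.mem_filter] at hk0'
      have hkN := Finset.mem_range.1 hk0'.1
      have hδ1 : r1 ≤ δ z := by
        refine le_trans ?_ hk0'.2.1
        have : (1 : ℝ) ≤ 2 ^ k0 := one_le_pow₀ (by norm_num)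
        nlinarith
      have hδ0 : 0 < δ z := hr1.trans_le hδ1
      have hδd : δ z < d := by
        refine lt_of_le_of_lt (hk0'.2.2.trans ?_) hr
        have := hpw k0 hkN
        calc (2:ℝ) ^ (k0 + 1) * r1 = 2 * (2 ^ k0 * r1) := by ring
          _ ≤ _ := this
      have hterm : ∀ k ∈ S, Real.sqrt (gradSq (C.m β) (C.P.E β) C.P.h (χ k) z) ≤ 2 * |Cc| / δ z := by
        intro k hk
        rw [hS, Finset.mem_filter] at hk
        have hk' := Finset.mem_range.1 hk.1
        have hp : (0 : ℝ) < 2 ^ k * r1 := by positivity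
        refine (Real.sqrt_le_sqrt (c5 k hk' z hz)).trans ?_
        rw [Real.sqrt_sq_eq_abs, abs_div, abs_of_pos hp, div_le_div_iff₀ hp hδ0]
        have h2 : δ z ≤ 2 * (2 ^ k * r1) := hk.2.2.trans (le_of_eq (by ring))
        have := abs_nonneg Cc
        nlinarith
      have hS2 : ∑ k ∈ S, Real.sqrt (gradSq (C.m β) (C.P.E β) C.P.h (χ k) z) ≤ 4 * |Cc| / δ z := by
        refine (Finset.sum_le_card_nsmul S _ _ hterm).trans ?_
        rw [nsmul_eq_mul]
        have h2 : (S.card : ℝ) ≤ 2 := by exact_mod_cast hcard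
        have h3 : 0 ≤ 2 * |Cc| / δ z := by positivity
        calc (S.card : ℝ) * (2 * |Cc| / δ z) ≤ 2 * (2 * |Cc| / δ z) := mul_le_mul_of_nonneg_right h2 h3
          _ = 4 * |Cc| / δ z := by ring
      rw [hsplit] at hsum
      have h4 := (Real.sqrt_le_iff.1 (hsum.trans hS2)).2
      have h5 : shW d r1 (δ z) = 1 / δ z ^ 2 := by
        rw [shW, if_pos hδd, max_eq_left hδ1]
      rw [h5]
      have h6 : (4 * |Cc| / δ z) ^ 2 = 16 * Cc ^ 2 / δ z ^ 2 := by
        rw [div_pow, mul_pow, sq_abs]; norm_num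
      rw [h6] at h4
      calc (1 / (N : ℝ)) ^ 2 * gradSq (C.m β) (C.P.E β) C.P.h (fun y => ∑ k ∈ Finset.range N, χ k y) z
          ≤ (1 / (N : ℝ)) ^ 2 * (16 * Cc ^ 2 / δ z ^ 2) := mul_le_mul_of_nonneg_left h4 (by positivity)
        _ = (4 * Cc / N) ^ 2 * (1 / δ z ^ 2) := by
          field_simp
          ring

end Claimed.Agent.R315
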